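import Vale.Agent.P202.CharP.DefsF

/-!
P202-CHARP, task F1: flatness over a polynomial ring from a regular sequence
(local criterion of flatness).
-/

namespace Vale.Agent.P202.CharP

open Submodule TensorProduct IsLocalRing LinearMap

section general

variable {P : Type*} [CommRing P] {M : Type*} [AddCommGroup M] [Module P M]

/-- adding one regular element to an ideal. -/
lemma lTensor_inj_sup_span (I : Ideal P) (c : P)
    (hI : Function.Injective (I.subtype.lTensor M))
    (hreg : ∀ m : M, c • m ∈ I • (⊤ : Submodule P M) → m ∈ I • (⊤ : Submodule P M)) :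
    Function.Injective ((I ⊔ Ideal.span {c}).subtype.lTensor M) := by
  have hc : c ∈ I ⊔ Ideal.span {c} := Ideal.mem_sup_right (Ideal.subset_span rfl)
  have hle : I ≤ I ⊔ Ideal.span {c} := le_sup_left
  let ι : I →ₗ[P] ↥(I ⊔ Ideal.span {c}) := Submodule.inclusion hle
  let μ : (M ⊗[P] ↥(I ⊔ Ideal.span {c})) →ₗ[P] M :=
    (TensorProduct.rid P M).toLinearMap ∘ₗ ((I ⊔ Ideal.span {c}).subtype.lTensor M)
  let μ' : (M ⊗[P] I) →ₗ[P] M :=
    (TensorProduct.rid P M).toLinearMap ∘ₗ (I.subtype.lTensor M)
  have hμ' : Function.Injective μ' := (TensorProduct.rid P M).injective.comp hI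
  have hμι : ∀ u, μ (ι.lTensor M u) = μ' u := by
    intro u
    simp only [μ, μ', LinearMap.comp_apply, ← LinearMap.lTensor_comp_apply]
    rfl
  have hμt : ∀ (m : M) (j : ↥(I ⊔ Ideal.span {c})), μ (m ⊗ₜ j) = (j : P) • m := by
    intro m j; simp [μ]
  have hμt' : ∀ (m : M) (j : I), μ' (m ⊗ₜ j) = (j : P) • m := by
    intro m j; simp [μ']
  have hμ'r : ∀ u, μ' u ∈ I • (⊤ : Submodule P M) := by
    intro u
    induction u using TensorProduct.induction_on with
    | zero => rw [map_zero]; exact zero_mem _
    | tmul m j => rw [hμt']; exact Submodule.smul_mem_smul j.2 trivial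
    | add x y hx hy => rw [map_add]; exact add_mem hx hy
  have hdec : ∀ z : M ⊗[P] ↥(I ⊔ Ideal.span {c}), ∃ (u : M ⊗[P] I) (m : M),
      z = ι.lTensor M u + m ⊗ₜ[P] (⟨c, hc⟩ : ↥(I ⊔ Ideal.span {c})) := by
    intro z
    induction z using TensorProduct.induction_on with
    | zero => exact ⟨0, 0, by simp⟩
    | tmul m j =>
      obtain ⟨i, hi, s, hs, his⟩ := Submodule.mem_sup.mp j.2
      obtain ⟨b, rfl⟩ := Ideal.mem_span_singleton'.mp hs
      refine ⟨m ⊗ₜ ⟨i, hi⟩, b • m, ?_⟩
      rw [LinearMap.lTensor_tmul, TensorProduct.smul_tmul, ← TensorProduct.tmul_add]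
      congr 1
      apply Subtype.ext
      exact his.symm
    | add x y hx hy =>
      obtain ⟨u, m, rfl⟩ := hx
      obtain ⟨u', m', rfl⟩ := hy
      refine ⟨u + u', m + m', ?_⟩
      rw [map_add, TensorProduct.add_tmul]
      abel
  rw [← LinearMap.ker_eq_bot, LinearMap.ker_eq_bot']
  intro z hz
  have hz' : μ z = 0 := by simp only [μ, LinearMap.comp_apply, hz, map_zero]
  obtain ⟨u, m, rfl⟩ := hdec z
  rw [map_add, hμι, hμt] at hz'
  have hm : m ∈ I • (⊤ : Submodule P M) := by
    apply hreg
    have : c • m = - μ' u := by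
      rw [eq_neg_iff_add_eq_zero, add_comm]; exact hz'
    rw [this]
    exact neg_mem (hμ'r u)
  have hin : ∀ m ∈ I • (⊤ : Submodule P M), ∃ u' : M ⊗[P] I,
      m ⊗ₜ[P] (⟨c, hc⟩ : ↥(I ⊔ Ideal.span {c})) = ι.lTensor M u' := by
    intro m hm
    induction hm using Submodule.smul_induction_on' with
    | smul i hi m' hm' =>
      refine ⟨(c • m') ⊗ₜ ⟨i, hi⟩, ?_⟩
      rw [LinearMap.lTensor_tmul, TensorProduct.smul_tmul, TensorProduct.smul_tmul]
      congr 1
      apply Subtype.ext
      exact mul_comm i c
    | add x hx y hy hx' hy' =>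
      obtain ⟨u', h1⟩ := hx'
      obtain ⟨u'', h2⟩ := hy'
      exact ⟨u' + u'', by rw [TensorProduct.add_tmul, h1, h2, map_add]⟩
  obtain ⟨u', hu'⟩ := hin m hm
  have h0 : μ' (u + u') = 0 := by
    rw [map_add, ← hμι u', ← hu', hμt]
    exact hz'
  have h1 : u + u' = 0 := hμ' (by rw [h0, map_zero])
  rw [hu', ← map_add, h1, map_zero]

/-- one simple step. -/
lemma lTensor_inj_step (n : Ideal P) (hn : Function.Injective (n.subtype.lTensor M))
    {N : Type*} [AddCommGroup N] [Module P N] (N' : Submodule P N) (u : N)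
    (hu : ∀ a : P, a • u ∈ N' ↔ a ∈ n) :
    Function.Injective
      ((Submodule.inclusion (le_sup_left : N' ≤ N' ⊔ Submodule.span P {u})).lTensor M) := by
  have huK : u ∈ N' ⊔ Submodule.span P {u} :=
    Submodule.mem_sup_right (Submodule.mem_span_singleton_self u)
  let K := N' ⊔ Submodule.span P {u}
  let ι : N' →ₗ[P] K := Submodule.inclusion le_sup_left
  let f : n →ₗ[P] (N' × P) :=
    { toFun := fun a => (⟨-((a : P) • u), neg_mem ((hu a).2 a.2)⟩, (a : P))
      map_add' := by
        intro a b
        ext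
        · simp [add_smul]; abel
        · simp
      map_smul' := by
        intro c a
        ext
        · simp [mul_smul]
        · simp }
  let g : (N' × P) →ₗ[P] K := LinearMap.coprod ι (LinearMap.toSpanSingleton P K ⟨u, huK⟩)
  have hg : Function.Surjective g := by
    rintro ⟨x, hx⟩
    obtain ⟨y, hy, s, hs, hys⟩ := Submodule.mem_sup.mp hx
    obtain ⟨b, rfl⟩ := Submodule.mem_span_singleton.mp hs
    refine ⟨(⟨y, hy⟩, b), ?_⟩
    apply Subtype.ext
    simp only [g, LinearMap.coprod_apply, LinearMap.toSpanSingleton_apply]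
    exact hys
  have hfg : Function.Exact f g := by
    rintro ⟨⟨x, hx⟩, b⟩
    constructor
    · intro h
      have h1 : x + b • u = 0 := congrArg Subtype.val h
      have h2 : b ∈ n := by
        rw [← hu]
        have : b • u = -x := by rw [eq_neg_iff_add_eq_zero, add_comm]; exact h1
        rw [this]; exact neg_mem hx
      refine ⟨⟨b, h2⟩, ?_⟩
      ext
      · change -(b • u) = x
        rw [neg_eq_iff_add_eq_zero, add_comm]; exact h1
      · rfl
    · rintro ⟨a, ha⟩
      rw [← ha]
      apply Subtype.ext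
      change -((a : P) • u) + (a : P) • u = 0
      exact neg_add_cancel _
  have hex := _root_.lTensor_exact M hfg hg
  rw [← LinearMap.ker_eq_bot, LinearMap.ker_eq_bot']
  intro z hz
  have h1 : (g.lTensor M) ((LinearMap.inl P N' P).lTensor M z) = 0 := by
    rw [← LinearMap.lTensor_comp_apply]
    have : g ∘ₗ LinearMap.inl P N' P = ι := LinearMap.coprod_inl _ _
    rw [this]; exact hz
  obtain ⟨w, hw⟩ := (hex _).mp h1
  have h2 : n.subtype.lTensor M w = 0 := by
    have h3 := congrArg ((LinearMap.snd P N' P).lTensor M) hw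
    rw [← LinearMap.lTensor_comp_apply, ← LinearMap.lTensor_comp_apply, LinearMap.snd_comp_inl,
      LinearMap.lTensor_zero, LinearMap.zero_apply] at h3
    exact h3
  have h4 : w = 0 := hn (by rw [h2, map_zero])
  have h5 := congrArg ((LinearMap.fst P N' P).lTensor M) hw
  rw [h4, map_zero, map_zero, ← LinearMap.lTensor_comp_apply, LinearMap.fst_comp_inl,
    LinearMap.lTensor_id, LinearMap.id_apply] at h5
  exact h5.symm

/-- a finite filtration. -/
lemma lTensor_inj_chain (n : Ideal P) [n.IsMaximal]
    (hn : Function.Injective (n.subtype.lTensor M))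
    {N : Type*} [AddCommGroup N] [Module P N] [IsNoetherian P N] (N' : Submodule P N)
    (hu : ∀ u : N, ∃ j : ℕ, ∀ a ∈ n ^ j, a • u ∈ N') :
    Function.Injective (N'.subtype.lTensor M) := by
  let S : Set (Submodule P N) :=
    {K | ∃ h : N' ≤ K, Function.Injective ((Submodule.inclusion h).lTensor M)}
  have hS : S.Nonempty := by
    refine ⟨N', le_rfl, ?_⟩
    have : Submodule.inclusion (le_refl N') = LinearMap.id := by ext; rfl
    rw [this, LinearMap.lTensor_id]
    exact Function.injective_id
  obtain ⟨K, ⟨hK1, hK2⟩, hmax⟩ := set_has_maximal_iff_noetherian.mpr ‹IsNoetherian P N› S hS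
  have hKtop : K = ⊤ := by
    by_contra hne
    obtain ⟨u, hu1⟩ : ∃ u, u ∉ K := by
      by_contra h
      push Not at h
      exact hne (Submodule.eq_top_iff'.mpr h)
    obtain ⟨j, hj⟩ := hu u
    -- minimal exponent
    have hex : ∃ j : ℕ, ∀ a ∈ n ^ j, a • u ∈ K := ⟨j, fun a ha => hK1 (hj a ha)⟩
    classical
    have hspec := Nat.find_spec hex
    have hmin : ∀ i < Nat.find hex, ¬ ∀ a ∈ n ^ i, a • u ∈ K := fun i hi => Nat.find_min hex hi
    set t := Nat.find hex with ht
    have ht0 : t ≠ 0 := by
      intro h0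
      rw [h0] at hspec
      apply hu1
      have := hspec 1 (by simp)
      rwa [one_smul] at this
    obtain ⟨s, hs⟩ := Nat.exists_eq_succ_of_ne_zero ht0
    have h1 := hmin s (by omega)
    push Not at h1
    obtain ⟨a, ha, hau⟩ := h1
    have hn1 : n ≠ ⊤ := Ideal.IsMaximal.ne_top inferInstance
    have hau2 : ∀ b : P, b • (a • u) ∈ K ↔ b ∈ n := by
      intro b
      have hforw : ∀ b ∈ n, b • (a • u) ∈ K := by
        intro b hb
        rw [smul_smul]
        apply hspec
        rw [hs, pow_succ']
        exact Ideal.mul_mem_mul hb ha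
      constructor
      · intro hb
        by_contra hbn
        obtain ⟨c, m, hm, hc⟩ := Ideal.IsMaximal.exists_inv (I := n) inferInstance hbn
        apply hau
        have : a • u = c • (b • (a • u)) + m • (a • u) := by
          rw [smul_smul c b, ← add_smul, hc, one_smul]
        rw [this]
        exact add_mem (K.smul_mem _ hb) (hforw m hm)
      · exact hforw b
    have hstep := lTensor_inj_step n hn K (a • u) hau2
    have hlt : K < K ⊔ Submodule.span P {a • u} := by
      rw [left_lt_sup, Submodule.span_singleton_le_iff_mem]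
      exact hau
    refine hmax (K ⊔ Submodule.span P {a • u}) ?_ hlt
    refine ⟨hK1.trans le_sup_left, ?_⟩
    have hcomp : Submodule.inclusion (hK1.trans (le_sup_left : K ≤ K ⊔ Submodule.span P {a • u})) =
      (Submodule.inclusion (le_sup_left : K ≤ K ⊔ Submodule.span P {a • u})) ∘ₗ
        (Submodule.inclusion hK1) := by ext; rfl
    rw [hcomp, LinearMap.lTensor_comp]
    exact hstep.comp hK2
  subst hKtop
  have hcomp : N'.subtype = (⊤ : Submodule P N).subtype ∘ₗ Submodule.inclusion hK1 := by
    ext; rfl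
  have htop : Function.Injective ((⊤ : Submodule P N).subtype.lTensor M) := by
    have : (⊤ : Submodule P N).subtype = (Submodule.topEquiv : _ ≃ₗ[P] N).toLinearMap := by
      ext; rfl
    rw [this]
    exact (LinearEquiv.lTensor M (Submodule.topEquiv : _ ≃ₗ[P] N)).injective
  rw [hcomp, LinearMap.lTensor_comp, LinearMap.coe_comp]
  exact htop.comp hK2

/-- the kernel of `M ⊗ I → M ⊗ (I + K)` comes from the intersection. -/
lemma mem_range_of_inclusion_sup (I K : Ideal P) (z : M ⊗[P] I)
    (hz : (Submodule.inclusion (le_sup_left : I ≤ I ⊔ K)).lTensor M z = 0) :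
    z ∈ LinearMap.range ((Submodule.inclusion (inf_le_left : I ⊓ K ≤ I)).lTensor M) := by
  let f : ↥(I ⊓ K) →ₗ[P] (I × K) :=
    LinearMap.prod (Submodule.inclusion inf_le_left) (-(Submodule.inclusion inf_le_right))
  let g : (I × K) →ₗ[P] ↥(I ⊔ K) :=
    LinearMap.coprod (Submodule.inclusion le_sup_left) (Submodule.inclusion le_sup_right)
  have hg : Function.Surjective g := by
    rintro ⟨x, hx⟩
    obtain ⟨y, hy, s, hs, hys⟩ := Submodule.mem_sup.mp hx
    exact ⟨(⟨y, hy⟩, ⟨s, hs⟩), Subtype.ext hys⟩
  have hfg : Function.Exact f g := by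
    rintro ⟨⟨x, hx⟩, ⟨y, hy⟩⟩
    constructor
    · intro h
      have h1 : x + y = 0 := congrArg Subtype.val h
      have h2 : y = -x := by rw [eq_neg_iff_add_eq_zero, add_comm]; exact h1
      subst h2
      refine ⟨⟨x, hx, by simpa using neg_mem hy⟩, ?_⟩
      ext
      · rfl
      · rfl
    · rintro ⟨⟨a, ha⟩, h⟩
      rw [← h]
      apply Subtype.ext
      change a + -a = 0
      exact add_neg_cancel _
  have hex := _root_.lTensor_exact M hfg hg
  have h1 : (g.lTensor M) ((LinearMap.inl P I K).lTensor M z) = 0 := by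
    rw [← LinearMap.lTensor_comp_apply]
    have : g ∘ₗ LinearMap.inl P I K = Submodule.inclusion le_sup_left :=
      LinearMap.coprod_inl _ _
    rw [this]; exact hz
  obtain ⟨w, hw⟩ := (hex _).mp h1
  refine ⟨w, ?_⟩
  have h5 := congrArg ((LinearMap.fst P I K).lTensor M) hw
  rw [← LinearMap.lTensor_comp_apply, ← LinearMap.lTensor_comp_apply, LinearMap.fst_comp_inl,
      LinearMap.lTensor_id, LinearMap.id_apply] at h5
  rw [← h5]
  rfl

end general

section alg

variable {P A' : Type*} [CommRing P] [CommRing A'] [Algebra P A']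

/-- elements of `n ^ s • I` go to `𝔪 ^ s • (A' ⊗ I)`. -/
lemma tmul_mem_of_mem_pow_smul (n : Ideal P) (m : Ideal A') (hnm : n.map (algebraMap P A') ≤ m)
    (I : Ideal P) (s : ℕ) (a : A') (y : I) (hy : (y : P) ∈ n ^ s • (I : Submodule P P)) :
    a ⊗ₜ[P] y ∈ (m ^ s • (⊤ : Submodule A' (A' ⊗[P] I))) := by
  have hy' : y ∈ n ^ s • (⊤ : Submodule P I) := by
    rw [Submodule.mem_smul_top_iff]
    exact hy
  clear hy
  induction hy' using Submodule.smul_induction_on' with
  | smul c hc y' hy' =>
    have h1 : a ⊗ₜ[P] (c • y') = (algebraMap P A' c) • (a ⊗ₜ[P] y') := by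
      rw [TensorProduct.tmul_smul, algebraMap_smul]
    rw [h1]
    refine Submodule.smul_mem_smul ?_ Submodule.mem_top
    have h2 : algebraMap P A' c ∈ (n ^ s).map (algebraMap P A') := Ideal.mem_map_of_mem _ hc
    rw [Ideal.map_pow] at h2
    exact Ideal.pow_right_mono hnm s h2
  | add x hx y hy hx' hy' =>
    rw [TensorProduct.tmul_add]
    exact add_mem hx' hy'

/-- local criterion. -/
theorem flat_of_maximal_injective [IsNoetherianRing P] [IsLocalRing A'] [IsNoetherianRing A']
    (n : Ideal P) [n.IsMaximal] (hnm : n.map (algebraMap P A') ≤ maximalIdeal A')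
    (hn : Function.Injective (n.subtype.lTensor A')) : Module.Flat P A' := by
  rw [Module.Flat.iff_lTensor_injective']
  intro I
  rw [← LinearMap.ker_eq_bot, LinearMap.ker_eq_bot']
  intro z hz
  obtain ⟨k, hk⟩ := Ideal.exists_pow_inf_eq_pow_smul n (M := P) I
  have hfin : Module.Finite P I := Module.Finite.iff_fg.mpr (IsNoetherian.noetherian I)
  have hkrull := Ideal.iInf_pow_smul_eq_bot_of_isLocalRing (R := A') (M := A' ⊗[P] I)
    (I := maximalIdeal A') (Ideal.IsPrime.ne_top inferInstance)
  have hzmem : z ∈ (⨅ i : ℕ, (maximalIdeal A') ^ i • ⊤ : Submodule A' (A' ⊗[P] I)) := by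
    rw [Submodule.mem_iInf]
    intro s
    -- `J = I + n ^ (s + k)`
    have hJ : Function.Injective ((I ⊔ n ^ (s + k)).subtype.lTensor A') := by
      apply lTensor_inj_chain n hn
      intro u
      refine ⟨s + k, fun a ha => Submodule.mem_sup_right ?_⟩
      exact Ideal.mul_mem_right _ _ ha
    have h1 : (Submodule.inclusion (le_sup_left : I ≤ I ⊔ n ^ (s + k))).lTensor A' z = 0 := by
      apply hJ
      rw [map_zero, ← LinearMap.lTensor_comp_apply]
      exact hz
    obtain ⟨w, hw⟩ := mem_range_of_inclusion_sup I (n ^ (s + k)) z h1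
    rw [← hw]
    have h2 := hk (s + k) (by omega)
    have h3 : ∀ y : ↥(I ⊓ n ^ (s + k)), (y : P) ∈ n ^ s • (I : Submodule P P) := by
      intro y
      have h4 : (y : P) ∈ n ^ (s + k) • (⊤ : Submodule P P) ⊓ I := by
        refine ⟨?_, y.2.1⟩
        have := Submodule.smul_mem_smul (y.2.2 : (y : P) ∈ n ^ (s + k))
          (Submodule.mem_top : (1 : P) ∈ (⊤ : Submodule P P))
        simpa using this
      rw [h2, Nat.add_sub_cancel] at h4
      exact Submodule.smul_mono le_rfl inf_le_right h4
    clear hw
    induction w using TensorProduct.induction_on with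
    | zero => rw [map_zero]; exact zero_mem _
    | tmul a y =>
      rw [LinearMap.lTensor_tmul]
      exact tmul_mem_of_mem_pow_smul n (maximalIdeal A') hnm I s a _ (h3 y)
    | add x y hx hy => rw [map_add]; exact add_mem hx hy
  rw [hkrull] at hzmem
  exact hzmem

/-- the ideal generated by elements whose images form a weakly regular sequence. -/
theorem lTensor_inj_of_regular {k : ℕ} (X : Fin k → P)
    (hreg : RingTheory.Sequence.IsWeaklyRegular A' (List.ofFn fun l => algebraMap P A' (X l))) :
    Function.Injective ((Ideal.span (Set.range X)).subtype.lTensor A') := by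
  have hreg' : ∀ (i : ℕ) (hi : i < k) (m : A'),
      X ⟨i, hi⟩ • m ∈ (Ideal.span (X '' {l | (l : ℕ) < i})) • (⊤ : Submodule P A') →
        m ∈ (Ideal.span (X '' {l | (l : ℕ) < i})) • (⊤ : Submodule P A') := by
    intro i hi m hm
    have h1 := hreg.regular_mod_prev i (by simpa using hi)
    have hid : (Ideal.ofList ((List.ofFn fun l => algebraMap P A' (X l)).take i)) =
        (Ideal.span (X '' {l | (l : ℕ) < i})).map (algebraMap P A') := by
      rw [Ideal.map_span, Ideal.ofList]
      congr 1
      ext a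
      simp only [Set.mem_ofPred_eq, Set.mem_image, exists_exists_and_eq_and]
      rw [List.mem_take_iff_getElem]
      constructor
      · rintro ⟨j, hj, rfl⟩
        simp only [List.length_ofFn, lt_inf_iff] at hj
        exact ⟨⟨j, by omega⟩, by simpa using hj.1, by simp⟩
      · rintro ⟨j, hj, rfl⟩
        exact ⟨j, by simp; omega, by simp⟩
    rw [hid] at h1
    rw [isSMulRegular_on_quot_iff_lsmul_comap_le] at h1
    have h2 : ∀ a : A', a ∈ (Ideal.span (X '' {l | (l : ℕ) < i})).map (algebraMap P A') ↔
        a ∈ (Ideal.span (X '' {l | (l : ℕ) < i})) • (⊤ : Submodule P A') := by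
      intro a
      rw [Ideal.smul_top_eq_map]; rfl
    rw [← h2] at hm ⊢
    have h3 : m ∈ (((Ideal.span (X '' {l | (l : ℕ) < i})).map (algebraMap P A')) •
        (⊤ : Submodule A' A')) := by
      apply h1
      rw [Submodule.mem_comap]
      simp only [List.getElem_ofFn, LinearMap.lsmul_apply, smul_eq_mul, Ideal.mul_top]
      rw [Algebra.smul_def] at hm
      exact hm
    simpa using h3
  have key : ∀ i : ℕ, i ≤ k →
      Function.Injective ((Ideal.span (X '' {l | (l : ℕ) < i})).subtype.lTensor A') := by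
    intro i
    induction i with
    | zero =>
      intro _
      have h0 : Ideal.span (X '' {l | (l : ℕ) < 0}) = ⊥ := by simp
      rw [h0]
      have : Subsingleton (A' ⊗[P] (⊥ : Ideal P)) := by
        refine ⟨fun a b => ?_⟩
        have : ∀ z : A' ⊗[P] (⊥ : Ideal P), z = 0 := by
          intro z
          induction z using TensorProduct.induction_on with
          | zero => rfl
          | tmul a y => rw [Subsingleton.elim y 0, TensorProduct.tmul_zero]
          | add x y hx hy => rw [hx, hy, add_zero]
        rw [this a, this b]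
      exact Function.injective_of_subsingleton _
    | succ i ih =>
      intro hi
      have hset : X '' {l | (l : ℕ) < i + 1} = X '' {l | (l : ℕ) < i} ∪ {X ⟨i, by omega⟩} := by
        ext a
        simp only [Set.mem_image, Set.mem_ofPred_eq, Set.mem_union, Set.mem_singleton_iff]
        constructor
        · rintro ⟨l, hl, rfl⟩
          rcases Nat.lt_succ_iff_lt_or_eq.mp hl with h | h
          · exact Or.inl ⟨l, h, rfl⟩
          · right; congr 1; exact Fin.ext h
        · rintro (⟨l, hl, rfl⟩ | rfl)
          · exact ⟨l, by omega, rfl⟩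
          · exact ⟨_, by simp, rfl⟩
      rw [hset, Ideal.span_union]
      exact lTensor_inj_sup_span _ _ (ih (by omega)) (hreg' i (by omega))
  have h := key k le_rfl
  have hr : X '' {l | (l : ℕ) < k} = Set.range X := by
    have : {l : Fin k | (l : ℕ) < k} = Set.univ := by ext l; simp
    rw [this, Set.image_univ]
  rwa [hr] at h

end alg

section F

variable {κ : Type*} [Field κ] {r : ℕ} {A' : Type*} [CommRing A'] [Algebra (PP κ r) A']

lemma mX_eq_ker : mX κ r = RingHom.ker (MvPolynomial.constantCoeff : PP κ r →+* κ) := by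
  ext f
  rw [mX, ← Set.image_univ, MvPolynomial.mem_ideal_span_X_image, RingHom.mem_ker,
    MvPolynomial.constantCoeff_eq]
  constructor
  · intro h
    by_contra h0
    obtain ⟨i, -, hi⟩ := h 0 (MvPolynomial.mem_support_iff.mpr h0)
    exact hi rfl
  · intro h m hm
    have hm0 : m ≠ 0 := by
      rintro rfl
      exact MvPolynomial.mem_support_iff.mp hm h
    obtain ⟨i, hi⟩ := Finsupp.ne_iff.mp hm0
    exact ⟨i, Set.mem_univ _, hi⟩

/-- TASK F1: flatness over the polynomial ring from a regular sequence. -/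
theorem flat_of_regular [IsLocalRing A'] [IsNoetherianRing A']
    (hx : ∀ l : Fin (r + 1), algebraMap (PP κ r) A' (MvPolynomial.X l) ∈ maximalIdeal A')
    (hreg : RingTheory.Sequence.IsWeaklyRegular A'
      (List.ofFn fun l : Fin (r + 1) => algebraMap (PP κ r) A' (MvPolynomial.X l))) :
    Module.Flat (PP κ r) A' := by
  have hmax : (mX κ r).IsMaximal := by
    rw [mX_eq_ker]
    exact RingHom.ker_isMaximal_of_surjective _ (fun c => ⟨MvPolynomial.C c, by simp⟩)
  refine flat_of_maximal_injective (mX κ r) ?_ ?_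
  · rw [mX, Ideal.map_span, Ideal.span_le]
    rintro _ ⟨_, ⟨l, rfl⟩, rfl⟩
    exact hx l
  · exact lTensor_inj_of_regular (fun l : Fin (r + 1) => (MvPolynomial.X l : PP κ r)) hreg

end F

end Vale.Agent.P202.CharP
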