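import Vale.Agent.P202.CharP.TotBasic

/-!
Acyclicity of total complexes from null-homotopic endomorphisms that are bijective.
-/

namespace Vale.Agent.P202.CharP

open Submodule

section

variable {S : Type*} [CommRing S] {M : Type*} [AddCommGroup M] [Module S M]

/-- Iterated surjectivity. -/
theorem acyc_surj (ξ : M →ₗ[S] M) (X Y : Submodule S M) (hX : ∀ v ∈ X, ξ v ∈ X)
    (hs : ∀ v ∈ Y, ∃ v' ∈ Y, v - ξ v' ∈ X) :
    ∀ N : ℕ, ∀ v ∈ Y, ∃ v' ∈ Y, v - (ξ ^ N) v' ∈ X
  | 0, v, hv => ⟨v, hv, by simp⟩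
  | N + 1, v, hv => by
    obtain ⟨u, hu, h1⟩ := hs v hv
    obtain ⟨u', hu', h2⟩ := acyc_surj ξ X Y hX hs N u hu
    refine ⟨u', hu', ?_⟩
    have h3 := hX _ h2
    rw [map_sub] at h3
    have h4 := X.add_mem h1 h3
    have e : v - ξ u + (ξ u - ξ ((ξ ^ N) u')) = v - (ξ ^ (N + 1)) u' := by
      rw [pow_succ', Module.End.mul_apply]; abel
    rwa [e] at h4

/-- Iterated injectivity. -/
theorem acyc_inj (ξ : M →ₗ[S] M) (X Y : Submodule S M) (hY : ∀ v ∈ Y, ξ v ∈ Y)
    (hi : ∀ v ∈ Y, ξ v ∈ X → v ∈ X) :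
    ∀ N : ℕ, ∀ v ∈ Y, (ξ ^ N) v ∈ X → v ∈ X
  | 0, v, _, h => by simpa using h
  | N + 1, v, hv, h => by
    rw [pow_succ, Module.End.mul_apply] at h
    exact hi v hv (acyc_inj ξ X Y hY hi N (ξ v) (hY v hv) h)

/-- Exactness of the Koszul complex of `Y / X`. -/
theorem acyc_row {n : ℕ} (y : Fin n → S) (X Y : Submodule S M)
    (ξ : M →ₗ[S] M) (N : ℕ) (Θ : Fin n → M →ₗ[S] M)
    (h1 : ∀ v ∈ Y, ξ v ∈ Y) (h2 : ∀ v ∈ X, ξ v ∈ X) (h3 : ∀ v ∈ Y, ξ v ∈ X → v ∈ X)
    (h4 : ∀ v ∈ Y, ∃ v' ∈ Y, v - ξ v' ∈ X) (h5 : ∀ i, ∀ v ∈ Y, Θ i v ∈ Y)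
    (h6 : ∀ i, ∀ v ∈ X, Θ i v ∈ X) (h7 : ∀ v ∈ Y, (ξ ^ N) v = ∑ i, y i • Θ i v)
    (e : ℤ) (f : KIdx n → M) (hf : ∀ a, f a ∈ Y) (hdeg : ∀ a, kdeg n a ≠ e → f a = 0)
    (hc : ∀ a, act (kos n y) M f a ∈ X) :
    ∃ g : KIdx n → M, (∀ a, g a ∈ Y) ∧ (∀ a, kdeg n a ≠ e + 1 → g a = 0) ∧
      ∀ a, f a - act (kos n y) M g a ∈ X := by
  classical
  -- write `f` as `ξ ^ N f'` modulo `X`
  have hex : ∀ a, ∃ v ∈ Y, f a - (ξ ^ N) v ∈ X ∧ (kdeg n a ≠ e → v = 0) := by
    intro a
    by_cases ha : kdeg n a = e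
    · obtain ⟨v, hv, hv'⟩ := acyc_surj ξ X Y h2 h4 N (f a) (hf a)
      exact ⟨v, hv, hv', fun h => absurd ha h⟩
    · refine ⟨0, Y.zero_mem, ?_, fun _ => rfl⟩
      rw [hdeg a ha]
      simp
  choose f' hf' hf'X hf'0 using hex
  have hact : ∀ a, act (kos n y) M f' a ∈ X := by
    intro a
    refine acyc_inj ξ X Y h1 h3 N _ (act_mem _ hf' a) ?_
    rw [← act_comp]
    have h8 : act (kos n y) M (fun b => f b - (ξ ^ N) (f' b)) a ∈ X := act_mem _ hf'X a
    have h9 : (fun b => f b - (ξ ^ N) (f' b)) = f - fun b => (ξ ^ N) (f' b) := rfl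
    rw [h9, map_sub, Pi.sub_apply] at h8
    have h10 := X.sub_mem (hc a) h8
    have e1 : act (kos n y) M f a - (act (kos n y) M f a -
        act (kos n y) M (fun b => (ξ ^ N) (f' b)) a) =
        act (kos n y) M (fun b => (ξ ^ N) (f' b)) a := by abel
    rwa [e1] at h10
  choose h hh1 hh2 using kos_homotopy n y
  refine ⟨fun a => ∑ i, act (h i) M (fun b => Θ i (f' b)) a, ?_, ?_, ?_⟩
  · intro a
    exact Y.sum_mem fun i _ => act_mem _ (fun b => h5 i _ (hf' b)) a
  · intro a ha
    refine Finset.sum_eq_zero fun i _ => ?_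
    rw [act_apply]
    refine Finset.sum_eq_zero fun b _ => ?_
    by_cases hb : h i a b = 0
    · simp [hb]
    · have h8 := hh1 i a b hb
      have : kdeg n b ≠ e := by omega
      rw [hf'0 b this]
      simp
  · intro a
    have k1 : (fun a => ∑ i, act (h i) M (fun b => Θ i (f' b)) a) =
        ∑ i, act (h i) M (fun b => Θ i (f' b)) := by
      ext a; simp
    have k2 : ∀ i, act (kos n y) M (act (h i) M (fun b => Θ i (f' b))) =
        y i • (fun b => Θ i (f' b)) - act (h i) M (act (kos n y) M (fun b => Θ i (f' b))) := by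
      intro i
      rw [← act_mul, ← act_mul, eq_sub_iff_add_eq, ← act_add, hh2 i, act_smul, act_one]
    have k3 : act (kos n y) M (fun a => ∑ i, act (h i) M (fun b => Θ i (f' b)) a) a =
        (ξ ^ N) (f' a) - ∑ i, act (h i) M (act (kos n y) M (fun b => Θ i (f' b))) a := by
      rw [k1, map_sum, Finset.sum_congr rfl (fun i _ => k2 i), Finset.sum_sub_distrib,
        Pi.sub_apply, Finset.sum_apply, Finset.sum_apply, h7 _ (hf' a)]
      rfl
    rw [k3]
    have k4 : ∀ i, act (h i) M (act (kos n y) M (fun b => Θ i (f' b))) a ∈ X := by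
      intro i
      refine act_mem _ (fun b => ?_) a
      rw [act_comp]
      exact h6 i _ (hact b)
    have k5 := X.add_mem (hf'X a) (X.sum_mem (fun i (_ : i ∈ Finset.univ) => k4 i))
    have e2 : f a - (ξ ^ N) (f' a) +
        ∑ i, act (h i) M (act (kos n y) M (fun b => Θ i (f' b))) a =
        f a - ((ξ ^ N) (f' a) - ∑ i, act (h i) M (act (kos n y) M (fun b => Θ i (f' b))) a) := by
      abel
    rwa [e2] at k5

/-- TASK T6: acyclicity. In each degree `p` an endomorphism `ξ` is bijective on `Y p / X p` and a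
power of `ξ` is of the form `∑ y i • Θ i`. -/
theorem acyc {n : ℕ} (y : Fin n → S) (d : M →ₗ[S] M) (hd : ∀ x, d (d x) = 0)
    (X Y : ℤ → Submodule S M) (hX : CStab d X) (hY : CStab d Y) (hXY : ∀ p, X p ≤ Y p)
    (lo hi : ℤ) (hlo : ∀ p, p < lo → Y p ≤ X p) (hhi : ∀ p, hi < p → Y p ≤ X p)
    (H : ∀ p, ∃ (ξ : M →ₗ[S] M) (N : ℕ) (Θ : Fin n → M →ₗ[S] M),
      (∀ v ∈ Y p, ξ v ∈ Y p) ∧ (∀ v ∈ X p, ξ v ∈ X p) ∧
      (∀ v ∈ Y p, ξ v ∈ X p → v ∈ X p) ∧ (∀ v ∈ Y p, ∃ v' ∈ Y p, v - ξ v' ∈ X p) ∧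
      (∀ i, ∀ v ∈ Y p, Θ i v ∈ Y p) ∧ (∀ i, ∀ v ∈ X p, Θ i v ∈ X p) ∧
      (∀ v ∈ Y p, (ξ ^ N) v = ∑ i, y i • Θ i v)) (δ : ℤ) :
    hh (tot (kdeg n) (kos n y) d) (lift (kdeg n) Y) (lift (kdeg n) X) δ = 0 := by
  classical
  have hQ := kos_isCx n y
  set D := tot (kdeg n) (kos n y) d with hD
  have hsY : Stab D (lift (kdeg n) Y) := lift_stab _ _ hQ d Y hY
  rw [hh, rl_eq_zero_iff]
  intro f hf
  obtain ⟨hfY, hfX⟩ := Submodule.mem_inf.1 hf
  rw [Submodule.mem_comap] at hfX
  -- clean the components from the lowest Cech degree up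
  have key : ∀ k : ℕ, ∃ g ∈ lift (kdeg n) Y (δ + 1), ∀ a, kdeg n a - δ < lo + k →
      (f - D g) a ∈ X (kdeg n a - δ) := by
    intro k
    induction k with
    | zero =>
      refine ⟨0, Submodule.zero_mem _, fun a ha => ?_⟩
      rw [map_zero, sub_zero]
      exact hlo _ (by simpa using ha) ((mem_lift _ _ _ _).1 hfY a)
    | succ k ih =>
      obtain ⟨g, hg, hgX⟩ := ih
      set P : ℤ := lo + k with hP
      set f1 := f - D g with hf1
      have hDg : D g ∈ lift (kdeg n) Y δ := by
        have := hsY _ _ hg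
        rwa [add_sub_cancel_right] at this
      have hf1Y : ∀ a, f1 a ∈ Y (kdeg n a - δ) :=
        (mem_lift _ _ _ _).1 (Submodule.sub_mem _ hfY hDg)
      have hDf1 : D f1 ∈ lift (kdeg n) X (δ - 1) := by
        rw [hf1, map_sub, hD, tot_tot _ _ hQ d hd g, sub_zero]
        exact hfX
      obtain ⟨ξ, N, Θ, h1, h2, h3, h4, h5, h6, h7⟩ := H P
      let f2 : KIdx n → M := fun a => if kdeg n a = P + δ then f1 a else 0
      have hf2Y : ∀ a, f2 a ∈ Y P := by
        intro a
        by_cases ha : kdeg n a = P + δ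
        · have := hf1Y a
          rw [ha, add_sub_cancel_right] at this
          simpa [f2, ha] using this
        · simp [f2, ha]
      have hf2c : ∀ a, act (kos n y) M f2 a ∈ X P := by
        intro a
        by_cases ha : kdeg n a = P + δ - 1
        · have e1 : act (kos n y) M f2 a = act (kos n y) M f1 a := by
            rw [act_apply, act_apply]
            refine Finset.sum_congr rfl fun b _ => ?_
            by_cases hb : kos n y a b = 0
            · simp [hb]
            · have := hQ.deg_eq a b hb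
              have hb' : kdeg n b = P + δ := by omega
              simp [f2, hb']
          have e2 := (mem_lift _ _ _ _).1 hDf1 a
          have e3 : kdeg n a - (δ - 1) = P := by omega
          rw [e3, hD, tot_eq] at e2
          have e4 : d (f1 a) ∈ X P := by
            have := hX _ _ (hgX a (by omega))
            have e5 : kdeg n a - δ + 1 = P := by omega
            rwa [e5] at this
          rw [e1]
          have e6 := (X P).sub_mem e2 (zsmul_mem e4 ((kdeg n a).negOnePow : ℤ))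
          rwa [add_sub_cancel_right] at e6
        · have e1 : act (kos n y) M f2 a = 0 := by
            rw [act_apply]
            refine Finset.sum_eq_zero fun b _ => ?_
            by_cases hb : kos n y a b = 0
            · simp [hb]
            · have := hQ.deg_eq a b hb
              have hb' : kdeg n b ≠ P + δ := by omega
              simp [f2, hb']
          rw [e1]
          exact Submodule.zero_mem _
      obtain ⟨g', hg'Y, hg'0, hg'X⟩ := acyc_row y (X P) (Y P) ξ N Θ h1 h2 h3 h4 h5 h6 h7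
        (P + δ) f2 hf2Y (fun a ha => by simp [f2, ha]) hf2c
      refine ⟨g + g', Submodule.add_mem _ hg ?_, ?_⟩
      · rw [mem_lift]
        intro a
        by_cases ha : kdeg n a = P + δ + 1
        · have e1 : kdeg n a - (δ + 1) = P := by omega
          rw [e1]
          exact hg'Y a
        · rw [hg'0 a ha]
          exact Submodule.zero_mem _
      · intro a ha
        have e0 : (f - D (g + g')) a = f1 a - D g' a := by
          rw [map_add, hf1]
          simp only [Pi.sub_apply, Pi.add_apply]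
          abel
        have e1 : g' a = 0 := hg'0 a (by push_cast at ha; omega)
        have e2 : D g' a = act (kos n y) M g' a := by
          rw [hD, tot_eq, e1]
          simp
        rw [e0, e2]
        by_cases ha' : kdeg n a = P + δ
        · have e3 := hg'X a
          have e4 : f2 a = f1 a := by simp [f2, ha']
          have e5 : kdeg n a - δ = P := by omega
          rw [e4] at e3
          rwa [e5]
        · have e3 : act (kos n y) M g' a = 0 := by
            rw [act_apply]
            refine Finset.sum_eq_zero fun b _ => ?_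
            by_cases hb : kos n y a b = 0
            · simp [hb]
            · have := hQ.deg_eq a b hb
              rw [hg'0 b (by omega)]
              simp
          rw [e3, sub_zero]
          exact hgX a (by push_cast at ha; omega)
  obtain ⟨g, hg, hgX⟩ := key (hi + 1 - lo).toNat
  have hDg : D g ∈ lift (kdeg n) Y δ := by
    have := hsY _ _ hg
    rwa [add_sub_cancel_right] at this
  have hmem : f - D g ∈ lift (kdeg n) X δ := by
    rw [mem_lift]
    intro a
    by_cases ha : kdeg n a - δ < lo + ((hi + 1 - lo).toNat : ℤ)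
    · exact hgX a ha
    · exact hhi _ (by omega) ((mem_lift _ _ _ _).1 (Submodule.sub_mem _ hfY hDg) a)
  have e : f = D g + (f - D g) := by abel
  rw [e]
  exact Submodule.add_mem_sup (Submodule.mem_map_of_mem hg) hmem

end

end Vale.Agent.P202.CharP
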