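import Vale.Agent.P202.CharP.KhCongr

/-!
P202-CHARP: base change of submodules along a flat algebra.
-/

namespace Vale.Agent.P202.CharP

open Submodule TensorProduct IsLocalRing

section B

variable {A : Type*} [CommRing A] {V : Type*} [AddCommGroup V] [Module A V]
  (S : Type*) [CommRing S] [Algebra A S]

theorem baseChange_sup' (X Y : Submodule A V) :
    (X ⊔ Y).baseChange S = X.baseChange S ⊔ Y.baseChange S := by
  refine le_antisymm ?_
    (sup_le (baseChange_mono S le_sup_left) (baseChange_mono S le_sup_right))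
  rw [Submodule.baseChange_eq_span S (X ⊔ Y), span_le]
  rintro _ ⟨v, hv, rfl⟩
  obtain ⟨x, hx, y, hy, rfl⟩ := Submodule.mem_sup.1 hv
  simp only [TensorProduct.mk_apply, TensorProduct.tmul_add, SetLike.mem_coe]
  exact Submodule.add_mem _ (mem_sup_left (tmul_mem_baseChange_of_mem _ hx))
    (mem_sup_right (tmul_mem_baseChange_of_mem _ hy))

theorem baseChange_map {V' : Type*} [AddCommGroup V'] [Module A V'] (f : V →ₗ[A] V')
    (X : Submodule A V) : (X.map f).baseChange S = (X.baseChange S).map (f.baseChange S) := by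
  refine le_antisymm ?_ ?_
  · rw [Submodule.baseChange_eq_span S (X.map f), span_le]
    rintro _ ⟨_, ⟨x, hx, rfl⟩, rfl⟩
    exact ⟨1 ⊗ₜ x, tmul_mem_baseChange_of_mem _ hx, by simp⟩
  · rw [Submodule.map_le_iff_le_comap, Submodule.baseChange_eq_span S X, span_le]
    rintro _ ⟨x, hx, rfl⟩
    simp only [TensorProduct.mk_apply, SetLike.mem_coe, mem_comap, LinearMap.baseChange_tmul]
    exact tmul_mem_baseChange_of_mem _ ⟨x, hx, rfl⟩

theorem ker_baseChange [Module.Flat A S] {V' : Type*} [AddCommGroup V'] [Module A V']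
    (f : V →ₗ[A] V') :
    LinearMap.ker (f.baseChange S) = (LinearMap.ker f).baseChange S :=
  Module.Flat.ker_lTensor_eq S S f

theorem baseChange_comap [Module.Flat A S] {V' : Type*} [AddCommGroup V'] [Module A V']
    (f : V →ₗ[A] V') (X : Submodule A V') :
    (X.comap f).baseChange S = (X.baseChange S).comap (f.baseChange S) := by
  have h1 : X.comap f = LinearMap.ker (X.mkQ ∘ₗ f) := by
    rw [LinearMap.ker_comp, Submodule.ker_mkQ]
  rw [h1, ← ker_baseChange, LinearMap.baseChange_comp, LinearMap.ker_comp, ker_baseChange,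
    Submodule.ker_mkQ]

theorem baseChange_inf [Module.Flat A S] (X Y : Submodule A V) :
    (X ⊓ Y).baseChange S = X.baseChange S ⊓ Y.baseChange S := by
  have h1 : X ⊓ Y = (Y.comap X.subtype).map X.subtype := by
    rw [Submodule.map_comap_eq, Submodule.range_subtype]
  rw [h1, baseChange_map, baseChange_comap, Submodule.map_comap_eq]
  rfl

theorem cz_bcf [Module.Flat A S] (d : V →ₗ[A] V) (Y X : ℤ → Submodule A V) (p : ℤ) :
    cz (d.baseChange S) (bcf S Y) (bcf S X) p = (cz d Y X p).baseChange S := by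
  rw [cz, cz, bcf, bcf, baseChange_inf, baseChange_comap]

theorem cb_bcf (d : V →ₗ[A] V) (Y X : ℤ → Submodule A V) (p : ℤ) :
    cb (d.baseChange S) (bcf S Y) (bcf S X) p = (cb d Y X p).baseChange S := by
  rw [cb, cb, bcf, bcf, baseChange_sup', baseChange_map]

/-- a module of length `w` killed by a maximal ideal is `(A ⧸ m)^w`. -/
theorem exists_equiv_pi {N : Type*} [AddCommGroup N] [Module A N] (m : Ideal A) [m.IsMaximal]
    (hm : ∀ a ∈ m, ∀ x : N, a • x = 0) (w : ℕ) (hw : Module.length A N = w) :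
    Nonempty (N ≃ₗ[A] (Fin w → A ⧸ m)) := by
  let _ : Field (A ⧸ m) := Ideal.Quotient.field m
  have htor : Module.IsTorsionBySet A N m := fun x r => hm r.1 r.2 x
  let _ : Module (A ⧸ m) N := htor.module
  have : IsScalarTower A (A ⧸ m) N := htor.isScalarTower
  have h1 : Module.length (A ⧸ m) N = w := by
    rw [← hw]
    exact (Module.length_eq_of_surjective (S := A) (R := A ⧸ m) (M := N)
      Ideal.Quotient.mk_surjective).symm
  have hfin : Module.Finite (A ⧸ m) N := by
    rw [Module.length_eq_rank] at h1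
    rw [← Module.rank_lt_aleph0_iff, ← Cardinal.toENat_lt_top, h1]
    exact WithTop.coe_lt_top w
  rw [Module.length_eq_finrank] at h1
  have h2 : Module.finrank (A ⧸ m) N = w := by exact_mod_cast h1
  let e := (Module.finBasisOfFinrankEq (A ⧸ m) N h2).equivFun
  exact ⟨e.restrictScalars A⟩

variable {ι : Type*} [Fintype ι]

theorem khs_baseChange [IsLocalRing A] [Module.Flat A S] (deg : ι → ℤ) (Q : Matrix ι ι S)
    (hQ : IsCx deg Q) (X Y : Submodule A V) (hXY : X ≤ Y) (hm : maximalIdeal A • Y ≤ X) (w : ℕ)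
    (hw : rl X Y = w) (i : ℤ) :
    khs deg Q (Y.baseChange S) (X.baseChange S) i =
      (w : ℕ∞) * kh deg Q (S ⧸ (maximalIdeal A).map (algebraMap A S)) i := by
  rw [khs_eq_kh deg Q hQ _ _ (baseChange_mono S hXY), ← kh_pi]
  obtain ⟨g0⟩ := exists_equiv_pi (N := ↥Y ⧸ X.submoduleOf Y) (maximalIdeal A) (by
    intro a ha x
    obtain ⟨x, rfl⟩ := Submodule.Quotient.mk_surjective _ x
    rw [← Submodule.Quotient.mk_smul, Submodule.Quotient.mk_eq_zero]
    exact hm (Submodule.smul_mem_smul ha x.2)) w hw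
  let g : Y →ₗ[A] (Fin w → A ⧸ maximalIdeal A) := g0.toLinearMap ∘ₗ (X.submoduleOf Y).mkQ
  have hg : LinearMap.ker g = X.submoduleOf Y := by
    rw [LinearMap.ker_comp, LinearEquiv.ker, Submodule.comap_bot, Submodule.ker_mkQ]
  have hgs : Function.Surjective g := g0.surjective.comp (Submodule.mkQ_surjective _)
  have hinj : Function.Injective (Y.subtype.baseChange S) :=
    Module.Flat.lTensor_preserves_injective_linearMap Y.subtype Y.injective_subtype
  let e1 : (S ⊗[A] Y) ≃ₗ[S] Y.baseChange S :=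
    LinearEquiv.ofInjective (Y.subtype.baseChange S) hinj
  let e2 : (S ⊗[A] (Fin w → A ⧸ maximalIdeal A)) ≃ₗ[S] (Fin w → S ⊗[A] (A ⧸ maximalIdeal A)) :=
    TensorProduct.piRight A S S (fun _ => A ⧸ maximalIdeal A)
  let e3 : (Fin w → S ⊗[A] (A ⧸ maximalIdeal A)) ≃ₗ[S]
      (Fin w → S ⧸ (maximalIdeal A).map (algebraMap A S)) :=
    LinearEquiv.piCongrRight fun _ =>
      (Algebra.TensorProduct.quotIdealMapEquivTensorQuot S (maximalIdeal A)).toLinearEquiv.symm
  let F : Y.baseChange S →ₗ[S] (Fin w → S ⧸ (maximalIdeal A).map (algebraMap A S)) :=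
    (e3.toLinearMap ∘ₗ e2.toLinearMap) ∘ₗ (g.baseChange S) ∘ₗ e1.symm.toLinearMap
  have hFs : Function.Surjective F := by
    have h0 : Function.Surjective (g.baseChange S) := LinearMap.lTensor_surjective S hgs
    exact (e3.surjective.comp e2.surjective).comp (h0.comp e1.symm.surjective)
  have hF : LinearMap.ker F = (X.baseChange S).submoduleOf (Y.baseChange S) := by
    ext y
    obtain ⟨t, rfl⟩ := e1.surjective y
    have h1 : F (e1 t) = e3 (e2 (g.baseChange S t)) := by
      simp [F]
    rw [LinearMap.mem_ker, h1, LinearEquiv.map_eq_zero_iff, LinearEquiv.map_eq_zero_iff,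
      ← LinearMap.mem_ker, ker_baseChange, hg]
    have h2 : (X.submoduleOf Y).baseChange S = (X.baseChange S).comap (Y.subtype.baseChange S) :=
      baseChange_comap S Y.subtype X
    rw [h2]
    rfl
  exact kh_congr deg Q ((Submodule.quotEquivOfEq _ _ hF.symm).trans
    (F.quotKerEquivOfSurjective hFs)) i

end B

end Vale.Agent.P202.CharP
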