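import Vale.Agent.P202.CharP.Defs

/-!
P202-CHARP, T4: congruences for the homology `khs`, `kh`.
-/

namespace Vale.Agent.P202.CharP

open Submodule TensorProduct IsLocalRing

section KhCongr

variable {S 𝕋 𝕋' : Type*} [CommRing S] [AddCommGroup 𝕋] [Module S 𝕋] [AddCommGroup 𝕋'] [Module S 𝕋']

/-- relative homology under a chain map which is an isomorphism on subquotients. -/
theorem hh_map_eq (D : 𝕋 →ₗ[S] 𝕋) (D' : 𝕋' →ₗ[S] 𝕋') (F : 𝕋 →ₗ[S] 𝕋')
    (hF : ∀ x, D' (F x) = F (D x)) (Y X : ℤ → Submodule S 𝕋) (Y' X' : ℤ → Submodule S 𝕋')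
    (hXY : ∀ δ, X δ ≤ Y δ) (hY : Stab D Y) (hYY : ∀ δ, (Y δ).map F = Y' δ)
    (hXX : ∀ δ, ∀ x ∈ Y δ, F x ∈ X' δ ↔ x ∈ X δ) (δ : ℤ) :
    hh D Y X δ = hh D' Y' X' δ := by
  unfold hh
  have hF2 : ∀ z : ↥(zz D Y X δ), F z.1 ∈ zz D' Y' X' δ := by
    rintro ⟨z, hz⟩
    obtain ⟨h1, h2⟩ := Submodule.mem_inf.mp hz
    refine Submodule.mem_inf.mpr ⟨?_, ?_⟩
    · rw [← hYY]; exact Submodule.mem_map_of_mem h1
    · rw [Submodule.mem_comap, hF, hXX _ _ (hY δ z h1)]
      exact h2
  let g0 : ↥(zz D Y X δ) →ₗ[S] ↥(zz D' Y' X' δ) :=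
    (F.comp (zz D Y X δ).subtype).codRestrict _ hF2
  let g : ↥(zz D Y X δ) →ₗ[S] (↥(zz D' Y' X' δ) ⧸ (bb D' Y' X' δ).submoduleOf (zz D' Y' X' δ)) :=
    (Submodule.mkQ _).comp g0
  refine rl_eq_length_of_surjective g ?_ ?_
  · refine (Submodule.mkQ_surjective _).comp ?_
    rintro ⟨z', hz'⟩
    obtain ⟨h1, h2⟩ := Submodule.mem_inf.mp hz'
    rw [← hYY] at h1
    obtain ⟨y, hy, rfl⟩ := h1
    refine ⟨⟨y, Submodule.mem_inf.mpr ⟨hy, ?_⟩⟩, rfl⟩
    rw [Submodule.mem_comap, hF, hXX _ _ (hY δ y hy)] at h2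
    exact h2
  · ext ⟨z, hz⟩
    have h1 : (⟨z, hz⟩ : ↥(zz D Y X δ)) ∈ LinearMap.ker g ↔ F z ∈ bb D' Y' X' δ := by
      rw [LinearMap.mem_ker]
      change Submodule.Quotient.mk (g0 ⟨z, hz⟩) = _ ↔ _
      rw [Submodule.Quotient.mk_eq_zero]
      exact Iff.rfl
    have h2 : (⟨z, hz⟩ : ↥(zz D Y X δ)) ∈ (bb D Y X δ).submoduleOf (zz D Y X δ) ↔ z ∈ bb D Y X δ :=
      Iff.rfl
    rw [h1, h2]
    obtain ⟨hzY, -⟩ := Submodule.mem_inf.mp hz
    constructor
    · intro h
      obtain ⟨u, hu, x', hx', hux⟩ := Submodule.mem_sup.mp h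
      obtain ⟨w', hw', rfl⟩ := hu
      rw [SetLike.mem_coe, ← hYY] at hw'
      obtain ⟨w, hw, rfl⟩ := hw'
      have hDw : D w ∈ Y δ := by
        have := hY (δ + 1) w hw
        rwa [add_sub_cancel_right] at this
      have h3 : F (z - D w) ∈ X' δ := by
        rw [map_sub, ← hF, ← hux, add_sub_cancel_left]
        exact hx'
      rw [hXX δ _ (Submodule.sub_mem _ hzY hDw)] at h3
      rw [← sub_add_cancel z (D w)]
      exact Submodule.add_mem _ (Submodule.mem_sup_right h3)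
        (Submodule.mem_sup_left (Submodule.mem_map_of_mem hw))
    · intro h
      obtain ⟨u, hu, x, hx, hux⟩ := Submodule.mem_sup.mp h
      obtain ⟨w, hw, rfl⟩ := hu
      rw [← hux, map_add, ← hF]
      refine Submodule.add_mem _ (Submodule.mem_sup_left (Submodule.mem_map_of_mem ?_))
        (Submodule.mem_sup_right ?_)
      · rw [← hYY]; exact Submodule.mem_map_of_mem hw
      · exact (hXX δ x (hXY δ hx)).mpr hx

variable {ι : Type*} [Fintype ι] {M N : Type*} [AddCommGroup M] [Module S M]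
  [AddCommGroup N] [Module S N]

lemma tot_zero_apply (deg : ι → ℤ) (Q : Matrix ι ι S) (f : ι → M) (a : ι) :
    tot deg Q (0 : M →ₗ[S] M) f a = ∑ b, Q a b • f b := by
  simp [tot, act]

/-- composition with a linear map commutes with the differential. -/
lemma tot_zero_comp (deg : ι → ℤ) (Q : Matrix ι ι S) (φ : M →ₗ[S] N) (f : ι → M) :
    tot deg Q (0 : N →ₗ[S] N) (φ.compLeft ι f) = φ.compLeft ι (tot deg Q (0 : M →ₗ[S] M) f) := by
  ext a
  rw [tot_zero_apply]
  simp only [LinearMap.compLeft_apply, Function.comp_apply, tot_zero_apply, map_sum, map_smul]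

omit [Fintype ι] in
lemma khc_mem_lift {deg : ι → ℤ} {X : ℤ → Submodule S M} {δ : ℤ} {f : ι → M} :
    f ∈ lift deg X δ ↔ ∀ a, f a ∈ X (deg a - δ) := by
  simp [lift, Submodule.mem_pi]

lemma mem_conc {X : Submodule S M} {p : ℤ} {x : M} :
    x ∈ conc X p ↔ (p = 0 → x ∈ X) ∧ (p ≠ 0 → x = 0) := by
  unfold conc
  split_ifs with h
  · simp [h]
  · simp [h]

lemma conc_mono {X Y : Submodule S M} (h : X ≤ Y) (p : ℤ) : conc X p ≤ conc Y p := by
  unfold conc
  split_ifs
  · exact h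
  · exact le_rfl

lemma lift_conc_stab (deg : ι → ℤ) (Q : Matrix ι ι S) (hQ : IsCx deg Q) (Y : Submodule S M) :
    Stab (tot deg Q (0 : M →ₗ[S] M)) (lift deg (conc Y)) := by
  intro δ f hf
  rw [khc_mem_lift] at hf ⊢
  intro a
  rw [tot_zero_apply]
  refine Submodule.sum_mem _ fun b _ => ?_
  by_cases hab : Q a b = 0
  · rw [hab, zero_smul]; exact Submodule.zero_mem _
  · have h1 := hQ.deg_eq a b hab
    have h2 := hf b
    rw [h1] at h2
    refine Submodule.smul_mem _ _ ?_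
    have e : deg a - (δ - 1) = deg a + 1 - δ := by ring
    rw [e]; exact h2

/-- homology with coefficients in a subquotient under a linear map. -/
theorem khs_map_eq (deg : ι → ℤ) (Q : Matrix ι ι S) (hQ : IsCx deg Q) (φ : M →ₗ[S] N)
    (Y X : Submodule S M) (Y' X' : Submodule S N) (hXY : X ≤ Y) (hYY : Y.map φ = Y')
    (hXX : ∀ x ∈ Y, φ x ∈ X' ↔ x ∈ X) (i : ℤ) :
    khs deg Q Y X i = khs deg Q Y' X' i := by
  unfold khs
  refine hh_map_eq _ _ (φ.compLeft ι) (fun f => tot_zero_comp deg Q φ f) _ _ _ _ ?_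
    (lift_conc_stab deg Q hQ Y) ?_ ?_ i
  · intro δ f hf
    rw [khc_mem_lift] at hf ⊢
    exact fun a => conc_mono hXY _ (hf a)
  · intro δ
    ext f'
    constructor
    · rintro ⟨f, hf, rfl⟩
      rw [SetLike.mem_coe, khc_mem_lift] at hf
      rw [khc_mem_lift]
      intro a
      have h1 := hf a
      rw [mem_conc] at h1 ⊢
      refine ⟨fun h => ?_, fun h => ?_⟩
      · rw [← hYY]; exact Submodule.mem_map_of_mem (h1.1 h)
      · simp [h1.2 h]
    · intro hf'
      rw [khc_mem_lift] at hf'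
      have h2 : ∀ a, ∃ x, x ∈ conc Y (deg a - δ) ∧ φ x = f' a := by
        intro a
        have h1 := hf' a
        rw [mem_conc] at h1
        by_cases h : deg a - δ = 0
        · have h3 := h1.1 h
          rw [← hYY] at h3
          obtain ⟨x, hx, hx'⟩ := h3
          exact ⟨x, mem_conc.mpr ⟨fun _ => hx, fun h' => absurd h h'⟩, hx'⟩
        · exact ⟨0, Submodule.zero_mem _, by rw [map_zero, h1.2 h]⟩
      choose f hf hff using h2
      refine ⟨f, ?_, ?_⟩
      · rw [SetLike.mem_coe, khc_mem_lift]; exact hf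
      · ext a; exact hff a
  · intro δ f hf
    rw [khc_mem_lift] at hf
    rw [khc_mem_lift, khc_mem_lift]
    refine forall_congr' fun a => ?_
    have h1 := hf a
    rw [mem_conc] at h1 ⊢
    rw [mem_conc]
    by_cases h : deg a - δ = 0
    · simp only [h, forall_const, ne_eq, not_true_eq_false, IsEmpty.forall_iff, and_true]
      exact hXX (f a) (h1.1 h)
    · simp only [h, IsEmpty.forall_iff, ne_eq, not_false_eq_true, forall_const, true_and]
      have h3 := h1.2 h
      simp [h3]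

/-- T4 (with the necessary hypothesis that `Q` lowers the degree by one). -/
theorem khs_eq_kh (deg : ι → ℤ) (Q : Matrix ι ι S) (hQ : IsCx deg Q) (X Y : Submodule S M)
    (h : X ≤ Y) (i : ℤ) :
    khs deg Q Y X i = kh deg Q (↥Y ⧸ X.submoduleOf Y) i := by
  have e1 : khs deg Q (⊤ : Submodule S ↥Y) (X.submoduleOf Y) i = khs deg Q Y X i := by
    refine khs_map_eq deg Q hQ Y.subtype _ _ _ _ le_top ?_ ?_ i
    · rw [Submodule.map_top, Submodule.range_subtype]
    · intro x _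
      exact Iff.rfl
  have e2 : khs deg Q (⊤ : Submodule S ↥Y) (X.submoduleOf Y) i =
      kh deg Q (↥Y ⧸ X.submoduleOf Y) i := by
    unfold kh
    refine khs_map_eq deg Q hQ (Submodule.mkQ _) _ _ _ _ le_top ?_ ?_ i
    · rw [Submodule.map_top, Submodule.range_mkQ]
    · intro x _
      rw [Submodule.mem_bot, Submodule.mkQ_apply, Submodule.Quotient.mk_eq_zero]
  rw [← e1, e2]

/-- T4. -/
theorem kh_congr (deg : ι → ℤ) (Q : Matrix ι ι S) (e : M ≃ₗ[S] N) (i : ℤ) :
    kh deg Q M i = kh deg Q N i := by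
  unfold kh khs hh
  set F : (ι → M) →ₗ[S] (ι → N) := (e : M →ₗ[S] N).compLeft ι with hF
  have hinj : Function.Injective F := by
    intro f g hfg
    ext a
    have := congrFun hfg a
    exact e.injective this
  have hL : ∀ δ, (lift deg (conc (⊤ : Submodule S M)) δ).map F = lift deg (conc ⊤) δ := by
    intro δ
    ext f'
    constructor
    · rintro ⟨f, hf, rfl⟩
      rw [SetLike.mem_coe, khc_mem_lift] at hf
      rw [khc_mem_lift]
      intro a
      have h1 := hf a
      rw [mem_conc] at h1 ⊢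
      refine ⟨fun _ => trivial, fun h => ?_⟩
      simp [hF, h1.2 h]
    · intro hf'
      rw [khc_mem_lift] at hf'
      refine ⟨fun a => e.symm (f' a), ?_, ?_⟩
      · rw [SetLike.mem_coe, khc_mem_lift]
        intro a
        have h1 := hf' a
        rw [mem_conc] at h1 ⊢
        refine ⟨fun _ => trivial, fun h => ?_⟩
        rw [h1.2 h, map_zero]
      · ext a; simp [hF]
  have hB : ∀ δ, (lift deg (conc (⊥ : Submodule S M)) δ).map F = lift deg (conc ⊥) δ := by
    intro δ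
    ext f'
    constructor
    · rintro ⟨f, hf, rfl⟩
      rw [SetLike.mem_coe, khc_mem_lift] at hf
      rw [khc_mem_lift]
      intro a
      have h1 := hf a
      rw [mem_conc] at h1 ⊢
      refine ⟨fun h => ?_, fun h => ?_⟩
      · have := h1.1 h
        rw [Submodule.mem_bot] at this ⊢
        simp [hF, this]
      · simp [hF, h1.2 h]
    · intro hf'
      rw [khc_mem_lift] at hf'
      refine ⟨fun a => e.symm (f' a), ?_, ?_⟩
      · rw [SetLike.mem_coe, khc_mem_lift]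
        intro a
        have h1 := hf' a
        rw [mem_conc] at h1 ⊢
        refine ⟨fun h => ?_, fun h => ?_⟩
        · have := h1.1 h
          rw [Submodule.mem_bot] at this ⊢
          rw [this, map_zero]
        · rw [h1.2 h, map_zero]
      · ext a; simp [hF]
  have hbb : (bb (tot deg Q (0 : M →ₗ[S] M)) (lift deg (conc ⊤)) (lift deg (conc ⊥)) i).map F =
      bb (tot deg Q (0 : N →ₗ[S] N)) (lift deg (conc ⊤)) (lift deg (conc ⊥)) i := by
    unfold bb
    rw [Submodule.map_sup, hB, ← hL (i + 1), ← Submodule.map_comp, ← Submodule.map_comp]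
    congr 2
    ext1 f
    exact (tot_zero_comp deg Q (e : M →ₗ[S] N) f).symm
  have hzz : (zz (tot deg Q (0 : M →ₗ[S] M)) (lift deg (conc ⊤)) (lift deg (conc ⊥)) i).map F =
      zz (tot deg Q (0 : N →ₗ[S] N)) (lift deg (conc ⊤)) (lift deg (conc ⊥)) i := by
    unfold zz
    rw [Submodule.map_inf _ hinj, hL]
    ext f'
    simp only [Submodule.mem_inf]
    refine and_congr_right fun hf' => ?_
    rw [← hL] at hf'
    obtain ⟨f, hf, rfl⟩ := hf'
    rw [Submodule.mem_comap, tot_zero_comp, ← hB]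
    constructor
    · rintro ⟨f2, hf2, hff⟩
      have : f2 = f := hinj hff
      subst this
      exact Submodule.mem_map_of_mem hf2
    · rintro ⟨f2, hf2, hff⟩
      have : f2 = _ := hinj hff
      subst this
      exact Submodule.mem_map_of_mem hf2
  rw [← hbb, ← hzz, rl_map_of_injective F hinj]

omit [Fintype ι] in
lemma lift_conc_bot (deg : ι → ℤ) (δ : ℤ) : lift deg (conc (⊥ : Submodule S M)) δ = ⊥ := by
  ext f
  rw [khc_mem_lift, Submodule.mem_bot]
  constructor
  · intro h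
    ext a
    have h1 := h a
    rw [mem_conc] at h1
    by_cases h2 : deg a - δ = 0
    · exact h1.1 h2
    · exact h1.2 h2
  · rintro rfl a
    exact Submodule.zero_mem _

omit [Fintype ι] in
lemma mem_lift_conc_top {deg : ι → ℤ} {δ : ℤ} {f : ι → M} :
    f ∈ lift deg (conc (⊤ : Submodule S M)) δ ↔ ∀ a, deg a - δ ≠ 0 → f a = 0 := by
  rw [khc_mem_lift]
  refine forall_congr' fun a => ?_
  rw [mem_conc]
  exact ⟨fun h => h.2, fun h => ⟨fun _ => trivial, h⟩⟩

lemma mem_zz_kh {deg : ι → ℤ} {Q : Matrix ι ι S} {i : ℤ} {f : ι → M} :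
    f ∈ zz (tot deg Q (0 : M →ₗ[S] M)) (lift deg (conc ⊤)) (lift deg (conc ⊥)) i ↔
      (∀ a, deg a - i ≠ 0 → f a = 0) ∧ tot deg Q (0 : M →ₗ[S] M) f = 0 := by
  unfold zz
  rw [Submodule.mem_inf, Submodule.mem_comap, lift_conc_bot, Submodule.mem_bot,
    mem_lift_conc_top]

lemma mem_bb_kh {deg : ι → ℤ} {Q : Matrix ι ι S} {i : ℤ} {f : ι → M} :
    f ∈ bb (tot deg Q (0 : M →ₗ[S] M)) (lift deg (conc ⊤)) (lift deg (conc ⊥)) i ↔
      ∃ g : ι → M, (∀ a, deg a - (i + 1) ≠ 0 → g a = 0) ∧ tot deg Q (0 : M →ₗ[S] M) g = f := by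
  unfold bb
  rw [lift_conc_bot, sup_bot_eq, Submodule.mem_map]
  refine exists_congr fun g => ?_
  rw [mem_lift_conc_top]

/-- T4. -/
theorem kh_pi (deg : ι → ℤ) (Q : Matrix ι ι S) (w : ℕ) (i : ℤ) :
    kh deg Q (Fin w → M) i = (w : ℕ∞) * kh deg Q M i := by
  unfold kh khs hh
  set Z := zz (tot deg Q (0 : M →ₗ[S] M)) (lift deg (conc ⊤)) (lift deg (conc ⊥)) i with hZ
  set B := bb (tot deg Q (0 : M →ₗ[S] M)) (lift deg (conc ⊤)) (lift deg (conc ⊥)) i with hB
  set Zw := zz (tot deg Q (0 : (Fin w → M) →ₗ[S] (Fin w → M))) (lift deg (conc ⊤))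
    (lift deg (conc ⊥)) i with hZw
  set Bw := bb (tot deg Q (0 : (Fin w → M) →ₗ[S] (Fin w → M))) (lift deg (conc ⊤))
    (lift deg (conc ⊥)) i with hBw
  let F : Fin w → (ι → (Fin w → M)) →ₗ[S] (ι → M) := fun j =>
    (LinearMap.proj j : (Fin w → M) →ₗ[S] M).compLeft ι
  have hF : ∀ j f a, F j f a = f a j := fun j f a => rfl
  have hFD : ∀ j f, tot deg Q (0 : M →ₗ[S] M) (F j f) = F j (tot deg Q 0 f) := fun j f =>
    tot_zero_comp deg Q (LinearMap.proj j : (Fin w → M) →ₗ[S] M) f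
  have hext : ∀ f g : ι → (Fin w → M), (∀ j, F j f = F j g) → f = g := by
    intro f g h
    ext a j
    exact congrFun (h j) a
  have hZiff : ∀ f, f ∈ Zw ↔ ∀ j, F j f ∈ Z := by
    intro f
    rw [hZw, mem_zz_kh]
    simp only [hZ, mem_zz_kh]
    constructor
    · rintro ⟨h1, h2⟩ j
      refine ⟨fun a ha => ?_, ?_⟩
      · rw [hF, h1 a ha]; rfl
      · rw [hFD, h2, map_zero]
    · intro h
      refine ⟨fun a ha => ?_, ?_⟩
      · ext j; exact (h j).1 a ha
      · refine hext _ _ fun j => ?_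
        rw [← hFD, (h j).2, map_zero]
  have hBiff : ∀ f, f ∈ Bw ↔ ∀ j, F j f ∈ B := by
    intro f
    rw [hBw, mem_bb_kh]
    simp only [hB, mem_bb_kh]
    constructor
    · rintro ⟨g, h1, h2⟩ j
      refine ⟨F j g, fun a ha => ?_, ?_⟩
      · rw [hF, h1 a ha]; rfl
      · rw [hFD, h2]
    · intro h
      choose g h1 h2 using h
      refine ⟨fun a j => g j a, fun a ha => ?_, ?_⟩
      · ext j; exact h1 j a ha
      · refine hext _ _ fun j => ?_
        rw [← hFD, ← h2 j]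
        rfl
  let G : ↥Zw →ₗ[S] (Fin w → (↥Z ⧸ B.submoduleOf Z)) :=
    LinearMap.pi fun j => (Submodule.mkQ _).comp
      (((F j).comp Zw.subtype).codRestrict Z fun z => (hZiff z.1).mp z.2 j)
  rw [rl_eq_length_of_surjective (K := Bw) (N := Zw) G ?_ ?_, Module.length_pi_of_fintype,
    Finset.sum_const, Finset.card_univ, Fintype.card_fin, nsmul_eq_mul]
  · rfl
  · intro z
    have : ∀ j, ∃ y : ↥Z, Submodule.Quotient.mk y = z j := fun j =>
      Submodule.Quotient.mk_surjective _ (z j)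
    choose y hy using this
    have hmem : (fun a j => (y j).1 a : ι → (Fin w → M)) ∈ Zw := by
      rw [hZiff]
      intro j
      exact (y j).2
    refine ⟨⟨_, hmem⟩, ?_⟩
    ext j
    rw [← hy j]
    rfl
  · ext ⟨z, hz⟩
    have h2 : (⟨z, hz⟩ : ↥Zw) ∈ Bw.submoduleOf Zw ↔ z ∈ Bw := Iff.rfl
    rw [h2, hBiff, LinearMap.mem_ker, funext_iff]
    refine forall_congr' fun j => ?_
    change Submodule.Quotient.mk _ = _ ↔ _
    rw [Pi.zero_apply, Submodule.Quotient.mk_eq_zero]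
    exact Iff.rfl

end KhCongr

end Vale.Agent.P202.CharP
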