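import Vale.Agent.P202.CharP.DefsF
import Vale.Agent.P202.CharP.KhCongr
import Vale.Agent.P202.CharP.BaseCh

/-!
P202-CHARP, REAL: auxiliary lemmas on base change in two steps.
-/

namespace Vale.Agent.P202.CharP

open Submodule TensorProduct IsLocalRing

section Quot

variable {B : Type*} [CommRing B] {Λ : Type*} [AddCommGroup Λ] [Module B Λ]
  (A' : Type*) [CommRing A'] [Algebra B A']

/-- base change of a subquotient along a flat algebra. -/
theorem exists_quot_baseChange [Module.Flat B A'] {N : Type*} [AddCommGroup N] [Module B N]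
    (X Y : Submodule B Λ) (g : ↥Y →ₗ[B] N) (hg : Function.Surjective g)
    (hk : LinearMap.ker g = X.submoduleOf Y) :
    ∃ g' : ↥(Y.baseChange A') →ₗ[A'] A' ⊗[B] N, Function.Surjective g' ∧
      LinearMap.ker g' = (X.baseChange A').submoduleOf (Y.baseChange A') := by
  have hinj : Function.Injective (Y.subtype.baseChange A') :=
    Module.Flat.lTensor_preserves_injective_linearMap Y.subtype Y.injective_subtype
  let e1 : (A' ⊗[B] Y) ≃ₗ[A'] Y.baseChange A' :=
    LinearEquiv.ofInjective (Y.subtype.baseChange A') hinj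
  refine ⟨(g.baseChange A') ∘ₗ e1.symm.toLinearMap, ?_, ?_⟩
  · have h0 : Function.Surjective (g.baseChange A') := LinearMap.lTensor_surjective A' hg
    exact h0.comp e1.symm.surjective
  · ext y
    obtain ⟨t, rfl⟩ := e1.surjective y
    have h1 : ((g.baseChange A') ∘ₗ e1.symm.toLinearMap) (e1 t) = g.baseChange A' t := by
      simp
    rw [LinearMap.mem_ker, h1, ← LinearMap.mem_ker, ker_baseChange, hk]
    have h2 : (X.submoduleOf Y).baseChange A' = (X.baseChange A').comap (Y.subtype.baseChange A') :=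
      baseChange_comap A' Y.subtype X
    rw [h2]
    rfl

variable (A : Type*) [CommRing A] [Algebra A A']

/-- the same with restriction of scalars to `A`. -/
theorem exists_quot_bcA [Module.Flat B A'] {N : Type*} [AddCommGroup N] [Module B N]
    (X Y : Submodule B Λ) (g : ↥Y →ₗ[B] N) (hg : Function.Surjective g)
    (hk : LinearMap.ker g = X.submoduleOf Y) :
    ∃ g' : ↥(bcA A A' Y) →ₗ[A] A' ⊗[B] N, Function.Surjective g' ∧
      LinearMap.ker g' = (bcA A A' X).submoduleOf (bcA A A' Y) := by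
  obtain ⟨g1, hg1, hk1⟩ := exists_quot_baseChange A' X Y g hg hk
  refine ⟨{ toFun := fun y => g1 ⟨y.1, y.2⟩
            map_add' := fun y z => ?_
            map_smul' := fun a y => ?_ }, ?_, ?_⟩
  · exact map_add g1 ⟨y.1, y.2⟩ ⟨z.1, z.2⟩
  · have h1 : (a • y).1 = (algebraMap A A' a) • y.1 := by
      rw [Submodule.coe_smul, algebraMap_smul]
    have h2 : (⟨(a • y).1, (a • y).2⟩ : ↥(Y.baseChange A')) =
        (algebraMap A A' a) • (⟨y.1, y.2⟩ : ↥(Y.baseChange A')) := Subtype.ext h1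
    change g1 ⟨(a • y).1, (a • y).2⟩ = a • g1 ⟨y.1, y.2⟩
    rw [h2, map_smul, algebraMap_smul]
  · intro z
    obtain ⟨y, hy⟩ := hg1 z
    exact ⟨⟨y.1, y.2⟩, hy⟩
  · ext y
    have h1 := congrArg (fun K : Submodule A' ↥(Y.baseChange A') =>
      (⟨y.1, y.2⟩ : ↥(Y.baseChange A')) ∈ K) hk1
    simp only [LinearMap.mem_ker, eq_iff_iff] at h1
    rw [LinearMap.mem_ker]
    exact h1

end Quot

section Lattice

variable {B : Type*} [CommRing B] {Λ : Type*} [AddCommGroup Λ] [Module B Λ]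
  (A A' : Type*) [CommRing A] [CommRing A'] [Algebra A A'] [Algebra B A']

lemma bcA_mono {X Y : Submodule B Λ} (h : X ≤ Y) : bcA A A' X ≤ bcA A A' Y :=
  fun _ hx => Submodule.baseChange_mono A' h hx

lemma mem_bcA {X : Submodule B Λ} {x : A' ⊗[B] Λ} : x ∈ bcA A A' X ↔ x ∈ X.baseChange A' :=
  Iff.rfl

lemma bcA_sup (X Y : Submodule B Λ) : bcA A A' (X ⊔ Y) = bcA A A' X ⊔ bcA A A' Y := by
  ext x
  rw [mem_bcA, baseChange_sup', Submodule.mem_sup, Submodule.mem_sup]
  rfl

lemma bcA_inf [Module.Flat B A'] (X Y : Submodule B Λ) :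
    bcA A A' (X ⊓ Y) = bcA A A' X ⊓ bcA A A' Y := by
  ext x
  rw [mem_bcA, baseChange_inf, Submodule.mem_inf, Submodule.mem_inf]
  rfl

lemma bcA_map (f : Λ →ₗ[B] Λ) (X : Submodule B Λ) :
    bcA A A' (X.map f) = (bcA A A' X).map (bcE A A' f) := by
  ext x
  rw [mem_bcA, baseChange_map, Submodule.mem_map, Submodule.mem_map]
  rfl

lemma bcA_comap [Module.Flat B A'] (f : Λ →ₗ[B] Λ) (X : Submodule B Λ) :
    bcA A A' (X.comap f) = (bcA A A' X).comap (bcE A A' f) := by
  ext x
  rw [mem_bcA, baseChange_comap, Submodule.mem_comap, Submodule.mem_comap]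
  rfl

lemma bcA_bot : bcA A A' (⊥ : Submodule B Λ) = ⊥ := by
  ext x
  rw [mem_bcA, Submodule.baseChange_bot, Submodule.mem_bot, Submodule.mem_bot]

lemma cz_bcA [Module.Flat B A'] (d : Λ →ₗ[B] Λ) (Y X : ℤ → Submodule B Λ) (p : ℤ) :
    cz (bcE A A' d) (fun p => bcA A A' (Y p)) (fun p => bcA A A' (X p)) p =
      bcA A A' (cz d Y X p) := by
  rw [cz, cz, bcA_inf, bcA_comap]

lemma cb_bcA (d : Λ →ₗ[B] Λ) (Y X : ℤ → Submodule B Λ) (p : ℤ) :
    cb (bcE A A' d) (fun p => bcA A A' (Y p)) (fun p => bcA A A' (X p)) p =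
      bcA A A' (cb d Y X p) := by
  rw [cb, cb, bcA_sup, bcA_map]

lemma ex_bcA [Module.Flat B A'] (d : Λ →ₗ[B] Λ) (Y X : ℤ → Submodule B Λ) (p : ℤ)
    (h : Ex d Y X p) :
    Ex (bcE A A' d) (fun p => bcA A A' (Y p)) (fun p => bcA A A' (X p)) p := by
  unfold Ex
  rw [cz_bcA, cb_bcA]
  exact bcA_mono A A' h

/-- base change commutes with increasing unions. -/
lemma mem_baseChange_union (X : ℕ → Submodule B Λ) (hX : ∀ k, X k ≤ X (k + 1))
    (Y : Submodule B Λ) (hY : ∀ f, f ∈ Y ↔ ∃ k, f ∈ X k) (x : A' ⊗[B] Λ) :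
    x ∈ Y.baseChange A' ↔ ∃ k, x ∈ (X k).baseChange A' := by
  have hmono : ∀ {i j : ℕ}, i ≤ j → X i ≤ X j := by
    intro i j hij
    induction hij with
    | refl => exact le_rfl
    | step _ ih => exact ih.trans (hX _)
  constructor
  · intro hx
    rw [Submodule.baseChange_eq_span] at hx
    induction hx using Submodule.span_induction with
    | mem x hx =>
      obtain ⟨v, hv, rfl⟩ := hx
      obtain ⟨k, hk⟩ := (hY v).mp hv
      exact ⟨k, tmul_mem_baseChange_of_mem _ hk⟩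
    | zero => exact ⟨0, Submodule.zero_mem _⟩
    | add x y _ _ h1 h2 =>
      obtain ⟨k1, h1⟩ := h1
      obtain ⟨k2, h2⟩ := h2
      exact ⟨max k1 k2, Submodule.add_mem _
        (Submodule.baseChange_mono A' (hmono (le_max_left k1 k2)) h1)
        (Submodule.baseChange_mono A' (hmono (le_max_right k1 k2)) h2)⟩
    | smul a x _ h =>
      obtain ⟨k, h⟩ := h
      exact ⟨k, Submodule.smul_mem _ a h⟩
  · rintro ⟨k, hk⟩
    exact Submodule.baseChange_mono A' (fun f hf => (hY f).mpr ⟨k, hf⟩) hk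

end Lattice

end Vale.Agent.P202.CharP
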