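import Vale.Agent.P202.CharP.Defs

/-!
Basic facts on total complexes and Koszul matrices.
-/

namespace Vale.Agent.P202.CharP

open Submodule

section T

variable {S : Type*} [CommRing S] {ι : Type*} [Fintype ι] {M : Type*} [AddCommGroup M]
  [Module S M]

theorem act_apply (Q : Matrix ι ι S) (f : ι → M) (a : ι) : act Q M f a = ∑ b, Q a b • f b := rfl

theorem tot_apply (deg : ι → ℤ) (Q : Matrix ι ι S) (d : M →ₗ[S] M) (f : ι → M) (a : ι) :
    tot deg Q d f a = ∑ b, Q a b • f b + ((deg a).negOnePow : ℤ) • d (f a) := rfl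

theorem tot_eq (deg : ι → ℤ) (Q : Matrix ι ι S) (d : M →ₗ[S] M) (f : ι → M) (a : ι) :
    tot deg Q d f a = act Q M f a + ((deg a).negOnePow : ℤ) • d (f a) := rfl

theorem act_mul (Q Q' : Matrix ι ι S) (f : ι → M) :
    act (Q * Q') M f = act Q M (act Q' M f) := by
  ext a
  simp only [act_apply, Matrix.mul_apply, Finset.sum_smul, Finset.smul_sum, smul_smul]
  rw [Finset.sum_comm]

theorem act_add (Q Q' : Matrix ι ι S) (f : ι → M) :
    act (Q + Q') M f = act Q M f + act Q' M f := by
  ext a
  simp only [act_apply, Matrix.add_apply, add_smul, Finset.sum_add_distrib, Pi.add_apply]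

theorem act_smul (c : S) (Q : Matrix ι ι S) (f : ι → M) :
    act (c • Q) M f = c • act Q M f := by
  ext a
  simp only [act_apply, Matrix.smul_apply, smul_eq_mul, mul_smul, Finset.smul_sum, Pi.smul_apply]

theorem act_one [DecidableEq ι] (f : ι → M) : act (1 : Matrix ι ι S) M f = f := by
  ext a
  simp [act_apply, Matrix.one_apply]

theorem act_zero (f : ι → M) : act (0 : Matrix ι ι S) M f = 0 := by
  ext a
  simp [act_apply]

/-- A matrix commutes with an endomorphism of `M` applied to all components. -/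
theorem act_comp (Q : Matrix ι ι S) (φ : M →ₗ[S] M) (f : ι → M) (a : ι) :
    act Q M (fun b => φ (f b)) a = φ (act Q M f a) := by
  simp only [act_apply, map_sum, map_smul]

/-- A matrix preserves families with components in a submodule. -/
theorem act_mem (Q : Matrix ι ι S) {X : Submodule S M} {f : ι → M} (hf : ∀ a, f a ∈ X) (a : ι) :
    act Q M f a ∈ X := by
  rw [act_apply]
  exact X.sum_mem fun b _ => X.smul_mem _ (hf b)

omit [Fintype ι] in
theorem mem_lift (deg : ι → ℤ) (X : ℤ → Submodule S M) (δ : ℤ) (f : ι → M) :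
    f ∈ lift deg X δ ↔ ∀ a, f a ∈ X (deg a - δ) := by
  simp [lift, Submodule.mem_pi]

theorem negOnePow_mul_self (n : ℤ) : ((n.negOnePow : ℤˣ) : ℤ) * ((n.negOnePow : ℤˣ) : ℤ) = 1 := by
  rw [← Units.val_mul, Int.units_mul_self, Units.val_one]

theorem negOnePow_succ' (n : ℤ) : (((n + 1).negOnePow : ℤˣ) : ℤ) = -((n.negOnePow : ℤˣ) : ℤ) := by
  rw [Int.negOnePow_succ, Units.val_neg]

/-- TASK T1. -/
theorem tot_tot (deg : ι → ℤ) (Q : Matrix ι ι S) (hQ : IsCx deg Q) (d : M →ₗ[S] M)
    (hd : ∀ x, d (d x) = 0) (f : ι → M) : tot deg Q d (tot deg Q d f) = 0 := by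
  ext a
  have h1 : ∑ b, Q a b • (∑ c, Q b c • f c) = 0 := by
    have := congrFun (act_mul Q Q f) a
    rw [hQ.sq, act_zero] at this
    simpa [act_apply] using this.symm
  have h2 : ∀ b, Q a b • (((deg b).negOnePow : ℤ) • d (f b)) =
      -(((deg a).negOnePow : ℤ) • (Q a b • d (f b))) := by
    intro b
    by_cases hb : Q a b = 0
    · simp [hb]
    · rw [hQ.deg_eq a b hb, negOnePow_succ', neg_smul, smul_neg, smul_comm]
  rw [tot_apply]
  simp only [tot_apply, smul_add, Finset.sum_add_distrib, h1, zero_add, map_add, map_sum, map_smul,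
    map_zsmul, hd, smul_zero, add_zero]
  rw [Finset.sum_congr rfl (fun b _ => h2 b), Finset.sum_neg_distrib, Finset.smul_sum]
  simp

/-- TASK T1. -/
theorem lift_stab (deg : ι → ℤ) (Q : Matrix ι ι S) (hQ : IsCx deg Q) (d : M →ₗ[S] M)
    (X : ℤ → Submodule S M) (hX : CStab d X) : Stab (tot deg Q d) (lift deg X) := by
  intro δ f hf
  rw [mem_lift] at hf ⊢
  intro a
  rw [tot_apply]
  refine Submodule.add_mem _ (Submodule.sum_mem _ fun b _ => ?_) ?_
  · by_cases hb : Q a b = 0
    · simp [hb]
    · have := hf b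
      rw [hQ.deg_eq a b hb] at this
      have e : deg a + 1 - δ = deg a - (δ - 1) := by ring
      rw [e] at this
      exact Submodule.smul_mem _ _ this
  · have := hX _ _ (hf a)
    have e : deg a - δ + 1 = deg a - (δ - 1) := by ring
    rw [e] at this
    exact zsmul_mem this _

/-- TASK T1. -/
theorem lift_mono (deg : ι → ℤ) {X Y : ℤ → Submodule S M} (h : ∀ p, X p ≤ Y p) (δ : ℤ) :
    lift deg X δ ≤ lift deg Y δ := by
  intro f hf
  rw [mem_lift] at hf ⊢
  exact fun a => h _ (hf a)

/-- TASK T5: the Koszul matrix is a complex and its degrees. -/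
theorem kos_isCx : ∀ (n : ℕ) (y : Fin n → S), IsCx (kdeg n) (kos n y)
  | 0, y => ⟨fun a b h => absurd rfl h, by
      change (0 : Matrix (KIdx 0) (KIdx 0) S) * 0 = 0
      simp⟩
  | n + 1, y => by
    have ih := kos_isCx n (fun i => y i.succ)
    refine ⟨?_, ?_⟩
    · rintro (a | a) (b | b) h
      · exact ih.deg_eq a b h
      · by_cases hab : a = b
        · subst hab; rfl
        · refine absurd ?_ h
          change (y 0 • (1 : Matrix (KIdx n) (KIdx n) S)) a b = 0
          simp [hab]
      · exact absurd rfl h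
      · have h' : kos n (fun i => y i.succ) a b ≠ 0 := by
          intro h0
          refine h ?_
          change (-(kos n fun i => y i.succ)) a b = 0
          rw [Matrix.neg_apply, h0, neg_zero]
        have := ih.deg_eq a b h'
        change kdeg n b + 1 = kdeg n a + 1 + 1
        rw [this]
    · change Matrix.fromBlocks (kos n fun i => y i.succ)
          (y 0 • (1 : Matrix (KIdx n) (KIdx n) S)) 0 (-(kos n fun i => y i.succ)) *
        Matrix.fromBlocks (kos n fun i => y i.succ)
          (y 0 • (1 : Matrix (KIdx n) (KIdx n) S)) 0 (-(kos n fun i => y i.succ)) = 0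
      rw [Matrix.fromBlocks_multiply, ih.sq]
      simp [ih.sq]

/-- TASK T5. -/
theorem kdeg_range : ∀ (n : ℕ) (a : KIdx n), 0 ≤ kdeg n a ∧ kdeg n a ≤ n
  | 0, _ => by simp [kdeg]
  | n + 1, Sum.inl a => by
    have h := kdeg_range n a
    change 0 ≤ kdeg n a ∧ kdeg n a ≤ ((n + 1 : ℕ) : ℤ)
    push_cast
    omega
  | n + 1, Sum.inr a => by
    have h := kdeg_range n a
    change 0 ≤ kdeg n a + 1 ∧ kdeg n a + 1 ≤ ((n + 1 : ℕ) : ℤ)
    push_cast
    omega

theorem blocks_aux1 {α : Type*} [Fintype α] [DecidableEq α] (A : Matrix α α S) (c : S) :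
    Matrix.fromBlocks A (c • (1 : Matrix α α S)) 0 (-A) * Matrix.fromBlocks 0 0 1 0 +
      Matrix.fromBlocks 0 0 1 0 * Matrix.fromBlocks A (c • (1 : Matrix α α S)) 0 (-A) =
      c • (1 : Matrix (α ⊕ α) (α ⊕ α) S) := by
  rw [Matrix.fromBlocks_multiply, Matrix.fromBlocks_multiply, Matrix.fromBlocks_add,
    ← Matrix.fromBlocks_one, Matrix.fromBlocks_smul]
  congr 1 <;> simp

theorem blocks_aux2 {α : Type*} [Fintype α] [DecidableEq α] (A h : Matrix α α S) (c c' : S)
    (H : A * h + h * A = c' • 1) :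
    Matrix.fromBlocks A (c • (1 : Matrix α α S)) 0 (-A) * Matrix.fromBlocks h 0 0 (-h) +
      Matrix.fromBlocks h 0 0 (-h) * Matrix.fromBlocks A (c • (1 : Matrix α α S)) 0 (-A) =
      c' • (1 : Matrix (α ⊕ α) (α ⊕ α) S) := by
  rw [Matrix.fromBlocks_multiply, Matrix.fromBlocks_multiply, Matrix.fromBlocks_add,
    ← Matrix.fromBlocks_one, Matrix.fromBlocks_smul]
  congr 1
  · simpa using H
  · simp
  · simp
  · simpa using H

/-- TASK T5: the standard null-homotopies of the Koszul complex: `∂ h + h ∂ = y l`, with `h` given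
by a matrix raising the degree by one. -/
theorem kos_homotopy : ∀ (n : ℕ) (y : Fin n → S) (l : Fin n), ∃ h : Matrix (KIdx n) (KIdx n) S,
    (∀ a b, h a b ≠ 0 → kdeg n a = kdeg n b + 1) ∧ kos n y * h + h * kos n y = y l • 1
  | 0, _, l => l.elim0
  | n + 1, y, l => by
    refine Fin.cases ?_ (fun l => ?_) l
    · let h : Matrix (KIdx n ⊕ KIdx n) (KIdx n ⊕ KIdx n) S := Matrix.fromBlocks 0 0 1 0
      refine ⟨h, ?_, ?_⟩
      · rintro (a | a) (b | b) hab
        · exact absurd rfl hab
        · exact absurd rfl hab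
        · by_cases he : a = b
          · subst he; rfl
          · refine absurd ?_ hab
            change (1 : Matrix (KIdx n) (KIdx n) S) a b = 0
            simp [he]
        · exact absurd rfl hab
      · exact blocks_aux1 (kos n fun i => y i.succ) (y 0)
    · obtain ⟨h, h1, h2⟩ := kos_homotopy n (fun i => y i.succ) l
      let h' : Matrix (KIdx n ⊕ KIdx n) (KIdx n ⊕ KIdx n) S := Matrix.fromBlocks h 0 0 (-h)
      refine ⟨h', ?_, ?_⟩
      · rintro (a | a) (b | b) hab
        · exact h1 a b hab
        · exact absurd rfl hab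
        · exact absurd rfl hab
        · have : h a b ≠ 0 := by
            intro h0
            refine hab ?_
            change (-h) a b = 0
            rw [Matrix.neg_apply, h0, neg_zero]
          have := h1 a b this
          change kdeg n a + 1 = kdeg n b + 1 + 1
          rw [this]
      · exact blocks_aux2 (kos n fun i => y i.succ) h (y 0) (y l.succ) h2

end T

end Vale.Agent.P202.CharP
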