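import Vale.Agent.P202.CharP.DefsF
import Vale.Agent.P202.FinLen

/-!
P202-CHARP, tasks R1, R2, R3: lengths along local homomorphisms, the degree of Frobenius,
`F`-finiteness of complete local rings.
-/

namespace Vale.Agent.P202.CharP

open Submodule TensorProduct IsLocalRing

section R1

variable {A A' : Type*} [CommRing A] [IsLocalRing A] [CommRing A'] [IsLocalRing A']
    [Algebra A A'] [IsLocalHom (algebraMap A A')]

lemma length_residueField :
    Module.length A (ResidueField A') = Module.length (ResidueField A) (ResidueField A') :=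
  Module.length_eq_of_surjective (residue_surjective (R := A))

lemma length_of_simple (M : Type*) [AddCommGroup M] [Module A' M] [IsSimpleModule A' M]
    [Module A M] [IsScalarTower A A' M] :
    Module.length A M = Module.length (ResidueField A) (ResidueField A') := by
  obtain ⟨I, hI, ⟨e⟩⟩ := isSimpleModule_iff_quot_maximal.1 (inferInstance : IsSimpleModule A' M)
  have hIm : I = maximalIdeal A' := IsLocalRing.eq_maximalIdeal hI
  subst hIm
  have e' : M ≃ₗ[A] (A' ⧸ maximalIdeal A') := e.restrictScalars A
  rw [e'.length_eq]
  exact length_residueField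

lemma length_restrict_aux (N : Type*) [AddCommGroup N] [Module A' N] (h : IsFiniteLength A' N) :
    ∀ [Module A N] [IsScalarTower A A' N], Module.length A N =
      Module.length A' N * Module.length (ResidueField A) (ResidueField A') := by
  induction h with
  | of_subsingleton =>
    intro _ _
    rw [Module.length_eq_zero, Module.length_eq_zero, zero_mul]
  | @of_simple_quotient M _ _ P _ _ ih =>
    intro _ _
    have h1 : Module.length A M = Module.length A P + Module.length A (M ⧸ P) :=
      Module.length_eq_add_of_exact (P.subtype.restrictScalars A) (P.mkQ.restrictScalars A)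
        (Submodule.subtype_injective P) (Submodule.mkQ_surjective P)
        (LinearMap.exact_subtype_mkQ P)
    have h2 : Module.length A' M = Module.length A' P + Module.length A' (M ⧸ P) :=
      Module.length_eq_add_of_exact P.subtype P.mkQ
        (Submodule.subtype_injective P) (Submodule.mkQ_surjective P)
        (LinearMap.exact_subtype_mkQ P)
    rw [h1, h2, ih, Module.length_eq_one A' (M ⧸ P), length_of_simple (A' := A') (M ⧸ P),
      add_mul, one_mul]

/-- TASK R1: lengths along a local homomorphism. -/
theorem length_restrict (N : Type*) [AddCommGroup N] [Module A N]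
    [Module A' N] [IsScalarTower A A' N] :
    Module.length A N =
      Module.length A' N * Module.length (ResidueField A) (ResidueField A') := by
  by_cases h : Module.length A' N = ⊤
  · have h1 : Module.length A' N ≤ Module.length A N := by
      have h2 := Submodule.length_le_length_restrictScalars A (⊤ : Submodule A' N)
      rw [Submodule.restrictScalars_top, Module.length_top, Module.length_top] at h2
      exact h2
    rw [h] at h1
    rw [h, top_le_iff.1 h1, ENat.top_mul]
    exact (Module.length_pos (R := ResidueField A) (M := ResidueField A')).ne'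
  · exact length_restrict_aux N (Module.length_ne_top_iff.1 h)

end R1

section Frob

variable (p : ℕ) [Fact p.Prime]

/-- TASK R2. -/
theorem isLocalHom_Fr (A : Type*) [CommRing A] [IsLocalRing A] [CharP A p] (e : ℕ) :
    IsLocalHom (algebraMap A (Fr p A e)) := by
  refine ⟨fun a ha => ?_⟩
  rw [algebraMap_Fr] at ha
  have h1 : IsUnit (a ^ p ^ e) := ha
  exact (isUnit_pow_iff (pow_ne_zero e (Fact.out : p.Prime).ne_zero)).1 h1

theorem length_residue_Fr (A : Type*) [CommRing A] [IsLocalRing A] [CharP A p]
    [CharP (ResidueField A) p] (e : ℕ) [IsLocalHom (algebraMap A (Fr p A e))] :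
    Module.length (ResidueField A) (ResidueField (Fr p A e)) =
      fdeg p (ResidueField A) e := by
  let f : ResidueField (Fr p A e) ≃+ Fr p (ResidueField A) e := AddEquiv.refl (ResidueField A)
  let g : ResidueField (Fr p A e) ≃ₗ[ResidueField A] Fr p (ResidueField A) e :=
    { f with
      map_smul' := fun c x => by
        obtain ⟨a, rfl⟩ := residue_surjective c
        obtain ⟨b, rfl⟩ := residue_surjective x
        change f (residue A a • residue (Fr p A e) b) = residue A a • f (residue (Fr p A e) b)
        rw [Algebra.smul_def, Algebra.smul_def]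
        change f (residue (Fr p A e) (algebraMap A (Fr p A e) a) * residue (Fr p A e) b) =
          algebraMap (ResidueField A) (Fr p (ResidueField A) e) (residue A a) *
            f (residue (Fr p A e) b)
        rw [algebraMap_Fr, algebraMap_Fr, ← map_mul, ← map_pow]
        rfl }
  exact g.length_eq

/-- TASK R2: lengths over the Frobenius copy. -/
theorem length_Fr (A : Type*) [CommRing A] [IsLocalRing A] [CharP A p]
    [CharP (ResidueField A) p] (e : ℕ)
    (N : Type*) [AddCommGroup N] [Module A N] [Module (Fr p A e) N]
    [IsScalarTower A (Fr p A e) N] :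
    Module.length A N = Module.length (Fr p A e) N * fdeg p (ResidueField A) e := by
  have := isLocalHom_Fr p A e
  rw [length_restrict (A := A) (A' := Fr p A e) N, length_residue_Fr]

noncomputable instance instFieldFr (k : Type*) [Field k] (e : ℕ) : Field (Fr p k e) :=
  inferInstanceAs (Field k)

theorem fdeg_zero (k : Type*) [Field k] [CharP k p] : fdeg p k 0 = 1 := by
  let f : k ≃+ Fr p k 0 := AddEquiv.refl k
  let g : k ≃ₗ[k] Fr p k 0 :=
    { f with
      map_smul' := fun c x => by
        change f (c • x) = c • f x
        rw [Algebra.smul_def, Algebra.smul_def, algebraMap_Fr, pow_zero, pow_one]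
        rfl }
  rw [fdeg, ← g.length_eq]
  exact Module.length_eq_one k k

theorem fdeg_succ (k : Type*) [Field k] [CharP k p] (e : ℕ) :
    fdeg p k (e + 1) = fdeg p k 1 * fdeg p k e := by
  let K := Fr p k 1
  let L := Fr p K e
  let _ : Algebra k L := ((algebraMap K L).comp (algebraMap k K)).toAlgebra
  have : IsScalarTower k K L := IsScalarTower.of_algebraMap_eq' rfl
  have h1 : Module.length k L = Module.length k K * Module.length K L := by
    rw [Module.length_eq_rank, Module.length_eq_rank, Module.length_eq_rank, ← map_mul,
      rank_mul_rank]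
  let f : Fr p k (e + 1) ≃+ L := AddEquiv.refl k
  let g : Fr p k (e + 1) ≃ₗ[k] L :=
    { f with
      map_smul' := fun c x => by
        change f (c • x) = c • f x
        rw [Algebra.smul_def, Algebra.smul_def, algebraMap_Fr]
        change _ = algebraMap K L (algebraMap k K c) * f x
        rw [algebraMap_Fr, algebraMap_Fr]
        change (c ^ p ^ (e + 1) * (show k from x) : k) = ((c ^ p ^ 1) ^ p ^ e : k) * (show k from x)
        rw [← pow_mul, ← pow_add, add_comm 1 e] }
  rw [fdeg, g.length_eq, h1]
  rfl

/-- TASK R2. -/
theorem fdeg_eq_pow (k : Type*) [Field k] [CharP k p] (e : ℕ) :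
    fdeg p k e = fdeg p k 1 ^ e := by
  induction e with
  | zero => rw [pow_zero, fdeg_zero]
  | succ e ih => rw [fdeg_succ, ih, pow_succ, mul_comm]

/-- finite free modules over a complete ring are complete -/
theorem isPrecomplete_pi {A : Type*} [CommRing A] (I : Ideal A) [IsPrecomplete I A] (n : ℕ) :
    IsPrecomplete I (Fin n → A) := by
  refine ⟨fun f hf => ?_⟩
  have h1 : ∀ (m : ℕ) (v : Fin n → A), v ∈ (I ^ m • ⊤ : Submodule A (Fin n → A)) →
      ∀ i, v i ∈ (I ^ m • ⊤ : Submodule A A) := by
    intro m v hv i
    have h2 : Submodule.map (LinearMap.proj i : (Fin n → A) →ₗ[A] A)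
        (I ^ m • ⊤ : Submodule A (Fin n → A)) ≤ (I ^ m • ⊤ : Submodule A A) := by
      rw [Submodule.map_smul'']
      exact Submodule.smul_mono le_rfl le_top
    exact h2 ⟨v, hv, rfl⟩
  have h3 : ∀ (m : ℕ) (v : Fin n → A), (∀ i, v i ∈ (I ^ m • ⊤ : Submodule A A)) →
      v ∈ (I ^ m • ⊤ : Submodule A (Fin n → A)) := by
    intro m v hv
    have h4 : v = ∑ i, v i • (Pi.single i (1 : A) : Fin n → A) := by
      ext j
      simp [Finset.sum_apply, Pi.single_apply]
    rw [h4]
    refine Submodule.sum_mem _ fun i _ => ?_
    have h5 : v i ∈ I ^ m := by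
      have := hv i
      rwa [smul_eq_mul, Ideal.mul_top] at this
    exact Submodule.smul_mem_smul h5 Submodule.mem_top
  have h6 : ∀ i, ∃ L : A, ∀ m, f m i ≡ L [SMOD (I ^ m • ⊤ : Submodule A A)] := by
    intro i
    refine IsPrecomplete.prec (inferInstance : IsPrecomplete I A) (f := fun m => f m i) ?_
    intro m m' hm
    have := hf hm
    rw [SModEq.sub_mem] at this ⊢
    exact h1 m _ this i
  choose L hL using h6
  refine ⟨L, fun m => ?_⟩
  rw [SModEq.sub_mem]
  refine h3 m _ fun i => ?_
  have := hL i m
  rw [SModEq.sub_mem] at this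
  exact this

/-- finiteness from completeness -/
theorem finite_of_complete {A : Type*} [CommRing A] (I : Ideal A) [IsPrecomplete I A]
    (N : Type*) [AddCommGroup N] [Module A N] [IsHausdorff I N]
    (h : Module.Finite A (N ⧸ (I • ⊤ : Submodule A N))) : Module.Finite A N := by
  obtain ⟨n, f, hf⟩ := Module.Finite.exists_fin' A (N ⧸ (I • ⊤ : Submodule A N))
  obtain ⟨g, hg⟩ := Module.projective_lifting_property (Submodule.mkQ (I • ⊤ : Submodule A N)) f
    (Submodule.mkQ_surjective _)
  have := isPrecomplete_pi I n
  have hs : Function.Surjective g := by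
    refine surjective_of_mkQ_comp_surjective (I := I) ?_
    rw [hg]
    exact hf
  exact Module.Finite.of_surjective g hs

/-- TASK R3: `F`-finiteness of complete rings. -/
theorem finite_Fr (A : Type*) [CommRing A] [IsLocalRing A] [IsNoetherianRing A] [CharP A p]
    [CharP (ResidueField A) p] [IsAdicComplete (maximalIdeal A) A]
    (h : fdeg p (ResidueField A) 1 ≠ ⊤) (e : ℕ) : Module.Finite A (Fr p A e) := by
  set J : Ideal (Fr p A e) := (maximalIdeal A).map (algebraMap A (Fr p A e)) with hJ
  have hq : p ^ e ≠ 0 := pow_ne_zero e (Fact.out : p.Prime).ne_zero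
  -- Hausdorff
  have hle : ∀ n : ℕ, ((maximalIdeal A) ^ n • (⊤ : Submodule A (Fr p A e))) ≤
      Submodule.restrictScalars A ((maximalIdeal (Fr p A e)) ^ n) := by
    intro n
    rw [Ideal.smul_top_eq_map]
    intro x hx
    have hx' : x ∈ ((maximalIdeal A) ^ n).map (algebraMap A (Fr p A e)) := hx
    have : ((maximalIdeal A) ^ n).map (algebraMap A (Fr p A e)) ≤
        (maximalIdeal (Fr p A e)) ^ n := by
      rw [Ideal.map_pow]
      refine Ideal.pow_right_mono ?_ n
      rw [Ideal.map_le_iff_le_comap]
      intro a ha
      rw [Ideal.mem_comap, algebraMap_Fr]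
      exact Ideal.pow_mem_of_mem (maximalIdeal A) ha _ (Nat.pos_of_ne_zero hq)
    exact this hx'
  have hH : IsHausdorff (maximalIdeal A) (Fr p A e) := by
    refine ⟨fun x hx => ?_⟩
    refine IsHausdorff.haus (inferInstance : IsHausdorff (maximalIdeal A) A)
      (show A from x) fun n => ?_
    have h1 := hx n
    rw [SModEq.zero] at h1 ⊢
    have h2 := hle n h1
    rw [smul_eq_mul, Ideal.mul_top]
    exact h2
  -- finiteness modulo the maximal ideal
  have hrad : maximalIdeal (Fr p A e) ≤ J.radical := by
    intro x hx
    refine ⟨p ^ e, ?_⟩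
    have : algebraMap A (Fr p A e) (show A from x) = x ^ p ^ e := by rw [algebraMap_Fr]; rfl
    rw [← this]
    exact Ideal.mem_map_of_mem _ hx
  obtain ⟨s, hs⟩ := Ideal.exists_pow_le_of_le_radical_of_fg hrad
    (IsNoetherian.noetherian (maximalIdeal (Fr p A e)))
  have hlen : Module.length (Fr p A e) (Fr p A e ⧸ J) ≠ ⊤ := ell_ne_top_of_pow_le hs
  have hfe : fdeg p (ResidueField A) e ≠ ⊤ := by
    rw [fdeg_eq_pow]
    exact ENat.pow_ne_top_iff.2 (Or.inl h)
  have hlenA : Module.length A (Fr p A e ⧸ J) ≠ ⊤ := by
    rw [length_Fr p A e]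
    exact WithTop.mul_ne_top hlen hfe
  have hN : IsNoetherian A (Fr p A e ⧸ J) :=
    (isFiniteLength_iff_isNoetherian_isArtinian.1 (Module.length_ne_top_iff.1 hlenA)).1
  refine finite_of_complete (maximalIdeal A) (Fr p A e) ?_
  have hJJ : ((maximalIdeal A) • (⊤ : Submodule A (Fr p A e))) =
      Submodule.restrictScalars A J := Ideal.smul_top_eq_map _
  have h5 : Module.Finite A (Fr p A e ⧸ J) := inferInstance
  rw [hJJ]
  exact h5

end Frob

end Vale.Agent.P202.CharP
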