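import Vale.Agent.P202.CharP.Defs

/-!
P202-CHARP, L1: the long exact sequence of a triple, in terms of lengths of images.
-/

namespace Vale.Agent.P202.CharP

open Submodule

section

variable {S 𝕋 : Type*} [CommRing S] [AddCommGroup 𝕋] [Module S 𝕋]

lemma les_rl_map_right {A M M' : Type*} [CommRing A] [AddCommGroup M] [Module A M]
    [AddCommGroup M'] [Module A M'] (f : M →ₗ[A] M') (K : Submodule A M') (N : Submodule A M) :
    rl K (N.map f) = rl (K.comap f) N := by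
  have h1 := rl_map f (K.comap f) N
  have hk : LinearMap.ker f ≤ K.comap f := fun x hx => by
    rw [Submodule.mem_comap, LinearMap.mem_ker.mp hx]; exact K.zero_mem
  rw [sup_of_le_left hk, Submodule.map_comap_eq] at h1
  rw [← h1, ← rl_inf_left K, ← rl_inf_left (LinearMap.range f ⊓ K)]
  congr 1
  have h2 : N.map f ≤ LinearMap.range f := LinearMap.map_le_range
  rw [inf_comm (LinearMap.range f) K, inf_assoc, inf_of_le_right h2]

lemma les_rl_sup (K N : Submodule S 𝕋) : rl K (N ⊔ K) = rl (K ⊓ N) N := by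
  rw [sup_comm, rl_sup_inf]

variable (D : 𝕋 →ₗ[S] 𝕋)

lemma les_bb_le_zz (hD : ∀ x, D (D x) = 0) {X Y : ℤ → Submodule S 𝕋}
    (hX : Stab D X) (hY : Stab D Y) (hXY : ∀ δ, X δ ≤ Y δ) (δ : ℤ) :
    bb D Y X δ ≤ zz D Y X δ := by
  refine sup_le ?_ ?_
  · rintro _ ⟨z, hz, rfl⟩
    refine ⟨?_, ?_⟩
    · have := hY _ z hz
      rwa [add_sub_cancel_right] at this
    · change D (D z) ∈ X (δ - 1)
      rw [hD]; exact (X (δ - 1)).zero_mem
  · intro x hx
    exact ⟨hXY δ hx, hX δ x hx⟩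

/-- TASK L1: long exact sequence of a triple `X ≤ Y ≤ Z`: lengths of images. `al` is the image of
`H(Y/X) → H(Z/X)`, `be` the image of `H(Z/X) → H(Z/Y)`, `ga` the image of the connecting map
`H_δ(Z/Y) → H_{δ-1}(Y/X)`. -/
theorem hh_les (D : 𝕋 →ₗ[S] 𝕋) (hD : ∀ x, D (D x) = 0) (X Y Z : ℤ → Submodule S 𝕋)
    (hX : Stab D X) (hY : Stab D Y) (hZ : Stab D Z) (hXY : ∀ δ, X δ ≤ Y δ)
    (hYZ : ∀ δ, Y δ ≤ Z δ) (δ : ℤ) :
    hh D Z X δ = rl (bb D Z X δ) (zz D Y X δ ⊔ bb D Z X δ) +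
        rl (bb D Z Y δ) (zz D Z X δ ⊔ bb D Z Y δ) ∧
      hh D Z Y δ = rl (bb D Z Y δ) (zz D Z X δ ⊔ bb D Z Y δ) +
        rl (bb D Y X (δ - 1)) ((zz D Z Y δ).map D ⊔ bb D Y X (δ - 1)) ∧
      hh D Y X δ = rl (bb D Y X δ) ((zz D Z Y (δ + 1)).map D ⊔ bb D Y X δ) +
        rl (bb D Z X δ) (zz D Y X δ ⊔ bb D Z X δ) := by
  have hXZ : ∀ δ, X δ ≤ Z δ := fun δ => (hXY δ).trans (hYZ δ)
  have b1 := les_bb_le_zz D hD hX hZ hXZ δ
  have b2 := les_bb_le_zz D hD hY hZ hYZ δ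
  have b3 := les_bb_le_zz D hD hX hY hXY δ
  have z1 : zz D Y X δ ≤ zz D Z X δ := inf_le_inf_right _ (hYZ δ)
  have z2 : zz D Z X δ ≤ zz D Z Y δ := inf_le_inf_left _ (Submodule.comap_mono (hXY _))
  have c1 : bb D Z X δ ≤ bb D Z Y δ := sup_le_sup_left (hXY δ) _
  have c2 : bb D Y X δ ≤ bb D Z X δ := sup_le_sup_right (Submodule.map_mono (hYZ _)) _
  refine ⟨?_, ?_, ?_⟩
  · rw [hh, rl_add (le_sup_right : bb D Z X δ ≤ zz D Y X δ ⊔ bb D Z X δ) (sup_le z1 b1),
      les_rl_sup (bb D Z Y δ)]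
    congr 2
    apply le_antisymm
    · refine sup_le (le_inf ?_ z1) (le_inf c1 b1)
      exact inf_le_left.trans le_sup_right
    · rintro x ⟨hx1, hx2⟩
      obtain ⟨_, ⟨z, hz, rfl⟩, y, hy, rfl⟩ := Submodule.mem_sup.mp hx1
      have hy' : y ∈ zz D Y X δ := by
        refine ⟨hy, ?_⟩
        have h1 : D (D z + y) ∈ X (δ - 1) := hx2.2
        rw [map_add, hD, zero_add] at h1
        exact h1
      rw [add_comm]
      exact Submodule.add_mem_sup hy' (Submodule.mem_sup_left ⟨z, hz, rfl⟩)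
  · rw [hh, rl_add (le_sup_right : bb D Z Y δ ≤ zz D Z X δ ⊔ bb D Z Y δ) (sup_le z2 b2)]
    congr 1
    rw [sup_comm ((zz D Z Y δ).map D), rl_sup_right, les_rl_map_right,
      ← rl_inf_left ((bb D Y X (δ - 1)).comap D)]
    congr 1
    apply le_antisymm
    · refine sup_le (le_inf ?_ z2) (le_inf ?_ b2)
      · intro z hz
        exact Submodule.mem_sup_right hz.2
      · refine sup_le ?_ ?_
        · rintro _ ⟨z, hz, rfl⟩
          rw [Submodule.mem_comap, hD]; exact Submodule.zero_mem _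
        · intro y hy
          refine Submodule.mem_sup_left ⟨y, ?_, rfl⟩
          rw [sub_add_cancel]
          exact hy
    · rintro z ⟨hz1, hz2⟩
      obtain ⟨_, ⟨y, hy, rfl⟩, x, hx, he⟩ := Submodule.mem_sup.mp hz1
      rw [sub_add_cancel] at hy
      have h1 : z - y ∈ zz D Z X δ := by
        refine ⟨Submodule.sub_mem _ hz2.1 (hYZ δ hy), ?_⟩
        change D (z - y) ∈ X (δ - 1)
        rw [map_sub, ← he, add_sub_cancel_left]
        exact hx
      have h2 : z = (z - y) + y := by abel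
      rw [h2]
      exact Submodule.add_mem_sup h1 (Submodule.mem_sup_right hy)
  · have d1 : (zz D Z Y (δ + 1)).map D ≤ zz D Y X δ := by
      rintro _ ⟨z, hz, rfl⟩
      refine ⟨?_, ?_⟩
      · have : D z ∈ Y (δ + 1 - 1) := hz.2
        rwa [add_sub_cancel_right] at this
      · change D (D z) ∈ X (δ - 1)
        rw [hD]; exact Submodule.zero_mem _
    rw [hh, rl_add (le_sup_right : bb D Y X δ ≤ (zz D Z Y (δ + 1)).map D ⊔ bb D Y X δ)
      (sup_le d1 b3), les_rl_sup (bb D Z X δ)]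
    congr 2
    apply le_antisymm
    · refine sup_le (le_inf ?_ d1) (le_inf c2 b3)
      rintro _ ⟨z, hz, rfl⟩
      exact Submodule.mem_sup_left ⟨z, hz.1, rfl⟩
    · rintro v ⟨hv1, hv2⟩
      obtain ⟨_, ⟨z, hz, rfl⟩, x, hx, rfl⟩ := Submodule.mem_sup.mp hv1
      have h1 : D z ∈ Y δ := by
        have := Submodule.sub_mem _ hv2.1 (hXY δ hx)
        rwa [add_sub_cancel_right] at this
      refine Submodule.add_mem_sup ⟨z, ⟨hz, ?_⟩, rfl⟩ (Submodule.mem_sup_right hx)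
      change D z ∈ Y (δ + 1 - 1)
      rwa [add_sub_cancel_right]

end

end Vale.Agent.P202.CharP
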