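import Vale.Agent.P202.CharP.KhCongr
import Vale.Agent.P202.CharP.TotBasic
import Vale.Agent.P202.CharP.Les

/-!
P202-CHARP, K1 and K2: Koszul homology in degree zero, vanishing outside `[0, n]`, finiteness,
additivity and invariance of the Koszul Euler characteristic.
-/

namespace Vale.Agent.P202.CharP

open Submodule

section KB

variable {B : Type*} [CommRing B]

/-- the index of degree `0`. -/
def kz : ∀ n, KIdx n
  | 0 => PUnit.unit
  | n + 1 => Sum.inl (kz n)

theorem kdeg_kz : ∀ n, kdeg n (kz n) = 0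
  | 0 => rfl
  | n + 1 => kdeg_kz n

theorem eq_kz : ∀ (n : ℕ) (a : KIdx n), kdeg n a = 0 → a = kz n
  | 0, _, _ => rfl
  | n + 1, Sum.inl a, h => congrArg Sum.inl (eq_kz n a h)
  | n + 1, Sum.inr a, h => by
    have h1 : kdeg n a + 1 = 0 := h
    have h2 := (kdeg_range n a).1
    omega

theorem kos_kz_mem : ∀ (n : ℕ) (y : Fin n → B) (b : KIdx n),
    kos n y (kz n) b ∈ Ideal.span (Set.range y)
  | 0, y, b => by
    have h : kos 0 y (kz 0) b = 0 := rfl
    rw [h]
    exact Ideal.zero_mem _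
  | n + 1, y, Sum.inl b => by
    have h := kos_kz_mem n (fun i => y i.succ) b
    refine Ideal.span_mono ?_ h
    rintro _ ⟨i, rfl⟩
    exact ⟨i.succ, rfl⟩
  | n + 1, y, Sum.inr b => by
    have h : kos (n + 1) y (kz (n + 1)) (Sum.inr b) =
      (y 0 • (1 : Matrix (KIdx n) (KIdx n) B)) (kz n) b := rfl
    rw [h, Matrix.smul_apply, smul_eq_mul]
    exact Ideal.mul_mem_right _ _ (Ideal.subset_span ⟨0, rfl⟩)

theorem exists_kos_kz : ∀ (n : ℕ) (y : Fin n → B) (l : Fin n),
    ∃ b : KIdx n, kdeg n b = 1 ∧ kos n y (kz n) b = y l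
  | 0, _, l => l.elim0
  | n + 1, y, l => by
    refine Fin.cases ?_ (fun l => ?_) l
    · refine ⟨Sum.inr (kz n), ?_, ?_⟩
      · change kdeg n (kz n) + 1 = 1
        rw [kdeg_kz, zero_add]
      · change (y 0 • (1 : Matrix (KIdx n) (KIdx n) B)) (kz n) (kz n) = y 0
        rw [Matrix.smul_apply, Matrix.one_apply_eq, smul_eq_mul, mul_one]
    · obtain ⟨b, h1, h2⟩ := exists_kos_kz n (fun i => y i.succ) l
      exact ⟨Sum.inl b, h1, h2⟩

variable {M : Type*} [AddCommGroup M] [Module B M]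

/-- boundaries in degree zero. -/
theorem mem_bb_zero {n : ℕ} (y : Fin n → B) (f : KIdx n → M)
    (hf : ∀ a, kdeg n a - 0 ≠ 0 → f a = 0) :
    f ∈ bb (tot (kdeg n) (kos n y) (0 : M →ₗ[B] M)) (lift (kdeg n) (conc ⊤))
      (lift (kdeg n) (conc ⊥)) 0 ↔ f (kz n) ∈ Ideal.span (Set.range y) • (⊤ : Submodule B M) := by
  rw [mem_bb_kh]
  constructor
  · rintro ⟨g, -, rfl⟩
    rw [tot_zero_apply]
    exact Submodule.sum_mem _ fun b _ => Submodule.smul_mem_smul (kos_kz_mem n y b) trivial
  · intro h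
    have key : ∀ m ∈ Ideal.span (Set.range y) • (⊤ : Submodule B M),
        ∃ g : KIdx n → M, (∀ a, kdeg n a - (0 + 1) ≠ 0 → g a = 0) ∧
          ∑ b, kos n y (kz n) b • g b = m := by
      intro m hm
      let ev : (KIdx n → M) →ₗ[B] M := (LinearMap.proj (kz n)).comp (act (kos n y) M)
      have h1 : Ideal.span (Set.range y) • (⊤ : Submodule B M) ≤
          (lift (kdeg n) (conc (⊤ : Submodule B M)) (0 + 1)).map ev := by
        rw [Submodule.smul_le]
        intro r hr x _
        refine Submodule.span_induction ?_ ?_ ?_ ?_ hr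
        · rintro _ ⟨l, rfl⟩
          obtain ⟨b, hb1, hb2⟩ := exists_kos_kz n y l
          refine ⟨Pi.single b x, ?_, ?_⟩
          · rw [SetLike.mem_coe, mem_lift_conc_top]
            intro a ha
            have hab : a ≠ b := by
              rintro rfl
              exact ha (by rw [hb1]; ring)
            rw [Pi.single_eq_of_ne hab]
          · change ∑ c, kos n y (kz n) c • (Pi.single b x : KIdx n → M) c = y l • x
            rw [Finset.sum_eq_single b]
            · rw [Pi.single_eq_same, hb2]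
            · intro c _ hc
              rw [Pi.single_eq_of_ne hc, smul_zero]
            · intro hb
              exact absurd (Finset.mem_univ b) hb
        · rw [zero_smul]; exact Submodule.zero_mem _
        · intro r1 r2 _ _ h1 h2
          rw [add_smul]; exact Submodule.add_mem _ h1 h2
        · intro c r1 _ h1
          rw [smul_eq_mul, mul_smul]; exact Submodule.smul_mem _ _ h1
      obtain ⟨g, hg1, hg2⟩ := h1 hm
      rw [SetLike.mem_coe, mem_lift_conc_top] at hg1
      exact ⟨g, hg1, hg2⟩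
    obtain ⟨g, hg1, hg2⟩ := key _ h
    refine ⟨g, hg1, ?_⟩
    ext a
    rw [tot_zero_apply]
    by_cases ha : kdeg n a = 0
    · rw [eq_kz n a ha, hg2]
    · rw [hf a (by rwa [sub_zero])]
      refine Finset.sum_eq_zero fun b _ => ?_
      by_cases hab : kos n y a b = 0
      · rw [hab, zero_smul]
      · have h1 := (kos_isCx n y).deg_eq a b hab
        rw [hg1 b (by rw [h1]; omega), smul_zero]

/-- TASK K1: degrees. -/
theorem kk_zero {n : ℕ} (y : Fin n → B) (M : Type*) [AddCommGroup M] [Module B M] :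
    kk y M 0 = Module.length B (M ⧸ (Ideal.span (Set.range y) • (⊤ : Submodule B M))) := by
  unfold kk kh khs hh
  refine rl_eq_length_of_surjective (((Submodule.mkQ _).comp (LinearMap.proj (kz n))).comp
    (Submodule.subtype _)) ?_ ?_
  · intro q
    obtain ⟨m, rfl⟩ := Submodule.Quotient.mk_surjective _ q
    refine ⟨⟨Pi.single (kz n) m, ?_⟩, ?_⟩
    · rw [mem_zz_kh]
      refine ⟨fun a ha => ?_, ?_⟩
      · have hab : a ≠ kz n := by
          rintro rfl
          exact ha (by rw [kdeg_kz, sub_zero])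
        rw [Pi.single_eq_of_ne hab]
      · ext a
        rw [tot_zero_apply, Pi.zero_apply]
        refine Finset.sum_eq_zero fun b _ => ?_
        by_cases hab : kos n y a b = 0
        · rw [hab, zero_smul]
        · have h1 := (kos_isCx n y).deg_eq a b hab
          have h2 := (kdeg_range n a).1
          have hb : b ≠ kz n := by
            rintro rfl
            rw [kdeg_kz] at h1
            omega
          rw [Pi.single_eq_of_ne hb, smul_zero]
    · change Submodule.Quotient.mk ((Pi.single (kz n) m : KIdx n → M) (kz n)) = _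
      rw [Pi.single_eq_same]
  · ext ⟨f, hf⟩
    have h1 := (mem_zz_kh.1 hf).1
    have h2 : (⟨f, hf⟩ : ↥(zz (tot (kdeg n) (kos n y) (0 : M →ₗ[B] M)) (lift (kdeg n) (conc ⊤))
      (lift (kdeg n) (conc ⊥)) 0)) ∈ Submodule.submoduleOf (bb (tot (kdeg n) (kos n y)
      (0 : M →ₗ[B] M)) (lift (kdeg n) (conc ⊤)) (lift (kdeg n) (conc ⊥)) 0) _ ↔
      f ∈ bb (tot (kdeg n) (kos n y) (0 : M →ₗ[B] M)) (lift (kdeg n) (conc ⊤))
      (lift (kdeg n) (conc ⊥)) 0 := Iff.rfl
    rw [h2, mem_bb_zero y f h1, LinearMap.mem_ker]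
    change Submodule.Quotient.mk (f (kz n)) = _ ↔ _
    rw [Submodule.Quotient.mk_eq_zero]

/-- TASK K1. -/
theorem kk_out {n : ℕ} (y : Fin n → B) (M : Type*) [AddCommGroup M] [Module B M] (i : ℤ)
    (hi : i < 0 ∨ (n : ℤ) < i) : kk y M i = 0 := by
  unfold kk kh khs hh
  rw [rl_eq_zero_iff]
  intro f hf
  have h1 := (mem_zz_kh.1 hf).1
  have h2 : f = 0 := by
    ext a
    refine h1 a ?_
    have h3 := kdeg_range n a
    omega
  rw [h2]
  exact Submodule.zero_mem _

/-- primes in the support of a module of finite length are maximal. -/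
theorem isMaximal_of_support {N : Type*} [AddCommGroup N] [Module B N]
    (h : Module.length B N ≠ ⊤) (P : PrimeSpectrum B) (hP : P ∈ Module.support B N) :
    P.asIdeal.IsMaximal := by
  obtain ⟨m, hm⟩ := Module.mem_support_iff_exists_annihilator.mp hP
  have hN : IsArtinian B N :=
    (isFiniteLength_iff_isNoetherian_isArtinian.mp (Module.length_ne_top_iff.mp h)).2
  have hle : LinearMap.ker (LinearMap.toSpanSingleton B N m) ≤ P.asIdeal := by
    intro x hx
    refine hm ?_
    rw [Submodule.mem_annihilator_span_singleton]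
    exact hx
  have h1 : IsArtinian B (B ⧸ LinearMap.ker (LinearMap.toSpanSingleton B N m)) :=
    isArtinian_of_linearEquiv (LinearMap.toSpanSingleton B N m).quotKerEquivRange.symm
  have h2 : IsArtinian B (B ⧸ P.asIdeal) :=
    isArtinian_of_surjective _ (Submodule.factor hle) (Submodule.factor_surjective hle)
  have h3 : IsArtinianRing (B ⧸ P.asIdeal) := isArtinian_of_tower B h2
  have h4 : (⊥ : Ideal (B ⧸ P.asIdeal)).IsMaximal := IsArtinianRing.isMaximal_of_isPrime _
  exact Ideal.bot_quotient_isMaximal_iff P.asIdeal |>.mp h4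

/-- a finite module killed by an ideal with Artinian quotient ring has finite length. -/
theorem length_ne_top_of_quot (J : Ideal B) [IsNoetherianRing B] [hJ : IsArtinianRing (B ⧸ J)]
    {Q : Type*} [AddCommGroup Q] [Module B Q] [Module.Finite B Q]
    (h : ∀ a ∈ J, ∀ v : Q, a • v = 0) : Module.length B Q ≠ ⊤ := by
  have ht : Module.IsTorsionBySet B Q (J : Set B) := by
    intro v a
    exact h a.1 a.2 v
  let _ : Module (B ⧸ J) Q := ht.module
  have : IsScalarTower B (B ⧸ J) Q := ht.isScalarTower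
  have : Module.Finite (B ⧸ J) Q := Module.Finite.of_restrictScalars_finite B _ _
  have : IsArtinian (B ⧸ J) Q := inferInstance
  have : IsArtinian B Q :=
    isArtinian_of_surjective_algebraMap (R := B ⧸ J) (S := B)
      (Ideal.Quotient.mk_surjective)
  have : IsNoetherian B Q := inferInstance
  exact Module.length_ne_top

/-- TASK K1: finiteness. -/
theorem kk_ne_top [IsNoetherianRing B] {n : ℕ} (y : Fin n → B) (M : Type*) [AddCommGroup M]
    [Module B M] [Module.Finite B M]
    (h : Module.length B (M ⧸ (Ideal.span (Set.range y) • (⊤ : Submodule B M))) ≠ ⊤) (i : ℤ) :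
    kk y M i ≠ ⊤ := by
  set J := Module.annihilator B M ⊔ Ideal.span (Set.range y) with hJdef
  have hJ : IsArtinianRing (B ⧸ J) := by
    rw [isArtinianRing_iff_krullDimLE_zero, Ring.krullDimLE_zero_iff]
    intro P hP
    set P' := P.comap (Ideal.Quotient.mk J) with hP'
    have hP'p : P'.IsPrime := Ideal.comap_isPrime _ _
    have hle : J ≤ P' := by
      intro x hx
      rw [hP', Ideal.mem_comap, Ideal.Quotient.eq_zero_iff_mem.mpr hx]
      exact P.zero_mem
    have h1 : (⟨P', hP'p⟩ : PrimeSpectrum B) ∈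
        Module.support B (M ⧸ (Ideal.span (Set.range y) • (⊤ : Submodule B M))) := by
      rw [Module.support_quotient]
      refine ⟨?_, ?_⟩
      · rw [Module.mem_support_iff_of_finite]
        exact le_sup_left.trans hle
      · exact le_sup_right.trans hle
    have h2 : P'.IsMaximal := isMaximal_of_support h _ h1
    have h3 : P = P'.map (Ideal.Quotient.mk J) :=
      (Ideal.map_comap_of_surjective _ Ideal.Quotient.mk_surjective P).symm
    rcases Ideal.map_eq_top_or_isMaximal_of_surjective (Ideal.Quotient.mk J)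
      Ideal.Quotient.mk_surjective h2 with h4 | h4
    · rw [← h3] at h4
      exact absurd h4 hP.ne_top
    · rwa [← h3] at h4
  unfold kk kh khs hh rl
  refine length_ne_top_of_quot J ?_
  intro a ha v
  obtain ⟨v, rfl⟩ := Submodule.Quotient.mk_surjective _ v
  rw [← Submodule.Quotient.mk_smul, Submodule.Quotient.mk_eq_zero]
  obtain ⟨v, hv⟩ := v
  change a • v ∈ bb (tot (kdeg n) (kos n y) (0 : M →ₗ[B] M)) (lift (kdeg n) (conc ⊤))
      (lift (kdeg n) (conc ⊥)) i
  have hv' := mem_zz_kh.1 hv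
  obtain ⟨a1, ha1, a2, ha2, rfl⟩ := Submodule.mem_sup.1 ha
  rw [add_smul]
  refine Submodule.add_mem _ ?_ ?_
  · have : a1 • v = 0 := by
      ext b
      rw [Pi.smul_apply, Pi.zero_apply]
      exact Module.mem_annihilator.1 ha1 (v b)
    rw [this]
    exact Submodule.zero_mem _
  · refine Submodule.span_induction ?_ ?_ ?_ ?_ ha2
    · rintro _ ⟨l, rfl⟩
      obtain ⟨hm, h1, h2⟩ := kos_homotopy n y l
      rw [mem_bb_kh]
      refine ⟨act hm M v, ?_, ?_⟩
      · intro b hb
        rw [act_apply]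
        refine Finset.sum_eq_zero fun c _ => ?_
        by_cases hbc : hm b c = 0
        · rw [hbc, zero_smul]
        · have h3 := h1 b c hbc
          rw [hv'.1 c (by omega), smul_zero]
      · have h3 : act (kos n y * hm + hm * kos n y) M v = y l • v := by
          rw [h2, act_smul, act_one]
        rw [act_add, act_mul, act_mul] at h3
        have h4 : act (kos n y) M v = 0 := by
          have h5 := hv'.2
          ext b
          have h6 := congrFun h5 b
          rw [tot_zero_apply] at h6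
          exact h6
        rw [h4, map_zero, add_zero] at h3
        rw [← h3]
        ext b
        rw [tot_zero_apply, act_apply]
    · rw [zero_smul]; exact Submodule.zero_mem _
    · intro r1 r2 _ _ h1 h2
      rw [add_smul]; exact Submodule.add_mem _ h1 h2
    · intro c r1 _ h1
      rw [smul_eq_mul, mul_smul]; exact Submodule.smul_mem _ _ h1

/-- TASK K2. -/
theorem kk_congr {n : ℕ} (y : Fin n → B) {M N : Type*} [AddCommGroup M] [Module B M]
    [AddCommGroup N] [Module B N] (e : M ≃ₗ[B] N) (i : ℤ) : kk y M i = kk y N i :=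
  kh_congr (kdeg n) (kos n y) e i

/-- TASK K2. -/
theorem kchi_congr {n : ℕ} (y : Fin n → B) {M N : Type*} [AddCommGroup M] [Module B M]
    [AddCommGroup N] [Module B N] (e : M ≃ₗ[B] N) : kchi y M = kchi y N := by
  unfold kchi
  exact Finset.sum_congr rfl fun i _ => by rw [kk_congr y e]

/-- alternating sums along a long exact sequence of finite lengths. -/
theorem kb_alt (n : ℕ) (h1 h2 h3 α β γ : ℤ → ℕ) (e2 : ∀ δ, h2 δ = α δ + β δ)
    (e3 : ∀ δ, h3 δ = β δ + γ (δ - 1)) (e1 : ∀ δ, h1 δ = γ δ + α δ) (g0 : γ (-1) = 0)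
    (gn : γ n = 0) :
    ∑ i ∈ Finset.range (n + 1), (-1 : ℤ) ^ i * ((h2 i : ℕ) : ℤ) =
      ∑ i ∈ Finset.range (n + 1), (-1 : ℤ) ^ i * ((h1 i : ℕ) : ℤ) +
      ∑ i ∈ Finset.range (n + 1), (-1 : ℤ) ^ i * ((h3 i : ℕ) : ℤ) := by
  have key : ∀ k : ℕ, ∑ i ∈ Finset.range (k + 1), (-1 : ℤ) ^ i * ((h1 i : ℕ) : ℤ) +
      ∑ i ∈ Finset.range (k + 1), (-1 : ℤ) ^ i * ((h3 i : ℕ) : ℤ) =
      ∑ i ∈ Finset.range (k + 1), (-1 : ℤ) ^ i * ((h2 i : ℕ) : ℤ) + (-1 : ℤ) ^ k * (γ k : ℤ) := by
    intro k
    induction k with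
    | zero =>
      have a1 := e1 0
      have a2 := e2 0
      have a3 := e3 0
      rw [zero_sub, g0] at a3
      simp only [zero_add, Finset.sum_range_one, pow_zero, one_mul, Nat.cast_zero]
      rw [a1, a2, a3]
      push_cast
      ring
    | succ k ih =>
      rw [Finset.sum_range_succ, Finset.sum_range_succ _ (k + 1), Finset.sum_range_succ _ (k + 1)]
      have a1 := e1 ((k + 1 : ℕ) : ℤ)
      have a2 := e2 ((k + 1 : ℕ) : ℤ)
      have a3 := e3 ((k + 1 : ℕ) : ℤ)
      have hk : ((k + 1 : ℕ) : ℤ) - 1 = (k : ℤ) := by push_cast; ring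
      rw [hk] at a3
      rw [a1, a2, a3]
      push_cast at ih ⊢
      rw [pow_succ]
      linarith
  have h := key n
  rw [gn] at h
  simp only [Nat.cast_zero, mul_zero, add_zero] at h
  exact h.symm

/-- TASK K2: additivity. -/
theorem kchi_add {n : ℕ} (y : Fin n → B) {M₁ M₂ M₃ : Type*} [AddCommGroup M₁] [Module B M₁]
    [AddCommGroup M₂] [Module B M₂] [AddCommGroup M₃] [Module B M₃]
    (f : M₁ →ₗ[B] M₂) (g : M₂ →ₗ[B] M₃) (hf : Function.Injective f)
    (hg : Function.Surjective g) (hfg : Function.Exact f g)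
    (h1 : ∀ i, kk y M₁ i ≠ ⊤) (h2 : ∀ i, kk y M₂ i ≠ ⊤) (h3 : ∀ i, kk y M₃ i ≠ ⊤) :
    kchi y M₂ = kchi y M₁ + kchi y M₃ := by
  have hQ := kos_isCx n y
  set D : (KIdx n → M₂) →ₗ[B] (KIdx n → M₂) := tot (kdeg n) (kos n y) (0 : M₂ →ₗ[B] M₂) with hD
  set X := lift (kdeg n) (conc (⊥ : Submodule B M₂)) with hX
  set Y := lift (kdeg n) (conc (LinearMap.range f)) with hY
  set Z := lift (kdeg n) (conc (⊤ : Submodule B M₂)) with hZ
  have hDD : ∀ x, D (D x) = 0 := tot_tot _ _ hQ _ (fun _ => rfl)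
  have sX : Stab D X := lift_conc_stab _ _ hQ _
  have sY : Stab D Y := lift_conc_stab _ _ hQ _
  have sZ : Stab D Z := lift_conc_stab _ _ hQ _
  have hXY : ∀ δ, X δ ≤ Y δ := lift_mono _ (conc_mono bot_le)
  have hYZ : ∀ δ, Y δ ≤ Z δ := lift_mono _ (conc_mono le_top)
  have les := hh_les D hDD X Y Z sX sY sZ hXY hYZ
  have k2 : ∀ i, hh D Z X i = kk y M₂ i := fun i => rfl
  have k1 : ∀ i, hh D Y X i = kk y M₁ i := by
    intro i
    symm
    refine khs_map_eq (kdeg n) (kos n y) hQ f ⊤ ⊥ (LinearMap.range f) ⊥ bot_le ?_ ?_ i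
    · rw [Submodule.map_top]
    · intro x _
      rw [Submodule.mem_bot, Submodule.mem_bot]
      exact map_eq_zero_iff f hf
  have k3 : ∀ i, hh D Z Y i = kk y M₃ i := by
    intro i
    refine khs_map_eq (kdeg n) (kos n y) hQ g ⊤ (LinearMap.range f) ⊤ ⊥ le_top ?_ ?_ i
    · rw [Submodule.map_top, LinearMap.range_eq_top.mpr hg]
    · intro x _
      rw [Submodule.mem_bot]
      exact hfg x
  set α : ℤ → ℕ∞ := fun δ => rl (bb D Z X δ) (zz D Y X δ ⊔ bb D Z X δ) with hα
  set β : ℤ → ℕ∞ := fun δ => rl (bb D Z Y δ) (zz D Z X δ ⊔ bb D Z Y δ) with hβ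
  set γ : ℤ → ℕ∞ := fun δ => rl (bb D Y X δ) ((zz D Z Y (δ + 1)).map D ⊔ bb D Y X δ) with hγ
  have e2 : ∀ δ, kk y M₂ δ = α δ + β δ := fun δ => by rw [← k2, (les δ).1]
  have e3 : ∀ δ, kk y M₃ δ = β δ + γ (δ - 1) := fun δ => by
    rw [← k3, (les δ).2.1, hγ]
    simp only [sub_add_cancel]
    rfl
  have e1 : ∀ δ, kk y M₁ δ = γ δ + α δ := fun δ => by rw [← k1, (les δ).2.2]
  have fα : ∀ δ, α δ ≠ ⊤ := fun δ h => h2 δ (by rw [e2, h, top_add])
  have fβ : ∀ δ, β δ ≠ ⊤ := fun δ h => h2 δ (by rw [e2, h, add_top])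
  have fγ : ∀ δ, γ δ ≠ ⊤ := fun δ h => h1 δ (by rw [e1, h, top_add])
  refine kb_alt n (fun i => (kk y M₁ i).toNat) (fun i => (kk y M₂ i).toNat)
    (fun i => (kk y M₃ i).toNat) (fun i => (α i).toNat) (fun i => (β i).toNat)
    (fun i => (γ i).toNat) ?_ ?_ ?_ ?_ ?_
  · intro δ
    rw [e2, ENat.toNat_add (fα δ) (fβ δ)]
  · intro δ
    rw [e3, ENat.toNat_add (fβ δ) (fγ _)]
  · intro δ
    rw [e1, ENat.toNat_add (fγ δ) (fα δ)]
  · have h := e1 (-1)
    rw [kk_out y M₁ (-1) (Or.inl (by norm_num))] at h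
    have h' : γ (-1) = 0 := (add_eq_zero.mp h.symm).1
    simp only [h', ENat.toNat_zero]
  · have h := e3 ((n : ℤ) + 1)
    rw [kk_out y M₃ _ (Or.inr (by omega)), add_sub_cancel_right] at h
    have h' : γ (n : ℤ) = 0 := (add_eq_zero.mp h.symm).2
    simp only [h', ENat.toNat_zero]

end KB

end Vale.Agent.P202.CharP
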