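import Vale.Agent.P202.CharP.KPeel
import Vale.Agent.P202.CharP.KBasic
import Vale.Agent.P202.FinLen
import Mathlib.RingTheory.KrullDimension.Regular
import Mathlib.RingTheory.KrullDimension.Module
import Mathlib.RingTheory.Ideal.AssociatedPrime.Finiteness
import Mathlib.RingTheory.Support

/-!
P202-CHARP, tasks K4 - K7: Koszul Euler characteristics of finitely generated modules over a
Noetherian local ring.
-/

set_option linter.unusedSectionVars false
set_option linter.style.haveILetI false
set_option linter.unusedVariables false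

namespace Vale.Agent.P202.CharP

open Submodule IsLocalRing

universe u v

section PF

variable {B : Type u} [CommRing B] [IsNoetherianRing B] [IsLocalRing B]

/-- the sequence `y` is a multiplicity system for `M`, formulated with the annihilator. -/
def PF {n : ℕ} (y : Fin n → B) (M : Type*) [AddCommGroup M] [Module B M] : Prop :=
  ∃ s, maximalIdeal B ^ s ≤ Module.annihilator B M ⊔ Ideal.span (Set.range y)

variable {n : ℕ} {y : Fin n → B}

theorem PF.of_injective {M N : Type*} [AddCommGroup M] [Module B M] [AddCommGroup N]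
    [Module B N] (h : PF y M) (f : N →ₗ[B] M) (hf : Function.Injective f) : PF y N := by
  obtain ⟨s, hs⟩ := h
  exact ⟨s, hs.trans (sup_le_sup_right (LinearMap.annihilator_le_of_injective f hf) _)⟩

theorem PF.of_surjective {M N : Type*} [AddCommGroup M] [Module B M] [AddCommGroup N]
    [Module B N] (h : PF y M) (f : M →ₗ[B] N) (hf : Function.Surjective f) : PF y N := by
  obtain ⟨s, hs⟩ := h
  exact ⟨s, hs.trans (sup_le_sup_right (LinearMap.annihilator_le_of_surjective f hf) _)⟩

theorem pf_of_subsingleton {M : Type*} [AddCommGroup M] [Module B M] [Subsingleton M] :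
    PF y M := by
  refine ⟨0, ?_⟩
  rw [Module.annihilator_eq_top_iff.2 inferInstance, top_sup_eq]
  exact le_top

/-- a finitely generated module killed by a power of the maximal ideal has finite length -/
theorem length_ne_top_of_pow_le {M : Type*} [AddCommGroup M] [Module B M] [Module.Finite B M]
    {s : ℕ} (h : maximalIdeal B ^ s ≤ Module.annihilator B M) : Module.length B M ≠ ⊤ := by
  have hart : IsArtinianRing (B ⧸ maximalIdeal B ^ s) := isArtinianRing_quot le_rfl
  letI : Module (B ⧸ maximalIdeal B ^ s) M := Module.IsTorsionBySet.module (R := B) (M := M)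
    (I := maximalIdeal B ^ s) (fun m a => Module.mem_annihilator.1 (h a.2) m)
  haveI : IsScalarTower B (B ⧸ maximalIdeal B ^ s) M := Module.IsTorsionBySet.isScalarTower _
  haveI : Module.Finite (B ⧸ maximalIdeal B ^ s) M :=
    Module.Finite.of_restrictScalars_finite B _ M
  have e : Module.length B M = Module.length (B ⧸ maximalIdeal B ^ s) M :=
    Module.length_eq_of_surjective Ideal.Quotient.mk_surjective
  rw [e]
  exact Module.length_ne_top

/-- conversely -/
theorem exists_pow_le_of_length_ne_top {M : Type*} [AddCommGroup M] [Module B M]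
    (h : Module.length B M ≠ ⊤) : ∃ s, maximalIdeal B ^ s ≤ Module.annihilator B M := by
  have h1 := isFiniteLength_iff_isNoetherian_isArtinian.1 (Module.length_ne_top_iff.1 h)
  haveI := h1.1
  haveI := h1.2
  obtain ⟨s, hs⟩ := IsArtinian.monotone_stabilizes (R := B) (M := M)
    ⟨fun k => OrderDual.toDual ((maximalIdeal B) ^ k • (⊤ : Submodule B M)), fun a b hab =>
      Submodule.smul_mono_left (Ideal.pow_le_pow_right hab)⟩
  refine ⟨s, fun a ha => Module.mem_annihilator.2 fun m => ?_⟩
  have h2 : (maximalIdeal B) ^ s • (⊤ : Submodule B M) =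
      (maximalIdeal B) ^ (s + 1) • (⊤ : Submodule B M) := hs (s + 1) (Nat.le_succ s)
  have h3 : (maximalIdeal B) ^ s • (⊤ : Submodule B M) = ⊥ := by
    refine Submodule.eq_bot_of_le_smul_of_le_jacobson_bot (maximalIdeal B) _
      (IsNoetherian.noetherian _) ?_ (maximalIdeal_le_jacobson _)
    rw [← Submodule.smul_assoc, smul_eq_mul, ← pow_succ', ← h2]
  have h4 : a • m ∈ (maximalIdeal B) ^ s • (⊤ : Submodule B M) :=
    Submodule.smul_mem_smul ha mem_top
  rw [h3] at h4
  exact (Submodule.mem_bot B).1 h4

theorem PF.length_ne_top {M : Type*} [AddCommGroup M] [Module B M] [Module.Finite B M]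
    (h : PF y M) :
    Module.length B (M ⧸ (Ideal.span (Set.range y) • (⊤ : Submodule B M))) ≠ ⊤ := by
  obtain ⟨s, hs⟩ := h
  refine length_ne_top_of_pow_le (s := s) (hs.trans (sup_le ?_ ?_))
  · exact LinearMap.annihilator_le_of_surjective _ (Submodule.mkQ_surjective _)
  · rw [Submodule.annihilator_quotient]
    exact fun x hx => Submodule.mem_colon.mpr fun p hp => Submodule.smul_mem_smul hx hp

theorem pf_of_length_ne_top {M : Type*} [AddCommGroup M] [Module B M] [Module.Finite B M]
    (h : Module.length B (M ⧸ (Ideal.span (Set.range y) • (⊤ : Submodule B M))) ≠ ⊤) :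
    PF y M := by
  obtain ⟨s, hs⟩ := exists_pow_le_of_length_ne_top h
  have h1 := Module.support_quotient (R := B) (M := M) (Ideal.span (Set.range y))
  rw [Module.support_eq_zeroLocus, Module.support_eq_zeroLocus, ← PrimeSpectrum.zeroLocus_sup]
    at h1
  have h2 : maximalIdeal B ≤
      (Module.annihilator B M ⊔ Ideal.span (Set.range y)).radical := by
    rw [← PrimeSpectrum.vanishingIdeal_zeroLocus_eq_radical, ← h1,
      PrimeSpectrum.vanishingIdeal_zeroLocus_eq_radical]
    intro a ha
    exact ⟨s, hs (Ideal.pow_mem_pow ha s)⟩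
  exact Ideal.exists_pow_le_of_le_radical_of_fg h2 (IsNoetherian.noetherian _)

theorem PF.kk_ne_top {M : Type*} [AddCommGroup M] [Module B M] [Module.Finite B M]
    (h : PF y M) (i : ℤ) : kk y M i ≠ ⊤ := _root_.Vale.Agent.P202.CharP.kk_ne_top y M h.length_ne_top i

/-- additivity -/
theorem PF.kchi_add {M₁ M₂ M₃ : Type*} [AddCommGroup M₁] [Module B M₁]
    [AddCommGroup M₂] [Module B M₂] [AddCommGroup M₃] [Module B M₃] [Module.Finite B M₂]
    (f : M₁ →ₗ[B] M₂) (g : M₂ →ₗ[B] M₃) (hf : Function.Injective f)
    (hg : Function.Surjective g) (hfg : Function.Exact f g) (h : PF y M₂) :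
    kchi y M₂ = kchi y M₁ + kchi y M₃ := by
  haveI : Module.Finite B M₁ := Module.Finite.of_injective f hf
  haveI : Module.Finite B M₃ := Module.Finite.of_surjective g hg
  exact _root_.Vale.Agent.P202.CharP.kchi_add y f g hf hg hfg (h.of_injective f hf).kk_ne_top h.kk_ne_top
    (h.of_surjective g hg).kk_ne_top

theorem kchi_of_subsingleton (y : Fin n → B) {M : Type*} [AddCommGroup M] [Module B M]
    [Subsingleton M] : kchi y M = 0 := by
  haveI : Module.Finite B M := inferInstance
  have h := PF.kchi_add (y := y) (M₁ := M) (M₂ := M) (M₃ := M) LinearMap.id 0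
    Function.injective_id (Function.surjective_to_subsingleton _)
    (fun x => ⟨fun _ => ⟨x, rfl⟩, fun _ => rfl⟩) pf_of_subsingleton
  linarith

/-- the tail of the sequence is a multiplicity system of a module killed by the first element -/
theorem PF.tail {y : Fin (n + 1) → B} {M : Type*} [AddCommGroup M] [Module B M] (h : PF y M)
    (h0 : y 0 ∈ Module.annihilator B M) : PF (fun i => y i.succ) M := by
  obtain ⟨s, hs⟩ := h
  refine ⟨s, hs.trans (sup_le le_sup_left ?_)⟩
  rw [Ideal.span_le]
  rintro _ ⟨i, rfl⟩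
  refine Fin.cases ?_ (fun j => ?_) i
  · exact (le_sup_left (a := Module.annihilator B M)) h0
  · exact Ideal.mem_sup_right (Ideal.subset_span ⟨j, rfl⟩)

theorem mem_ann_coker (a : B) (M : Type*) [AddCommGroup M] [Module B M] :
    a ∈ Module.annihilator B (M ⧸ LinearMap.range (LinearMap.lsmul B M a)) := by
  rw [Module.mem_annihilator]
  intro m
  obtain ⟨m, rfl⟩ := Submodule.Quotient.mk_surjective _ m
  rw [← Submodule.Quotient.mk_smul, Submodule.Quotient.mk_eq_zero]
  exact ⟨m, rfl⟩

theorem mem_ann_ker (a : B) (M : Type*) [AddCommGroup M] [Module B M] :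
    a ∈ Module.annihilator B ↥(LinearMap.ker (LinearMap.lsmul B M a)) := by
  rw [Module.mem_annihilator]
  intro m
  exact Subtype.ext m.2

theorem PF.tail_coker {y : Fin (n + 1) → B} {M : Type*} [AddCommGroup M] [Module B M]
    (h : PF y M) : PF (fun i => y i.succ) (M ⧸ LinearMap.range (LinearMap.lsmul B M (y 0))) :=
  (h.of_surjective _ (Submodule.mkQ_surjective _)).tail (mem_ann_coker _ _)

theorem PF.tail_ker {y : Fin (n + 1) → B} {M : Type*} [AddCommGroup M] [Module B M]
    (h : PF y M) : PF (fun i => y i.succ) ↥(LinearMap.ker (LinearMap.lsmul B M (y 0))) :=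
  (h.of_injective _ (Submodule.injective_subtype _)).tail (mem_ann_ker _ _)

theorem kchi_mem {y : Fin (n + 1) → B} {M : Type*} [AddCommGroup M] [Module B M]
    [Module.Finite B M] (h : PF y M) (h0 : y 0 ∈ Module.annihilator B M) : kchi y M = 0 := by
  have hz : LinearMap.lsmul B M (y 0) = 0 := by
    ext m
    exact Module.mem_annihilator.1 h0 m
  rw [_root_.Vale.Agent.P202.CharP.kchi_succ y M h.length_ne_top]
  have e1 : kchi (fun i => y i.succ) (M ⧸ LinearMap.range (LinearMap.lsmul B M (y 0))) =
      kchi (fun i => y i.succ) M := by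
    refine _root_.Vale.Agent.P202.CharP.kchi_congr _ (Submodule.quotEquivOfEqBot _ ?_)
    rw [hz, LinearMap.range_zero]
  have e2 : kchi (fun i => y i.succ) ↥(LinearMap.ker (LinearMap.lsmul B M (y 0))) =
      kchi (fun i => y i.succ) M := by
    refine _root_.Vale.Agent.P202.CharP.kchi_congr _ (LinearEquiv.ofTop _ ?_)
    rw [hz, LinearMap.ker_zero]
  rw [e1, e2, sub_self]

theorem kchi_reg {y : Fin (n + 1) → B} {M : Type*} [AddCommGroup M] [Module B M]
    [Module.Finite B M] (h : PF y M) (h0 : Function.Injective (LinearMap.lsmul B M (y 0))) :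
    kchi y M = kchi (fun i => y i.succ) (M ⧸ LinearMap.range (LinearMap.lsmul B M (y 0))) := by
  rw [_root_.Vale.Agent.P202.CharP.kchi_succ y M h.length_ne_top]
  haveI : Subsingleton ↥(LinearMap.ker (LinearMap.lsmul B M (y 0))) := by
    rw [Submodule.subsingleton_iff_eq_bot]
    exact LinearMap.ker_eq_bot.2 h0
  rw [kchi_of_subsingleton (M := ↥(LinearMap.ker (LinearMap.lsmul B M (y 0)))), sub_zero]

theorem lsmul_injective_of_notMem {p : Ideal B} [p.IsPrime] {M : Type*} [AddCommGroup M]
    [Module B M] (e : M ≃ₗ[B] B ⧸ p) {a : B} (ha : a ∉ p) :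
    Function.Injective (LinearMap.lsmul B M a) := by
  rw [injective_iff_map_eq_zero]
  intro m hm
  have h1 : a • e m = 0 := by
    rw [← map_smul]
    change e (LinearMap.lsmul B M a m) = 0
    rw [hm, map_zero]
  obtain ⟨b, hb⟩ := Ideal.Quotient.mk_surjective (e m)
  rw [← hb] at h1
  have h2 : Ideal.Quotient.mk p (a * b) = 0 := h1
  rw [Ideal.Quotient.eq_zero_iff_mem] at h2
  rcases Ideal.IsPrime.mem_or_mem ‹_› h2 with h3 | h3
  · exact absurd h3 ha
  · rw [← Ideal.Quotient.eq_zero_iff_mem, hb] at h3
    exact e.map_eq_zero_iff.1 h3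

theorem ann_of_equiv {p : Ideal B} {M : Type*} [AddCommGroup M]
    [Module B M] (e : M ≃ₗ[B] B ⧸ p) : Module.annihilator B M = p := by
  rw [e.annihilator_eq, Ideal.annihilator_quotient]

end PF

section K4

variable {B : Type u} [CommRing B] [IsNoetherianRing B] [IsLocalRing B]

theorem PF.kchi_nonneg : ∀ {n : ℕ} {y : Fin n → B} {M : Type v} [AddCommGroup M] [Module B M]
    [Module.Finite B M], PF y M → 0 ≤ kchi y M := by
  intro n
  induction n with
  | zero =>
    intro y M _ _ _ _
    unfold kchi
    simp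
  | succ n ih =>
    intro y M _ _ _ h
    induction ‹Module.Finite B M› using
      IsNoetherianRing.induction_on_isQuotientEquivQuotientPrime B with
    | subsingleton N => rw [kchi_of_subsingleton]
    | quotient N p f =>
      haveI := p.2
      by_cases h0 : y 0 ∈ p.1
      · rw [kchi_mem h (by rw [ann_of_equiv f]; exact h0)]
      · rw [kchi_reg h (lsmul_injective_of_notMem f h0)]
        exact ih h.tail_coker
    | exact N₁ N₂ N₃ f g hf hg hfg h₁ h₃ =>
      rw [PF.kchi_add f g hf hg hfg h]
      exact add_nonneg (h₁ (h.of_injective f hf)) (h₃ (h.of_surjective g hg))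

/-- TASK K4: nonnegativity. -/
theorem kchi_nonneg {n : ℕ} (y : Fin n → B) (hy : ∀ i, y i ∈ maximalIdeal B)
    (M : Type*) [AddCommGroup M] [Module B M] [Module.Finite B M]
    (h : Module.length B (M ⧸ (Ideal.span (Set.range y) • (⊤ : Submodule B M))) ≠ ⊤) :
    0 ≤ kchi y M := (pf_of_length_ne_top h).kchi_nonneg

open Pointwise in
/-- the cokernel of multiplication as `QuotSMulTop` -/
noncomputable def cokerEquiv (a : B) (M : Type*) [AddCommGroup M] [Module B M] :
    (M ⧸ LinearMap.range (LinearMap.lsmul B M a)) ≃ₗ[B] QuotSMulTop a M :=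
  Submodule.quotEquivOfEq _ _ (by
    ext m
    rw [LinearMap.mem_range, Submodule.mem_smul_pointwise_iff_exists]
    constructor
    · rintro ⟨b, rfl⟩
      exact ⟨b, mem_top, rfl⟩
    · rintro ⟨b, -, rfl⟩
      exact ⟨b, rfl⟩)

theorem supportDim_coker {a : B} (ha : a ∈ maximalIdeal B) {M : Type*} [AddCommGroup M]
    [Module B M] [Module.Finite B M] (h0 : Function.Injective (LinearMap.lsmul B M a)) :
    Module.supportDim B (M ⧸ LinearMap.range (LinearMap.lsmul B M a)) + 1 =
      Module.supportDim B M := by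
  rw [Module.supportDim_eq_of_equiv (cokerEquiv a M)]
  exact Module.supportDim_quotSMulTop_succ_eq_supportDim h0 ha

theorem PF.kchi_eq_zero : ∀ {n : ℕ} {y : Fin n → B} (_ : ∀ i, y i ∈ maximalIdeal B)
    {M : Type v} [AddCommGroup M] [Module B M] [Module.Finite B M], PF y M →
    Module.supportDim B M < n → kchi y M = 0 := by
  intro n
  induction n with
  | zero =>
    intro y _ M _ _ _ _ hd
    have h1 : Module.supportDim B M = ⊥ := by
      by_contra h2
      haveI := (Module.supportDim_ne_bot_iff_nontrivial B M).1 h2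
      have h3 : (0 : WithBot ℕ∞) ≤ Module.supportDim B M := by
        unfold Module.supportDim
        haveI : Nonempty (Module.support B M) :=
          Module.nonempty_support_of_nontrivial.to_subtype
        exact Order.krullDim_nonneg
      exact absurd hd (not_lt.2 (by simpa using h3))
    haveI := (Module.supportDim_eq_bot_iff_subsingleton B M).1 h1
    exact kchi_of_subsingleton y
  | succ n ih =>
    intro y hy M _ _ _ h hd
    induction ‹Module.Finite B M› using
      IsNoetherianRing.induction_on_isQuotientEquivQuotientPrime B with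
    | subsingleton N => exact kchi_of_subsingleton y
    | quotient N p f =>
      haveI := p.2
      by_cases h0 : y 0 ∈ p.1
      · rw [kchi_mem h (by rw [ann_of_equiv f]; exact h0)]
      · have hinj := lsmul_injective_of_notMem f h0
        rw [kchi_reg h hinj]
        refine ih (fun i => hy i.succ) h.tail_coker ?_
        rw [← supportDim_coker (hy 0) hinj] at hd
        revert hd
        generalize Module.supportDim B (N ⧸ LinearMap.range (LinearMap.lsmul B N (y 0))) = a
        intro hd
        induction a with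
        | bot => exact WithBot.bot_lt_coe _
        | coe a =>
          have h5 : ((a + 1 : ℕ∞) : WithBot ℕ∞) < ((n + 1 : ℕ) : ℕ∞) := by exact_mod_cast hd
          have h6 : a + 1 < ((n + 1 : ℕ) : ℕ∞) := WithBot.coe_lt_coe.1 h5
          have h7 : a < (n : ℕ∞) := by
            push_cast at h6
            exact (ENat.add_lt_add_iff_right (by simp)).1 h6
          exact_mod_cast WithBot.coe_lt_coe.2 h7
    | exact N₁ N₂ N₃ f g hf hg hfg h₁ h₃ =>
      rw [PF.kchi_add f g hf hg hfg h, h₁ (h.of_injective f hf)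
        ((Module.supportDim_le_of_injective f hf).trans_lt hd),
        h₃ (h.of_surjective g hg) ((Module.supportDim_le_of_surjective g hg).trans_lt hd),
        add_zero]

/-- TASK K5: vanishing when the dimension is smaller than the number of elements. -/
theorem kchi_eq_zero {n : ℕ} (y : Fin n → B) (hy : ∀ i, y i ∈ maximalIdeal B)
    (M : Type*) [AddCommGroup M] [Module B M] [Module.Finite B M]
    (h : Module.length B (M ⧸ (Ideal.span (Set.range y) • (⊤ : Submodule B M))) ≠ ⊤)
    (hd : ringKrullDim (B ⧸ Module.annihilator B M) < n) :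
    kchi y M = 0 := by
  rw [← Module.supportDim_eq_ringKrullDim_quotient_annihilator] at hd
  exact (pf_of_length_ne_top h).kchi_eq_zero hy hd

end K4

section K6

variable {B : Type u} [CommRing B] [IsNoetherianRing B] [IsLocalRing B]

theorem PF.supportDim_le : ∀ {n : ℕ} {y : Fin n → B} (_ : ∀ i, y i ∈ maximalIdeal B)
    {M : Type v} [AddCommGroup M] [Module B M] [Module.Finite B M], PF y M →
    Module.supportDim B M ≤ n := by
  intro n
  induction n with
  | zero =>
    intro y _ M _ _ _ h
    obtain ⟨s, hs⟩ := h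
    have h1 : Ideal.span (Set.range y) = ⊥ := by
      rw [Set.range_eq_empty, Ideal.span_empty]
    rw [h1, sup_bot_eq] at hs
    haveI := isArtinianRing_quot hs
    rw [Module.supportDim_eq_ringKrullDim_quotient_annihilator]
    exact (Ring.krullDimLE_iff (n := 0)).1 inferInstance
  | succ n ih =>
    intro y hy M _ _ _ h
    have h1 := Module.supportDim_le_supportDim_quotSMulTop_succ (R := B) (M := M) (hy 0)
    have h2 : Module.supportDim B (M ⧸ LinearMap.range (LinearMap.lsmul B M (y 0))) ≤ n :=
      ih (fun i => hy i.succ) h.tail_coker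
    rw [Module.supportDim_eq_of_equiv (cokerEquiv (y 0) M)] at h2
    refine h1.trans ?_
    push_cast
    gcongr

theorem PF.kchi_pos : ∀ {n : ℕ} {y : Fin n → B} (_ : ∀ i, y i ∈ maximalIdeal B)
    {𝔭 : Ideal B} [𝔭.IsPrime], PF y (B ⧸ 𝔭) → Module.supportDim B (B ⧸ 𝔭) = n →
    0 < kchi y (B ⧸ 𝔭) := by
  intro n
  induction n with
  | zero =>
    intro y _ 𝔭 _ h _
    have h1 : Ideal.span (Set.range y) = ⊥ := by
      rw [Set.range_eq_empty, Ideal.span_empty]
    have h2 := h.kk_ne_top 0
    have h3 : kk y (B ⧸ 𝔭) 0 ≠ 0 := by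
      rw [_root_.Vale.Agent.P202.CharP.kk_zero, h1, Submodule.bot_smul]
      haveI : Nontrivial ((B ⧸ 𝔭) ⧸ (⊥ : Submodule B (B ⧸ 𝔭))) :=
        Submodule.Quotient.nontrivial_iff.2 bot_ne_top
      exact Module.length_pos.ne'
    unfold kchi
    have h4 : 0 < (kk y (B ⧸ 𝔭) 0).toNat := by
      rw [Nat.pos_iff_ne_zero]
      intro h5
      rcases ENat.toNat_eq_zero.1 h5 with h6 | h6
      · exact h3 h6
      · exact h2 h6
    simpa using h4
  | succ n ih =>
    intro y hy 𝔭 _ h hd
    have h0 : y 0 ∉ 𝔭 := by
      intro h0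
      have h1 : PF (fun i => y i.succ) (B ⧸ 𝔭) :=
        h.tail (by rw [Ideal.annihilator_quotient]; exact h0)
      have h2 := h1.supportDim_le (fun i => hy i.succ)
      rw [hd] at h2
      have h3 : n + 1 ≤ n := by exact_mod_cast h2
      omega
    have hinj := lsmul_injective_of_notMem (LinearEquiv.refl B (B ⧸ 𝔭)) h0
    rw [kchi_reg h hinj]
    have hdim := supportDim_coker (hy 0) hinj
    rw [hd] at hdim
    have hdim' : Module.supportDim B
        ((B ⧸ 𝔭) ⧸ LinearMap.range (LinearMap.lsmul B (B ⧸ 𝔭) (y 0))) = n := by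
      revert hdim
      generalize Module.supportDim B
        ((B ⧸ 𝔭) ⧸ LinearMap.range (LinearMap.lsmul B (B ⧸ 𝔭) (y 0))) = a
      intro hdim
      induction a with
      | bot =>
        exfalso
        rw [WithBot.bot_add] at hdim
        exact WithBot.coe_ne_bot hdim.symm
      | coe a =>
        have h5 : ((a + 1 : ℕ∞) : WithBot ℕ∞) = ((n + 1 : ℕ) : ℕ∞) := by exact_mod_cast hdim
        have h6 : a + 1 = ((n + 1 : ℕ) : ℕ∞) := WithBot.coe_inj.1 h5
        have h7 : a = (n : ℕ∞) := by
          induction a using ENat.recTopCoe with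
          | top =>
            exfalso
            rw [top_add] at h6
            exact ENat.natCast_ne_top _ h6.symm
          | coe a =>
            have h8 : a + 1 = n + 1 := by exact_mod_cast h6
            have h9 : a = n := by omega
            rw [h9]
        rw [h7]
        rfl
    have hPF := h.tail_coker
    obtain ⟨D, hD⟩ : ∃ D : Submodule B (B ⧸ 𝔭),
        D = LinearMap.range (LinearMap.lsmul B (B ⧸ 𝔭) (y 0)) := ⟨_, rfl⟩
    rw [← hD] at hdim' hPF ⊢
    obtain ⟨l, hl⟩ := Order.le_krullDim_iff.1
      (le_of_eq hdim'.symm : (n : WithBot ℕ∞) ≤ Order.krullDim (Module.support B ((B ⧸ 𝔭) ⧸ D)))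
    have hmem : Module.annihilator B ((B ⧸ 𝔭) ⧸ D) ≤ l.head.1.asIdeal :=
      Module.mem_support_iff_of_finite.1 l.head.2
    have h𝔭 : 𝔭 ≤ l.head.1.asIdeal := by
      refine le_trans ?_ hmem
      have h3 := LinearMap.annihilator_le_of_surjective D.mkQ D.mkQ_surjective
      rwa [Ideal.annihilator_quotient] at h3
    have hy0 : y 0 ∈ l.head.1.asIdeal := by
      refine hmem ?_
      rw [hD]
      exact mem_ann_coker _ _
    haveI := l.head.1.isPrime
    have hDle : D ≤ LinearMap.ker (Submodule.factor h𝔭) := by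
      intro x hx
      rw [hD] at hx
      obtain ⟨m, rfl⟩ := hx
      rw [LinearMap.mem_ker]
      obtain ⟨b, rfl⟩ := Submodule.Quotient.mk_surjective _ m
      change Submodule.Quotient.mk (y 0 * b) = (0 : B ⧸ l.head.1.asIdeal)
      rw [Submodule.Quotient.mk_eq_zero]
      exact Ideal.mul_mem_right _ _ hy0
    let g : ((B ⧸ 𝔭) ⧸ D) →ₗ[B] (B ⧸ l.head.1.asIdeal) :=
      D.liftQ (Submodule.factor h𝔭) hDle
    have hg : Function.Surjective g := by
      intro b
      obtain ⟨b, rfl⟩ := Submodule.Quotient.mk_surjective _ b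
      exact ⟨Submodule.Quotient.mk (Submodule.Quotient.mk b), rfl⟩
    rw [PF.kchi_add (LinearMap.ker g).subtype g (Submodule.injective_subtype _) hg
      (LinearMap.exact_subtype_ker_map g) hPF]
    have hdim2 : Module.supportDim B (B ⧸ l.head.1.asIdeal) = n := by
      refine le_antisymm ((Module.supportDim_le_of_surjective g hg).trans hdim'.le) ?_
      refine Order.le_krullDim_iff.2 ⟨⟨l.length, fun i => ⟨(l i).1, ?_⟩, fun i => ?_⟩, hl⟩
      · rw [Module.mem_support_iff_of_finite, Ideal.annihilator_quotient]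
        exact l.monotone (Fin.zero_le i)
      · exact l.step i
    have h8 : 0 ≤ kchi (fun i => y i.succ) ↥(LinearMap.ker g) :=
      (hPF.of_injective _ (Submodule.injective_subtype _)).kchi_nonneg
    have h9 : 0 < kchi (fun i => y i.succ) (B ⧸ l.head.1.asIdeal) :=
      ih (fun i => hy i.succ) (hPF.of_surjective g hg) hdim2
    exact add_pos_of_nonneg_of_pos h8 h9

/-- TASK K6: positivity. -/
theorem kchi_pos {n : ℕ} (y : Fin n → B) (hy : ∀ i, y i ∈ maximalIdeal B)
    (𝔭 : Ideal B) [𝔭.IsPrime]
    (h : Module.length B (B ⧸ (𝔭 ⊔ Ideal.span (Set.range y))) ≠ ⊤)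
    (hd : ringKrullDim (B ⧸ 𝔭) = n) : 0 < kchi y (B ⧸ 𝔭) := by
  obtain ⟨s, hs⟩ := exists_pow_le_of_length_ne_top h
  rw [Ideal.annihilator_quotient] at hs
  refine PF.kchi_pos hy ⟨s, ?_⟩ (by rw [Module.supportDim_quotient_eq_ringKrullDim, hd])
  rwa [Ideal.annihilator_quotient]

end K6

section K7

variable {B : Type u} [CommRing B] [IsNoetherianRing B] [IsLocalRing B]

theorem pf_iff_radical {n : ℕ} {y : Fin n → B} {M : Type*} [AddCommGroup M] [Module B M] :
    PF y M ↔ maximalIdeal B ≤
      (Module.annihilator B M ⊔ Ideal.span (Set.range y)).radical := by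
  constructor
  · rintro ⟨s, hs⟩ a ha
    exact ⟨s, hs (Ideal.pow_mem_pow ha s)⟩
  · intro h
    exact Ideal.exists_pow_le_of_le_radical_of_fg h (IsNoetherian.noetherian _)

theorem PF.pow {n : ℕ} {y : Fin n → B} {M : Type*} [AddCommGroup M] [Module B M] (h : PF y M)
    (q : Fin n → ℕ) : PF (fun i => y i ^ q i) M := by
  rw [pf_iff_radical] at h ⊢
  refine h.trans ?_
  rw [← Ideal.radical_idem (Module.annihilator B M ⊔ Ideal.span (Set.range fun i => y i ^ q i))]
  refine Ideal.radical_mono (sup_le ?_ ?_)
  · exact le_sup_left.trans Ideal.le_radical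
  · rw [Ideal.span_le]
    rintro _ ⟨i, rfl⟩
    exact ⟨q i, Ideal.mem_sup_right (Ideal.subset_span ⟨i, rfl⟩)⟩

theorem PF.cons_mul {n : ℕ} {a b : B} {y : Fin n → B} {M : Type*} [AddCommGroup M] [Module B M]
    (ha : PF (Fin.cons a y : Fin (n + 1) → B) M) (hb : PF (Fin.cons b y : Fin (n + 1) → B) M) :
    PF (Fin.cons (a * b) y : Fin (n + 1) → B) M := by
  obtain ⟨s, hs⟩ := ha
  obtain ⟨t, ht⟩ := hb
  refine ⟨s + t, ?_⟩
  rw [pow_add]
  refine (Ideal.mul_mono hs ht).trans ?_
  simp only [Fin.range_cons, Ideal.span_insert]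
  rw [Ideal.mul_le]
  intro u hu v hv
  obtain ⟨u1, hu1, u', hu', rfl⟩ := Submodule.mem_sup.1 hu
  obtain ⟨u2, hu2, u3, hu3, rfl⟩ := Submodule.mem_sup.1 hu'
  obtain ⟨v1, hv1, v', hv', rfl⟩ := Submodule.mem_sup.1 hv
  obtain ⟨v2, hv2, v3, hv3, rfl⟩ := Submodule.mem_sup.1 hv'
  obtain ⟨c, rfl⟩ := Ideal.mem_span_singleton'.1 hu2
  obtain ⟨d, rfl⟩ := Ideal.mem_span_singleton'.1 hv2
  have e : (u1 + (c * a + u3)) * (v1 + (d * b + v3)) =
      (u1 * (v1 + (d * b + v3)) + (c * a + u3) * v1) +
        (c * d * (a * b) + (u3 * (d * b + v3) + c * a * v3)) := by ring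
  rw [e]
  refine Submodule.add_mem_sup ?_ (Submodule.add_mem_sup ?_ ?_)
  · exact Ideal.add_mem _ (Ideal.mul_mem_right _ _ hu1) (Ideal.mul_mem_left _ _ hv1)
  · exact Ideal.mem_span_singleton'.2 ⟨c * d, rfl⟩
  · exact Ideal.add_mem _ (Ideal.mul_mem_right _ _ hu3) (Ideal.mul_mem_left _ _ hv3)

/-- if multiplication by `b` is injective on `N` and the tail is already a multiplicity system,
the Euler characteristic of the cokernel vanishes -/
theorem kchi_coker_of_injective {n : ℕ} {y : Fin n → B} {N : Type*} [AddCommGroup N]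
    [Module B N] [Module.Finite B N] (h : PF y N) {b : B}
    (hb : Function.Injective (LinearMap.lsmul B N b)) :
    kchi y (N ⧸ LinearMap.range (LinearMap.lsmul B N b)) = 0 := by
  have h1 := PF.kchi_add (LinearMap.lsmul B N b)
    (LinearMap.range (LinearMap.lsmul B N b)).mkQ hb (Submodule.mkQ_surjective _)
    (LinearMap.exact_map_mkQ_range _) h
  linarith

theorem kchi_cons_mul {n : ℕ} {a b : B} {y : Fin n → B} {M : Type v} [AddCommGroup M]
    [Module B M] [Module.Finite B M]
    (ha : PF (Fin.cons a y : Fin (n + 1) → B) M) (hb : PF (Fin.cons b y : Fin (n + 1) → B) M) :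
    kchi (Fin.cons (a * b) y : Fin (n + 1) → B) M =
      kchi (Fin.cons a y : Fin (n + 1) → B) M + kchi (Fin.cons b y : Fin (n + 1) → B) M := by
  have hab := ha.cons_mul hb
  induction ‹Module.Finite B M› using
    IsNoetherianRing.induction_on_isQuotientEquivQuotientPrime B with
  | subsingleton N => simp only [kchi_of_subsingleton, add_zero]
  | quotient N p f =>
    haveI := p.2
    have hann : Module.annihilator B N = p.1 := ann_of_equiv f
    have key : ∀ c : B, PF y N → PF (Fin.cons c y : Fin (n + 1) → B) N →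
        kchi (Fin.cons c y : Fin (n + 1) → B) N = 0 := by
      intro c h1 h2
      by_cases hc : c ∈ p.1
      · exact kchi_mem h2 (by rw [hann]; exact hc)
      · rw [kchi_reg h2 (lsmul_injective_of_notMem f hc)]
        exact kchi_coker_of_injective h1 (lsmul_injective_of_notMem f hc)
    by_cases h1 : a ∈ p.1
    · have h2 : PF y N := ha.tail (by rw [hann]; exact h1)
      rw [key _ h2 hab, key _ h2 ha, key _ h2 hb, add_zero]
    · by_cases h3 : b ∈ p.1
      · have h2 : PF y N := hb.tail (by rw [hann]; exact h3)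
        rw [key _ h2 hab, key _ h2 ha, key _ h2 hb, add_zero]
      · have h4 : a * b ∉ p.1 := fun h5 => by
          rcases Ideal.IsPrime.mem_or_mem ‹_› h5 with h6 | h6
          · exact h1 h6
          · exact h3 h6
        have ia := lsmul_injective_of_notMem f h1
        have ib := lsmul_injective_of_notMem f h3
        have e1 : kchi (Fin.cons (a * b) y : Fin (n + 1) → B) N =
            kchi y (N ⧸ LinearMap.range (LinearMap.lsmul B N (a * b))) :=
          kchi_reg hab (lsmul_injective_of_notMem f h4)
        have e2 : kchi (Fin.cons a y : Fin (n + 1) → B) N =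
            kchi y (N ⧸ LinearMap.range (LinearMap.lsmul B N a)) := kchi_reg ha ia
        have e3 : kchi (Fin.cons b y : Fin (n + 1) → B) N =
            kchi y (N ⧸ LinearMap.range (LinearMap.lsmul B N b)) := kchi_reg hb ib
        have hPF : PF y (N ⧸ LinearMap.range (LinearMap.lsmul B N (a * b))) := hab.tail_coker
        rw [e1, e2, e3]
        let F : (N ⧸ LinearMap.range (LinearMap.lsmul B N a)) →ₗ[B]
            (N ⧸ LinearMap.range (LinearMap.lsmul B N (a * b))) :=
          Submodule.mapQ _ _ (LinearMap.lsmul B N b) (by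
            rintro _ ⟨m, rfl⟩
            refine ⟨m, ?_⟩
            change (a * b) • m = b • (a • m)
            rw [mul_comm, mul_smul])
        let G : (N ⧸ LinearMap.range (LinearMap.lsmul B N (a * b))) →ₗ[B]
            (N ⧸ LinearMap.range (LinearMap.lsmul B N b)) :=
          Submodule.factor (by
            rintro _ ⟨m, rfl⟩
            refine ⟨a • m, ?_⟩
            change b • (a • m) = (a * b) • m
            rw [mul_comm, mul_smul])
        refine PF.kchi_add F G ?_ (Submodule.factor_surjective _) ?_ hPF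
        · rw [injective_iff_map_eq_zero]
          intro z hz
          obtain ⟨z, rfl⟩ := Submodule.Quotient.mk_surjective _ z
          have hz' : Submodule.Quotient.mk (b • z) =
              (0 : N ⧸ LinearMap.range (LinearMap.lsmul B N (a * b))) := hz
          rw [Submodule.Quotient.mk_eq_zero] at hz' ⊢
          obtain ⟨m, hm⟩ := hz'
          refine ⟨m, ib ?_⟩
          change b • (a • m) = b • z
          rw [← mul_smul, mul_comm]
          exact hm
        · rw [LinearMap.exact_iff]
          ext z
          obtain ⟨z, rfl⟩ := Submodule.Quotient.mk_surjective _ z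
          constructor
          · intro hz
            have hz' : Submodule.Quotient.mk z =
                (0 : N ⧸ LinearMap.range (LinearMap.lsmul B N b)) := hz
            rw [Submodule.Quotient.mk_eq_zero] at hz'
            obtain ⟨m, hm⟩ := hz'
            exact ⟨Submodule.Quotient.mk m, by rw [← hm]; rfl⟩
          · rintro ⟨c, hc⟩
            obtain ⟨c, rfl⟩ := Submodule.Quotient.mk_surjective _ c
            rw [← hc]
            change Submodule.Quotient.mk (b • c) =
              (0 : N ⧸ LinearMap.range (LinearMap.lsmul B N b))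
            rw [Submodule.Quotient.mk_eq_zero]
            exact ⟨c, rfl⟩
  | exact N₁ N₂ N₃ f g hf hg hfg h₁ h₃ =>
    rw [PF.kchi_add f g hf hg hfg hab, PF.kchi_add f g hf hg hfg ha,
      PF.kchi_add f g hf hg hfg hb,
      h₁ (ha.of_injective f hf) (hb.of_injective f hf) (hab.of_injective f hf),
      h₃ (ha.of_surjective g hg) (hb.of_surjective g hg) (hab.of_surjective g hg)]
    ring

theorem PF.cons_pow {n : ℕ} {a : B} {y : Fin n → B} {M : Type*} [AddCommGroup M] [Module B M]
    (ha : PF (Fin.cons a y : Fin (n + 1) → B) M) (q : ℕ) :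
    PF (Fin.cons (a ^ q) y : Fin (n + 1) → B) M := by
  have h := ha.pow (Fin.cons q fun _ => 1 : Fin (n + 1) → ℕ)
  have e : (fun i => (Fin.cons a y : Fin (n + 1) → B) i ^
      (Fin.cons q fun _ => 1 : Fin (n + 1) → ℕ) i) = (Fin.cons (a ^ q) y : Fin (n + 1) → B) := by
    funext i
    refine Fin.cases rfl (fun j => ?_) i
    simp
  rwa [e] at h

theorem kchi_cons_pow {n : ℕ} {a : B} {y : Fin n → B} {M : Type v} [AddCommGroup M]
    [Module B M] [Module.Finite B M] (ha : PF (Fin.cons a y : Fin (n + 1) → B) M)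
    {q : ℕ} (hq : 1 ≤ q) :
    kchi (Fin.cons (a ^ q) y : Fin (n + 1) → B) M =
      (q : ℤ) * kchi (Fin.cons a y : Fin (n + 1) → B) M := by
  induction q, hq using Nat.le_induction with
  | base => simp
  | succ q hq ih =>
    rw [pow_succ, kchi_cons_mul (ha.cons_pow q) ha, ih]
    push_cast
    ring

theorem PF.kchi_pow {q : ℕ} (hq : 1 ≤ q) : ∀ {n : ℕ} {y : Fin n → B}
    {M : Type v} [AddCommGroup M] [Module B M] [Module.Finite B M], PF y M →
    kchi (fun i => y i ^ q) M = (q : ℤ) ^ n * kchi y M := by
  intro n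
  induction n with
  | zero =>
    intro y M _ _ _ _
    have e : (fun i => y i ^ q) = y := by
      funext i
      exact i.elim0
    rw [e, pow_zero, one_mul]
  | succ n ih =>
    intro y M _ _ _ h
    have e1 : (fun i => y i ^ q) =
        (Fin.cons (y 0 ^ q) (fun i => y i.succ ^ q) : Fin (n + 1) → B) := by
      funext i
      refine Fin.cases rfl (fun j => rfl) i
    have h2 : PF (Fin.cons (y 0) (fun i => y i.succ ^ q) : Fin (n + 1) → B) M := by
      have h3 := h.pow (Fin.cons 1 fun _ => q : Fin (n + 1) → ℕ)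
      have e : (fun i => y i ^ (Fin.cons 1 fun _ => q : Fin (n + 1) → ℕ) i) =
          (Fin.cons (y 0) (fun i => y i.succ ^ q) : Fin (n + 1) → B) := by
        funext i
        refine Fin.cases ?_ (fun j => rfl) i
        simp
      rwa [e] at h3
    rw [e1, kchi_cons_pow h2 hq, _root_.Vale.Agent.P202.CharP.kchi_succ _ M h2.length_ne_top]
    have h4 : kchi (fun i : Fin n => (Fin.cons (y 0) (fun i => y i.succ ^ q) : Fin (n + 1) → B)
        i.succ) (M ⧸ LinearMap.range (LinearMap.lsmul B M
        ((Fin.cons (y 0) (fun i => y i.succ ^ q) : Fin (n + 1) → B) 0))) =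
        (q : ℤ) ^ n * kchi (fun i => y i.succ)
          (M ⧸ LinearMap.range (LinearMap.lsmul B M (y 0))) := ih h.tail_coker
    have h5 : kchi (fun i : Fin n => (Fin.cons (y 0) (fun i => y i.succ ^ q) : Fin (n + 1) → B)
        i.succ) ↥(LinearMap.ker (LinearMap.lsmul B M
        ((Fin.cons (y 0) (fun i => y i.succ ^ q) : Fin (n + 1) → B) 0))) =
        (q : ℤ) ^ n * kchi (fun i => y i.succ)
          ↥(LinearMap.ker (LinearMap.lsmul B M (y 0))) := ih h.tail_ker
    rw [h4, h5, _root_.Vale.Agent.P202.CharP.kchi_succ y M h.length_ne_top]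
    ring

/-- TASK K7: powers. -/
theorem kchi_pow {n : ℕ} (y : Fin n → B) (hy : ∀ i, y i ∈ maximalIdeal B)
    (q : ℕ) (hq : 1 ≤ q) (M : Type*) [AddCommGroup M] [Module B M] [Module.Finite B M]
    (h : Module.length B (M ⧸ (Ideal.span (Set.range y) • (⊤ : Submodule B M))) ≠ ⊤) :
    kchi (fun i => y i ^ q) M = (q : ℤ) ^ n * kchi y M :=
  (pf_of_length_ne_top h).kchi_pow hq

end K7

end Vale.Agent.P202.CharP
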