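import Vale.Agent.P202.CharP.DefsF
import Vale.Agent.P202.CharP.KBasic
import Vale.Agent.P202.CharP.KChi
import Vale.Agent.P202.CharP.FrobBasic
import Vale.Agent.P202.FinLen
import Vale.Agent.P202.ChiLemmas
import Mathlib.RingTheory.Ideal.GoingDown

/-!
P202-CHARP, task T6: the Euler characteristic of the Frobenius pushforward.
-/

namespace Vale.Agent.P202.CharP

open Submodule TensorProduct IsLocalRing

section FrMod

/-- the module `N`, to be seen as an `A`-module through the `e`-th power of the Frobenius. -/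
def FrM (p : ℕ) (e : ℕ) (N : Type*) : Type _ := (fun _ _ => N) p e

variable (p : ℕ) (e : ℕ)

instance (N : Type*) [AddCommGroup N] : AddCommGroup (FrM p e N) := inferInstanceAs (AddCommGroup N)

variable [Fact p.Prime] {A : Type*} [CommRing A]

instance (N : Type*) [AddCommGroup N] [Module A N] : Module (Fr p A e) (FrM p e N) :=
  inferInstanceAs (Module A N)

variable [CharP A p]

instance (N : Type*) [AddCommGroup N] [Module A N] : Module A (FrM p e N) :=
  Module.compHom _ (algebraMap A (Fr p A e))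

instance (N : Type*) [AddCommGroup N] [Module A N] :
    IsScalarTower A (Fr p A e) (FrM p e N) where
  smul_assoc a b x := by
    rw [Algebra.smul_def, mul_smul]
    rfl

/-- the identity `N ≃ FrM p e N`. -/
def toFrM (N : Type*) [AddCommGroup N] : N ≃+ FrM p e N := AddEquiv.refl N

lemma smul_toFrM {N : Type*} [AddCommGroup N] [Module A N] (a : A) (x : N) :
    a • toFrM p e N x = toFrM p e N (a ^ p ^ e • x) := rfl

/-- functoriality. -/
def mapFrM {N N' : Type*} [AddCommGroup N] [Module A N] [AddCommGroup N'] [Module A N']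
    (f : N →ₗ[A] N') : FrM p e N →ₗ[A] FrM p e N' where
  toFun x := f x
  map_add' x y := f.map_add x y
  map_smul' a x := f.map_smul (a ^ p ^ e) x

lemma finite_FrM [Module.Finite A (Fr p A e)] (N : Type*) [AddCommGroup N] [Module A N]
    [h : Module.Finite A N] : Module.Finite A (FrM p e N) := by
  have h1 : Module.Finite (Fr p A e) (FrM p e N) := h
  exact Module.Finite.trans (Fr p A e) (FrM p e N)

end FrMod

section restrict

variable {A A' : Type*} [CommRing A] [CommRing A'] [Algebra A A']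

lemma kos_map : ∀ (n : ℕ) (x : Fin n → A) (a b : KIdx n),
    kos n (fun j => algebraMap A A' (x j)) a b = algebraMap A A' (kos n x a b)
  | 0, x, a, b => by simp [kos]
  | n + 1, x, Sum.inl a, Sum.inl b => by
    have := kos_map n (fun i => x i.succ) a b
    simpa [kos] using this
  | n + 1, x, Sum.inl a, Sum.inr b => by
    show (algebraMap A A' (x 0) • (1 : Matrix (KIdx n) (KIdx n) A')) a b =
      algebraMap A A' ((x 0 • (1 : Matrix (KIdx n) (KIdx n) A)) a b)
    rw [Matrix.smul_apply, Matrix.smul_apply, smul_eq_mul, smul_eq_mul, map_mul,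
      Matrix.one_apply, Matrix.one_apply]
    congr 1
    split_ifs <;> simp
  | n + 1, x, Sum.inr a, Sum.inl b => by simp [kos]
  | n + 1, x, Sum.inr a, Sum.inr b => by
    have := kos_map n (fun i => x i.succ) a b
    simpa [kos] using this

variable {N : Type*} [AddCommGroup N] [Module A N] [Module A' N] [IsScalarTower A A' N]

lemma act_restrict {n : ℕ} (x : Fin n → A) (f : KIdx n → N) :
    act (kos n (fun j => algebraMap A A' (x j))) N f = act (kos n x) N f := by
  ext a
  show ∑ b, _ = ∑ b, _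
  refine Finset.sum_congr rfl fun b _ => ?_
  rw [kos_map, algebraMap_smul]

lemma tot_restrict {n : ℕ} (x : Fin n → A) (f : KIdx n → N) :
    tot (kdeg n) (kos n (fun j => algebraMap A A' (x j))) (0 : N →ₗ[A'] N) f =
      tot (kdeg n) (kos n x) (0 : N →ₗ[A] N) f := by
  ext a
  show act _ N f a + _ = act _ N f a + _
  rw [act_restrict]
  rfl

lemma rl_restrict (X Y : Submodule A' N) (c : ℕ∞)
    (hc : Module.length A (↥Y ⧸ X.submoduleOf Y) = Module.length A' (↥Y ⧸ X.submoduleOf Y) * c) :
    rl (X.restrictScalars A) (Y.restrictScalars A) = rl X Y * c := by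
  rw [rl.eq_def X Y, ← hc]
  let f : ↥(Y.restrictScalars A) →ₗ[A] (↥Y ⧸ X.submoduleOf Y) :=
    (mkQ (X.submoduleOf Y)).restrictScalars A
  have hs : Function.Surjective f := by
    intro z
    obtain ⟨w, hw⟩ := mkQ_surjective (X.submoduleOf Y) z
    exact ⟨w, hw⟩
  have hk : LinearMap.ker f = (X.restrictScalars A).submoduleOf (Y.restrictScalars A) := by
    ext z
    rw [LinearMap.mem_ker]
    exact Submodule.Quotient.mk_eq_zero (X.submoduleOf Y) (x := (show ↥Y from z))
  exact rl_eq_length_of_surjective f hs hk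

lemma conc_restrict (X : Submodule A' N) (p : ℤ) :
    (conc X p).restrictScalars A = conc (X.restrictScalars A) p := by
  unfold conc
  split_ifs <;> rfl

lemma mem_lift_conc_restrict {n : ℕ} (X : Submodule A' N) (δ : ℤ) (f : KIdx n → N) :
    f ∈ lift (kdeg n) (conc (X.restrictScalars A)) δ ↔ f ∈ lift (kdeg n) (conc X) δ := by
  simp only [lift, Submodule.mem_pi]
  refine forall_congr' fun a => ?_
  rw [← conc_restrict]
  rfl

lemma kk_restrict {n : ℕ} (x : Fin n → A) (c : ℕ∞)
    (hc : ∀ X Y : Submodule A' (KIdx n → N), Module.length A (↥Y ⧸ X.submoduleOf Y) =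
      Module.length A' (↥Y ⧸ X.submoduleOf Y) * c) (i : ℤ) :
    kk x N i = kk (fun j => algebraMap A A' (x j)) N i * c := by
  unfold kk kh khs hh
  rw [← rl_restrict (A := A) _ _ c (hc _ _)]
  have hT : (⊤ : Submodule A N) = (⊤ : Submodule A' N).restrictScalars A := rfl
  have hB : (⊥ : Submodule A N) = (⊥ : Submodule A' N).restrictScalars A := rfl
  have hb : bb (tot (kdeg n) (kos n x) (0 : N →ₗ[A] N))
        (lift (kdeg n) (conc (⊤ : Submodule A N))) (lift (kdeg n) (conc (⊥ : Submodule A N))) i =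
      (bb (tot (kdeg n) (kos n fun j => algebraMap A A' (x j)) (0 : N →ₗ[A'] N))
        (lift (kdeg n) (conc (⊤ : Submodule A' N)))
        (lift (kdeg n) (conc (⊥ : Submodule A' N))) i).restrictScalars A := by
    ext f
    rw [Submodule.restrictScalars_mem]
    unfold bb
    rw [Submodule.mem_sup, Submodule.mem_sup]
    constructor
    · rintro ⟨u, ⟨v, hv, rfl⟩, w, hw, rfl⟩
      refine ⟨_, ⟨v, ?_, rfl⟩, w, ?_, ?_⟩
      · exact (mem_lift_conc_restrict (A := A) ⊤ _ v).mp hv
      · exact (mem_lift_conc_restrict (A := A) ⊥ _ w).mp hw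
      · rw [tot_restrict]
    · rintro ⟨u, ⟨v, hv, rfl⟩, w, hw, rfl⟩
      refine ⟨_, ⟨v, ?_, rfl⟩, w, ?_, ?_⟩
      · exact (mem_lift_conc_restrict (A := A) ⊤ _ v).mpr hv
      · exact (mem_lift_conc_restrict (A := A) ⊥ _ w).mpr hw
      · rw [tot_restrict]
  have hz : zz (tot (kdeg n) (kos n x) (0 : N →ₗ[A] N))
        (lift (kdeg n) (conc (⊤ : Submodule A N))) (lift (kdeg n) (conc (⊥ : Submodule A N))) i =
      (zz (tot (kdeg n) (kos n fun j => algebraMap A A' (x j)) (0 : N →ₗ[A'] N))
        (lift (kdeg n) (conc (⊤ : Submodule A' N)))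
        (lift (kdeg n) (conc (⊥ : Submodule A' N))) i).restrictScalars A := by
    ext f
    rw [Submodule.restrictScalars_mem]
    unfold zz
    rw [Submodule.mem_inf, Submodule.mem_inf, Submodule.mem_comap, Submodule.mem_comap,
      tot_restrict, hT, mem_lift_conc_restrict (A := A) ⊤, hB, mem_lift_conc_restrict (A := A) ⊥]
  rw [hb, hz]

end restrict

section Compare

variable (p : ℕ) [Fact p.Prime] {A : Type*} [CommRing A] [IsLocalRing A] [CharP A p]
  [CharP (ResidueField A) p]

lemma kk_FrM (e : ℕ) {n : ℕ} (x : Fin n → A) (N : Type*) [AddCommGroup N] [Module A N] (i : ℤ) :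
    kk x (FrM p e N) i = kk (fun j => x j ^ p ^ e) N i * fdeg p (ResidueField A) e := by
  rw [kk_restrict (A' := Fr p A e) (N := FrM p e N) x (fdeg p (ResidueField A) e)
    (fun X Y => length_Fr p A e _) i]
  rfl

lemma kchi_FrM (e : ℕ) {n : ℕ} (x : Fin n → A) (N : Type*)
    [AddCommGroup N] [Module A N] :
    kchi x (FrM p e N) = ((fdeg p (ResidueField A) e).toNat : ℤ) *
      kchi (fun j => x j ^ p ^ e) N := by
  unfold kchi
  rw [Finset.mul_sum]
  refine Finset.sum_congr rfl fun i _ => ?_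
  rw [kk_FrM, ENat.toNat_mul]
  push_cast
  ring

end Compare

section dim

variable {A S : Type*} [CommRing A] [IsLocalRing A] [IsNoetherianRing A]
    [CommRing S] [IsLocalRing S] [IsNoetherianRing S] [Algebra A S]
    [IsLocalHom (algebraMap A S)]

omit [IsNoetherianRing A] in
lemma span_minimal {n : ℕ} (y : Fin n → S) (hy : ∀ i, y i ∈ maximalIdeal S)
    (hyl : Module.length S (S ⧸ Ideal.span (Set.range y)) ≠ ⊤) :
    maximalIdeal S ∈ (Ideal.span (Set.range y)).minimalPrimes := by
  obtain ⟨s, hs⟩ := exists_pow_le_of_ell_ne_top (I := Ideal.span (Set.range y)) hyl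
  refine ⟨⟨inferInstance, Ideal.span_le.mpr (by rintro _ ⟨i, rfl⟩; exact hy i)⟩, ?_⟩
  rintro P ⟨hP, hIP⟩ _
  exact hP.le_of_pow_le (hs.trans hIP)

lemma dim_le_of_span {n : ℕ} (y : Fin n → S) (hy : ∀ i, y i ∈ maximalIdeal S)
    (hyl : Module.length S (S ⧸ Ideal.span (Set.range y)) ≠ ⊤) :
    (maximalIdeal S).height ≤ n := by
  classical
  have h := span_minimal y hy hyl
  have e : (Set.range y : Set S) = ((Finset.univ.image y : Finset S) : Set S) := by simp
  rw [e] at h
  refine (Ideal.height_le_card_of_mem_minimalPrimes_span_finset h).trans ?_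
  exact_mod_cast Finset.card_image_le.trans (by simp)

/-- the fibre has finite length. -/
lemma exists_pow_le_fibre [Module.Flat A S] {n : ℕ} (hdim : ringKrullDim A = n)
    (y : Fin n → S) (hy : ∀ i, y i ∈ maximalIdeal S)
    (hyl : Module.length S (S ⧸ Ideal.span (Set.range y)) ≠ ⊤) :
    ∃ s, maximalIdeal S ^ s ≤ (maximalIdeal A).map (algebraMap A S) := by
  have hA : (maximalIdeal A).height = n := by
    rw [← IsLocalRing.maximalIdeal_height_eq_ringKrullDim] at hdim
    exact_mod_cast hdim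
  have hS := dim_le_of_span y hy hyl
  have hloc : IsLocalHom (algebraMap A S) := inferInstance
  have hle : (maximalIdeal A).map (algebraMap A S) ≤ maximalIdeal S :=
    ((IsLocalRing.local_hom_TFAE (algebraMap A S)).out 0 2).mp hloc
  have hmin : maximalIdeal S ∈ ((maximalIdeal A).map (algebraMap A S)).minimalPrimes := by
    refine ⟨⟨inferInstance, hle⟩, ?_⟩
    rintro P ⟨hP, hIP⟩ -
    by_contra hne
    have hPm : P ≤ maximalIdeal S := le_maximalIdeal hP.ne_top
    have hlt : P < maximalIdeal S := lt_of_le_of_ne hPm (fun h => hne h.ge)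
    have hover : P.LiesOver (maximalIdeal A) := by
      refine ⟨?_⟩
      have h5 : maximalIdeal A ≤ P.under A := Ideal.map_le_iff_le_comap.mp hIP
      have h6 : P.under A ≠ ⊤ := (hP.under A).ne_top
      exact (IsLocalRing.maximalIdeal.isMaximal A).eq_of_le h6 h5
    have h1 := Ideal.height_eq_height_add_of_liesOver_of_hasGoingDown (maximalIdeal A) P
    have h2 : P.height < (maximalIdeal S).height :=
      Ideal.height_strict_mono_of_isPrime_of_isPrime hlt
    have h3 : (n : ℕ∞) ≤ P.height := by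
      rw [h1, hA]
      exact le_self_add
    exact absurd (h3.trans_lt h2) (not_lt.mpr hS)
  have := IsLocalRing.quotient_artinian_of_mem_minimalPrimes_of_isLocalRing _ hmin
  exact exists_maximalIdeal_pow_le_of_isArtinianRing_quotient _

lemma dim_quot_lt {n : ℕ} (hfib : ∃ s, maximalIdeal S ^ s ≤ (maximalIdeal A).map (algebraMap A S))
    (I : Ideal A) (hI : ringKrullDim (A ⧸ I) < n) :
    ringKrullDim (S ⧸ I.map (algebraMap A S)) < n := by
  have hloc : IsLocalHom (algebraMap A S) := inferInstance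
  have hle : (maximalIdeal A).map (algebraMap A S) ≤ maximalIdeal S :=
    ((IsLocalRing.local_hom_TFAE (algebraMap A S)).out 0 2).mp hloc
  by_cases hIt : I = ⊤
  · have hs : Subsingleton (S ⧸ I.map (algebraMap A S)) := by
      rw [hIt, Ideal.map_top]
      exact Ideal.Quotient.subsingleton_iff.mpr rfl
    rw [ringKrullDim_eq_bot_of_subsingleton]
    exact WithBot.bot_lt_coe _
  · have hn1 : Nontrivial (A ⧸ I) := Ideal.Quotient.nontrivial_iff.mpr hIt
    have hIm : I ≤ maximalIdeal A := le_maximalIdeal hIt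
    have hIS : I.map (algebraMap A S) ≠ ⊤ := by
      intro h
      have h1 : (⊤ : Ideal S) ≤ maximalIdeal S := h ▸ (Ideal.map_mono hIm).trans hle
      exact (maximalIdeal.isMaximal S).ne_top (top_le_iff.mp h1)
    have hn2 : Nontrivial (S ⧸ I.map (algebraMap A S)) := Ideal.Quotient.nontrivial_iff.mpr hIS
    have hl1 : IsLocalRing (A ⧸ I) :=
      IsLocalRing.of_surjective' (Ideal.Quotient.mk I) Ideal.Quotient.mk_surjective
    have hl2 : IsLocalRing (S ⧸ I.map (algebraMap A S)) :=
      IsLocalRing.of_surjective' (Ideal.Quotient.mk _) Ideal.Quotient.mk_surjective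
    obtain ⟨d, hd⟩ : ∃ d : ℕ, ringKrullDim (A ⧸ I) = d := by
      have h0 : (0 : WithBot ℕ∞) ≤ ringKrullDim (A ⧸ I) := ringKrullDim_nonneg_of_nontrivial
      obtain ⟨m, hm⟩ := WithBot.ne_bot_iff_exists.mp (ne_bot_of_le_ne_bot (by simp) h0)
      rw [← hm] at hI ⊢
      have hI' : m < (n : ℕ∞) := by exact_mod_cast hI
      obtain ⟨d, hd⟩ := ENat.ne_top_iff_exists.mp (ne_top_of_lt hI')
      exact ⟨d, by rw [← hd]; rfl⟩
    rw [hd] at hI
    obtain ⟨w, hw, s, hs⟩ := exists_parameters hd
    obtain ⟨t, ht⟩ := hfib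
    let g : (A ⧸ I) →+* (S ⧸ I.map (algebraMap A S)) :=
      Ideal.quotientMap _ (algebraMap A S) Ideal.le_comap_map
    have hcA : (maximalIdeal (A ⧸ I)).comap (Ideal.Quotient.mk I) = maximalIdeal A :=
      IsLocalRing.eq_maximalIdeal
        (Ideal.comap_isMaximal_of_surjective _ Ideal.Quotient.mk_surjective)
    have hcS : (maximalIdeal (S ⧸ I.map (algebraMap A S))).comap (Ideal.Quotient.mk _) =
        maximalIdeal S :=
      IsLocalRing.eq_maximalIdeal
        (Ideal.comap_isMaximal_of_surjective _ Ideal.Quotient.mk_surjective)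
    have hmA : (maximalIdeal A).map (Ideal.Quotient.mk I) ≤ maximalIdeal (A ⧸ I) := by
      rw [Ideal.map_le_iff_le_comap, hcA]
    have hmS : maximalIdeal (S ⧸ I.map (algebraMap A S)) ≤
        (maximalIdeal S).map (Ideal.Quotient.mk (I.map (algebraMap A S))) := by
      intro z hz
      obtain ⟨z, rfl⟩ := Ideal.Quotient.mk_surjective z
      refine Ideal.mem_map_of_mem _ ?_
      rw [← hcS]
      exact hz
    have h1 : maximalIdeal (S ⧸ I.map (algebraMap A S)) ^ t ≤ (maximalIdeal (A ⧸ I)).map g := by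
      calc maximalIdeal (S ⧸ I.map (algebraMap A S)) ^ t ≤
          ((maximalIdeal S).map (Ideal.Quotient.mk _)) ^ t := Ideal.pow_right_mono hmS t
        _ = ((maximalIdeal S) ^ t).map (Ideal.Quotient.mk _) := (Ideal.map_pow _ _ _).symm
        _ ≤ ((maximalIdeal A).map (algebraMap A S)).map (Ideal.Quotient.mk _) := Ideal.map_mono ht
        _ = ((maximalIdeal A).map (Ideal.Quotient.mk I)).map g := by
          rw [Ideal.map_map, Ideal.map_map]
          rfl
        _ ≤ _ := Ideal.map_mono hmA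
    have h2 : maximalIdeal (S ⧸ I.map (algebraMap A S)) ^ (t * s) ≤
        Ideal.span (Set.range fun i => g (w i)) := by
      calc maximalIdeal (S ⧸ I.map (algebraMap A S)) ^ (t * s) =
          (maximalIdeal (S ⧸ I.map (algebraMap A S)) ^ t) ^ s := pow_mul _ _ _
        _ ≤ ((maximalIdeal (A ⧸ I)).map g) ^ s := Ideal.pow_right_mono h1 s
        _ = ((maximalIdeal (A ⧸ I)) ^ s).map g := (Ideal.map_pow _ _ _).symm
        _ ≤ (Ideal.span (Set.range w)).map g := Ideal.map_mono hs
        _ = _ := by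
          rw [Ideal.map_span, ← Set.range_comp]
          rfl
    have h3 := ell_ne_top_of_pow_le h2
    have h4 := dim_le_of_span (fun i => g (w i)) (fun i => ?_) h3
    · rw [← IsLocalRing.maximalIdeal_height_eq_ringKrullDim]
      refine lt_of_le_of_lt ?_ hI
      exact_mod_cast h4
    · obtain ⟨a, ha⟩ := Ideal.Quotient.mk_surjective (w i)
      have h5 : a ∈ maximalIdeal A := by
        rw [← hcA, Ideal.mem_comap, ha]
        exact hw i
      have h6 : algebraMap A S a ∈ maximalIdeal S := hle (Ideal.mem_map_of_mem _ h5)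
      rw [← hcS] at h6
      show g (w i) ∈ _
      rw [← ha]
      exact h6

end dim

section psi

variable {A S : Type*} [CommRing A] [IsLocalRing A] [IsNoetherianRing A]
    [CommRing S] [IsLocalRing S] [IsNoetherianRing S] [Algebra A S]
    [IsLocalHom (algebraMap A S)] {n : ℕ} (y : Fin n → S)

omit [IsLocalRing A] [IsNoetherianRing A] [IsLocalRing S] [IsNoetherianRing S]
  [IsLocalHom (algebraMap A S)] in
lemma len_psi (hyl : Module.length S (S ⧸ Ideal.span (Set.range y)) ≠ ⊤) (N : Type*)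
    [AddCommGroup N] [Module A N] [Module.Finite A N] :
    Module.length S ((S ⊗[A] N) ⧸ (Ideal.span (Set.range y) • (⊤ : Submodule S (S ⊗[A] N)))) ≠ ⊤ := by
  refine length_ne_top_of_killed hyl _ ?_
  intro r hr m
  obtain ⟨m, rfl⟩ := Submodule.Quotient.mk_surjective _ m
  rw [← Submodule.Quotient.mk_smul, Submodule.Quotient.mk_eq_zero]
  exact Submodule.smul_mem_smul hr Submodule.mem_top

omit [IsLocalRing A] [IsNoetherianRing A] [IsLocalRing S]
  [IsLocalHom (algebraMap A S)] in
lemma kk_psi (hyl : Module.length S (S ⧸ Ideal.span (Set.range y)) ≠ ⊤) (N : Type*)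
    [AddCommGroup N] [Module A N] [Module.Finite A N] (i : ℤ) : kk y (S ⊗[A] N) i ≠ ⊤ :=
  kk_ne_top y _ (len_psi y hyl N) i

omit [IsLocalRing A] [IsNoetherianRing A] [IsLocalRing S]
  [IsLocalHom (algebraMap A S)] in
lemma psi_add [Module.Flat A S] (hyl : Module.length S (S ⧸ Ideal.span (Set.range y)) ≠ ⊤)
    {N₁ N₂ N₃ : Type*} [AddCommGroup N₁] [Module A N₁] [Module.Finite A N₁]
    [AddCommGroup N₂] [Module A N₂] [Module.Finite A N₂]
    [AddCommGroup N₃] [Module A N₃] [Module.Finite A N₃]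
    (f : N₁ →ₗ[A] N₂) (g : N₂ →ₗ[A] N₃) (hf : Function.Injective f)
    (hg : Function.Surjective g) (hfg : Function.Exact f g) :
    kchi y (S ⊗[A] N₂) = kchi y (S ⊗[A] N₁) + kchi y (S ⊗[A] N₃) :=
  kchi_add y (f.baseChange S) (g.baseChange S)
    (Module.Flat.lTensor_preserves_injective_linearMap f hf)
    (LinearMap.lTensor_surjective S hg) (lTensor_exact S hfg hg)
    (kk_psi y hyl N₁) (kk_psi y hyl N₂) (kk_psi y hyl N₃)

omit [IsLocalRing A] [IsNoetherianRing A] [IsLocalRing S]
  [IsLocalHom (algebraMap A S)] in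
lemma psi_congr {N N' : Type*} [AddCommGroup N] [Module A N] [AddCommGroup N'] [Module A N']
    (e : N ≃ₗ[A] N') : kchi y (S ⊗[A] N) = kchi y (S ⊗[A] N') :=
  kchi_congr y (e.baseChange A S N N')

lemma psi_eq_zero (hfib : ∃ s, maximalIdeal S ^ s ≤ (maximalIdeal A).map (algebraMap A S))
    (hy : ∀ i, y i ∈ maximalIdeal S)
    (hyl : Module.length S (S ⧸ Ideal.span (Set.range y)) ≠ ⊤) (N : Type*)
    [AddCommGroup N] [Module A N] [Module.Finite A N] (I : Ideal A)
    (hIN : I ≤ Module.annihilator A N) (hI : ringKrullDim (A ⧸ I) < n) :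
    kchi y (S ⊗[A] N) = 0 := by
  refine kchi_eq_zero y hy _ (len_psi y hyl N) (lt_of_le_of_lt ?_ (dim_quot_lt hfib I hI))
  have h : I.map (algebraMap A S) ≤ Module.annihilator S (S ⊗[A] N) := by
    rw [Ideal.map_le_iff_le_comap]
    intro a ha
    rw [Ideal.mem_comap, Module.mem_annihilator]
    intro z
    rw [algebraMap_smul]
    induction z with
    | zero => rw [smul_zero]
    | add u v hu hv => rw [smul_add, hu, hv, add_zero]
    | tmul s v =>
      rw [← TensorProduct.tmul_smul, (Module.mem_annihilator.mp (hIN ha)) v, TensorProduct.tmul_zero]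
  exact ringKrullDim_le_of_surjective (Ideal.Quotient.factor h) (Ideal.Quotient.factor_surjective h)

end psi

section rho

variable {A S S' : Type*} [CommRing A] [IsLocalRing A] [IsNoetherianRing A]
    [CommRing S] [IsLocalRing S] [IsNoetherianRing S] [Algebra A S]
    [IsLocalHom (algebraMap A S)] [Module.Flat A S]
    [CommRing S'] [IsLocalRing S'] [IsNoetherianRing S'] [Algebra A S']
    [IsLocalHom (algebraMap A S')] [Module.Flat A S'] {n : ℕ} (y : Fin n → S) (y' : Fin n → S')

omit [IsLocalRing A] [IsNoetherianRing A] in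
lemma dim_quot_prime_lt {P Q : Ideal A} [P.IsPrime] (hPQ : P < Q)
    (hP : ringKrullDim (A ⧸ P) ≤ n) : ringKrullDim (A ⧸ Q) < n := by
  obtain ⟨a, haQ, haP⟩ := Set.exists_of_ssubset hPQ
  have h1 : (Ideal.Quotient.mk P a) ∈ nonZeroDivisors (A ⧸ P) := by
    rw [mem_nonZeroDivisors_iff_ne_zero]
    intro h
    exact haP (Ideal.Quotient.eq_zero_iff_mem.mp h)
  have h2 := ringKrullDim_quotient_succ_le_of_nonZeroDivisor h1
  have h3 : ringKrullDim (A ⧸ Q) ≤
      ringKrullDim ((A ⧸ P) ⧸ Ideal.span {Ideal.Quotient.mk P a}) := by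
    let g : ((A ⧸ P) ⧸ Ideal.span {Ideal.Quotient.mk P a}) →+* (A ⧸ Q) :=
      Ideal.Quotient.lift _ (Ideal.Quotient.factor hPQ.le) (by
        intro z hz
        obtain ⟨c, rfl⟩ := Ideal.mem_span_singleton'.mp hz
        rw [map_mul]
        have : Ideal.Quotient.factor hPQ.le (Ideal.Quotient.mk P a) = 0 :=
          Ideal.Quotient.eq_zero_iff_mem.mpr haQ
        rw [this, mul_zero])
    refine ringKrullDim_le_of_surjective g ?_
    intro z
    obtain ⟨z, rfl⟩ := Ideal.Quotient.mk_surjective z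
    exact ⟨Ideal.Quotient.mk _ (Ideal.Quotient.mk _ z), rfl⟩
  have h4 : ringKrullDim (A ⧸ Q) + 1 ≤ n := (add_le_add_left h3 1).trans (h2.trans hP)
  rcases eq_or_ne (ringKrullDim (A ⧸ Q)) ⊥ with h5 | h5
  · rw [h5]
    exact WithBot.bot_lt_coe _
  · obtain ⟨m, hm⟩ := WithBot.ne_bot_iff_exists.mp h5
    rw [← hm] at h4 ⊢
    have h6 : m + 1 ≤ (n : ℕ∞) := by exact_mod_cast h4
    have h7 : m < (n : ℕ∞) := by
      refine (ENat.add_one_le_iff ?_).mp h6
      rintro rfl
      simp at h6
    exact_mod_cast h7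

lemma exists_rho (hfib : ∃ s, maximalIdeal S ^ s ≤ (maximalIdeal A).map (algebraMap A S))
    (hy : ∀ i, y i ∈ maximalIdeal S)
    (hyl : Module.length S (S ⧸ Ideal.span (Set.range y)) ≠ ⊤)
    (hfib' : ∃ s, maximalIdeal S' ^ s ≤ (maximalIdeal A).map (algebraMap A S'))
    (hy' : ∀ i, y' i ∈ maximalIdeal S')
    (hyl' : Module.length S' (S' ⧸ Ideal.span (Set.range y')) ≠ ⊤)
    (P : Ideal A) [P.IsPrime] (hP : ringKrullDim (A ⧸ P) ≤ n)
    (N : Type*) [AddCommGroup N] [Module A N] (hN : Module.Finite A N)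
    (hPN : P ≤ Module.annihilator A N) :
    ∃ ρ : ℤ, kchi y (S ⊗[A] N) = ρ * kchi y (S ⊗[A] (A ⧸ P)) ∧
      kchi y' (S' ⊗[A] N) = ρ * kchi y' (S' ⊗[A] (A ⧸ P)) := by
  revert hPN
  refine IsNoetherianRing.induction_on_isQuotientEquivQuotientPrime A hN
    (motive := fun N _ _ _ => P ≤ Module.annihilator A N →
      ∃ ρ : ℤ, kchi y (S ⊗[A] N) = ρ * kchi y (S ⊗[A] (A ⧸ P)) ∧
        kchi y' (S' ⊗[A] N) = ρ * kchi y' (S' ⊗[A] (A ⧸ P))) ?_ ?_ ?_
  · intro N _ _ _ _ _
    have hI : (⊤ : Ideal A) ≤ Module.annihilator A N := by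
      rw [Module.annihilator_eq_top_iff.mpr inferInstance]
    have hd : ringKrullDim (A ⧸ (⊤ : Ideal A)) < n := by
      have hs : Subsingleton (A ⧸ (⊤ : Ideal A)) := Ideal.Quotient.subsingleton_iff.mpr rfl
      rw [ringKrullDim_eq_bot_of_subsingleton]
      exact WithBot.bot_lt_coe _
    exact ⟨0, by rw [psi_eq_zero y hfib hy hyl N ⊤ hI hd, zero_mul],
      by rw [psi_eq_zero y' hfib' hy' hyl' N ⊤ hI hd, zero_mul]⟩
  · intro N _ _ _ Q e hPN
    rw [e.annihilator_eq, Ideal.annihilator_quotient] at hPN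
    rcases eq_or_lt_of_le hPN with h | h
    · subst h
      exact ⟨1, by rw [one_mul, psi_congr y e], by rw [one_mul, psi_congr y' e]⟩
    · have hd := dim_quot_prime_lt h hP
      refine ⟨0, ?_, ?_⟩
      · rw [psi_congr y e, psi_eq_zero y hfib hy hyl _ Q.1 (by rw [Ideal.annihilator_quotient]) hd,
          zero_mul]
      · rw [psi_congr y' e,
          psi_eq_zero y' hfib' hy' hyl' _ Q.1 (by rw [Ideal.annihilator_quotient]) hd, zero_mul]
  · intro N₁ _ _ _ N₂ _ _ _ N₃ _ _ _ f g hf hg hfg h1 h3 hPN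
    obtain ⟨r1, h11, h12⟩ := h1 (hPN.trans (f.annihilator_le_of_injective hf))
    obtain ⟨r3, h31, h32⟩ := h3 (hPN.trans (g.annihilator_le_of_surjective hg))
    refine ⟨r1 + r3, ?_, ?_⟩
    · rw [psi_add y hyl f g hf hg hfg, h11, h31, add_mul]
    · rw [psi_add y' hyl' f g hf hg hfg, h12, h32, add_mul]

end rho

section main

variable (p : ℕ) [Fact p.Prime]

/-- TASK T6: the Euler characteristic of the Frobenius pushforward. -/
theorem kchi_Fr {A S : Type*} [CommRing A] [IsLocalRing A] [IsNoetherianRing A] [CharP A p]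
    [CharP (ResidueField A) p] [IsAdicComplete (maximalIdeal A) A]
    (hF : fdeg p (ResidueField A) 1 ≠ ⊤)
    [CommRing S] [IsLocalRing S] [IsNoetherianRing S] [Algebra A S]
    [IsLocalHom (algebraMap A S)] [Module.Flat A S] {n : ℕ} (hdim : ringKrullDim A = n)
    (x : Fin n → A) (hx : ∀ i, x i ∈ maximalIdeal A)
    (hxl : Module.length A (A ⧸ Ideal.span (Set.range x)) ≠ ⊤) (y : Fin n → S) (hy : ∀ i, y i ∈ maximalIdeal S)
    (hyl : Module.length S (S ⧸ Ideal.span (Set.range y)) ≠ ⊤) (e : ℕ) :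
    kchi y (S ⊗[A] (Fr p A e)) =
      ((p ^ e : ℕ) : ℤ) ^ n * ((fdeg p (ResidueField A) e).toNat : ℤ) * kchi y S := by
  have hfin : Module.Finite A (Fr p A e) := finite_Fr p A hF e
  have hfib := exists_pow_le_fibre hdim y hy hyl
  have hq : 1 ≤ p ^ e := Nat.one_le_pow _ _ (Fact.out : p.Prime).pos
  have hlocA : IsLocalHom (algebraMap A A) := by
    rw [Algebra.algebraMap_self]
    exact isLocalHom_id A
  have hfibA : ∃ s, maximalIdeal A ^ s ≤ (maximalIdeal A).map (algebraMap A A) :=
    ⟨1, by rw [pow_one, Algebra.algebraMap_self, Ideal.map_id]⟩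
  have key : ∀ (N : Type _) [AddCommGroup N] [Module A N] [Module.Finite A N],
      kchi y (S ⊗[A] (FrM p e N)) =
        ((p ^ e : ℕ) : ℤ) ^ n * ((fdeg p (ResidueField A) e).toNat : ℤ) * kchi y (S ⊗[A] N) := by
    intro N _ _ hN
    refine IsNoetherianRing.induction_on_isQuotientEquivQuotientPrime A hN
      (motive := fun N _ _ _ => kchi y (S ⊗[A] (FrM p e N)) =
        ((p ^ e : ℕ) : ℤ) ^ n * ((fdeg p (ResidueField A) e).toNat : ℤ) * kchi y (S ⊗[A] N))
        ?_ ?_ ?_
    · intro N _ _ _ hs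
      have hs' : Subsingleton (FrM p e N) := hs
      have := finite_FrM p e (A := A) N
      have hI : (⊤ : Ideal A) ≤ Module.annihilator A N := by
        rw [Module.annihilator_eq_top_iff.mpr inferInstance]
      have hI' : (⊤ : Ideal A) ≤ Module.annihilator A (FrM p e N) := by
        rw [Module.annihilator_eq_top_iff.mpr inferInstance]
      have hd : ringKrullDim (A ⧸ (⊤ : Ideal A)) < n := by
        have hs : Subsingleton (A ⧸ (⊤ : Ideal A)) := Ideal.Quotient.subsingleton_iff.mpr rfl
        rw [ringKrullDim_eq_bot_of_subsingleton]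
        exact WithBot.bot_lt_coe _
      rw [psi_eq_zero y hfib hy hyl N ⊤ hI hd, psi_eq_zero y hfib hy hyl _ ⊤ hI' hd, mul_zero]
    · intro N _ _ _ Q f
      have := finite_FrM p e (A := A) N
      have := finite_FrM p e (A := A) (A ⧸ Q.1)
      let f' : FrM p e N ≃ₗ[A] FrM p e (A ⧸ Q.1) :=
        LinearEquiv.ofBijective (mapFrM p e f.toLinearMap) f.bijective
      rw [psi_congr y f, psi_congr y f']
      have hQF : Q.1 ≤ Module.annihilator A (FrM p e (A ⧸ Q.1)) := by
        intro a ha
        rw [Module.mem_annihilator]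
        intro z
        have h1 : a ^ p ^ e ∈ Q.1 := Ideal.pow_mem_of_mem _ ha _ (by omega)
        have h2 : a ^ p ^ e ∈ Module.annihilator A (A ⧸ Q.1) := by
          rw [Ideal.annihilator_quotient]
          exact h1
        exact Module.mem_annihilator.mp h2 z
      have hle : ringKrullDim (A ⧸ Q.1) ≤ n := hdim ▸ ringKrullDim_quotient_le Q.1
      rcases hle.lt_or_eq with hlt | heq
      · rw [psi_eq_zero y hfib hy hyl (A ⧸ Q.1) Q.1 (by rw [Ideal.annihilator_quotient]) hlt,
          psi_eq_zero y hfib hy hyl _ Q.1 hQF hlt, mul_zero]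
      · obtain ⟨ρ, h1, h2⟩ := exists_rho y x hfib hy hyl hfibA hx hxl Q.1 hle (FrM p e (A ⧸ Q.1))
          inferInstance hQF
        rw [kchi_congr x (TensorProduct.lid A _), kchi_congr x (TensorProduct.lid A _),
          kchi_FrM, kchi_pow x hx _ hq (A ⧸ Q.1) (by
            refine length_ne_top_of_killed hxl _ ?_
            intro r hr m
            obtain ⟨m, rfl⟩ := Submodule.Quotient.mk_surjective _ m
            rw [← Submodule.Quotient.mk_smul, Submodule.Quotient.mk_eq_zero]
            exact Submodule.smul_mem_smul hr Submodule.mem_top)] at h2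
        have h3 : 0 < kchi x (A ⧸ Q.1) := by
          refine kchi_pos x hx Q.1 ?_ heq
          exact ne_top_of_le_ne_top hxl (Module.length_le_of_surjective
            (Submodule.factor le_sup_right) (Submodule.factor_surjective _))
        have h4 : ρ = ((p ^ e : ℕ) : ℤ) ^ n * ((fdeg p (ResidueField A) e).toNat : ℤ) := by
          refine mul_right_cancel₀ h3.ne' ?_
          rw [← h2]
          ring
        rw [h1, h4]
    · intro N₁ _ _ _ N₂ _ _ _ N₃ _ _ _ f g hf hg hfg h1 h3
      have := finite_FrM p e (A := A) N₁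
      have := finite_FrM p e (A := A) N₂
      have := finite_FrM p e (A := A) N₃
      rw [psi_add y hyl (mapFrM p e f) (mapFrM p e g) hf hg hfg, h1, h3,
        psi_add y hyl f g hf hg hfg, mul_add]
  let φ : Fr p A e ≃ₗ[A] FrM p e A :=
    { toFun := fun a => a
      invFun := fun a => a
      map_add' := fun _ _ => rfl
      map_smul' := fun _ _ => rfl
      left_inv := fun _ => rfl
      right_inv := fun _ => rfl }
  rw [psi_congr y φ, key A, kchi_congr y (TensorProduct.AlgebraTensorModule.rid A S S)]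

end main

end Vale.Agent.P202.CharP
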