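import Vale.Agent.P202.CharP.Pushdown

/-!
P202-CHARP, T2 and T3: exact rows give an exact total complex; homology of the total complex when
the rows have cohomology in one degree only.
-/

namespace Vale.Agent.P202.CharP

open Submodule TensorProduct IsLocalRing

namespace TR

section

variable {S 𝕋 : Type*} [CommRing S] [AddCommGroup 𝕋] [Module S 𝕋]

lemma mem_zz {D : 𝕋 →ₗ[S] 𝕋} {Y X : ℤ → Submodule S 𝕋} {δ : ℤ} {z : 𝕋} :
    z ∈ zz D Y X δ ↔ z ∈ Y δ ∧ D z ∈ X (δ - 1) := Iff.rfl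

lemma mem_bb {D : 𝕋 →ₗ[S] 𝕋} {Y X : ℤ → Submodule S 𝕋} {δ : ℤ} {z : 𝕋} :
    z ∈ bb D Y X δ ↔ ∃ w ∈ Y (δ + 1), z - D w ∈ X δ := by
  constructor
  · intro h1
    obtain ⟨a, ⟨w, hw, rfl⟩, b, hb, hab⟩ := Submodule.mem_sup.1 h1
    refine ⟨w, hw, ?_⟩
    rw [← hab, add_sub_cancel_left]
    exact hb
  · rintro ⟨w, hw, hb⟩
    exact Submodule.mem_sup.2 ⟨D w, ⟨w, hw, rfl⟩, z - D w, hb, by abel⟩

/-- dropping an acyclic lower piece -/
lemma hh_lower {D : 𝕋 →ₗ[S] 𝕋} (hD : ∀ x, D (D x) = 0) {X Y Z : ℤ → Submodule S 𝕋}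
    (hX : Stab D X) (hXY : ∀ δ, X δ ≤ Y δ) (hYZ : ∀ δ, Y δ ≤ Z δ) {δ : ℤ}
    (h0 : hh D Y X δ = 0) (h1 : hh D Y X (δ - 1) = 0) : hh D Z X δ = hh D Z Y δ := by
  have e1 : bb D Z Y δ ⊔ zz D Z Y δ = bb D Z Y δ ⊔ zz D Z X δ := by
    refine le_antisymm (sup_le le_sup_left fun z hz => ?_) (sup_le le_sup_left fun z hz => ?_)
    · obtain ⟨hz1, hz2⟩ := mem_zz.1 hz
      obtain ⟨y, hy, hx⟩ := hh_eq_zero_iff.1 h1 (D z) hz2 (by rw [hD]; exact zero_mem _)
      rw [sub_add_cancel] at hy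
      refine Submodule.mem_sup.2 ⟨y, mem_bb.2 ⟨0, zero_mem _, by simpa using hy⟩, z - y, ?_,
        by abel⟩
      refine mem_zz.2 ⟨sub_mem hz1 (hYZ _ hy), ?_⟩
      rw [map_sub]
      exact hx
    · obtain ⟨hz1, hz2⟩ := mem_zz.1 hz
      exact le_sup_right (a := bb D Z Y δ) (mem_zz.2 ⟨hz1, hXY _ hz2⟩)
  have e2 : bb D Z Y δ ⊓ zz D Z X δ = bb D Z X δ ⊓ zz D Z X δ := by
    apply le_antisymm
    · intro z hz
      refine ⟨?_, hz.2⟩
      obtain ⟨w, hw, hy⟩ := mem_bb.1 hz.1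
      obtain ⟨hz1, hz2⟩ := mem_zz.1 hz.2
      have h3 : D (z - D w) ∈ X (δ - 1) := by
        rw [map_sub, hD, sub_zero]
        exact hz2
      obtain ⟨y, hy2, hx⟩ := hh_eq_zero_iff.1 h0 _ hy h3
      refine mem_bb.2 ⟨w + y, add_mem hw (hYZ _ hy2), ?_⟩
      rw [map_add, ← sub_sub]
      exact hx
    · intro z hz
      refine ⟨?_, hz.2⟩
      obtain ⟨w, hw, hy⟩ := mem_bb.1 hz.1
      exact mem_bb.2 ⟨w, hw, hXY _ hy⟩
  have := hX
  unfold hh
  rw [← rl_sup_right (bb D Z Y δ), e1, rl_sup_right, ← rl_inf_left (bb D Z Y δ), e2, rl_inf_left]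

/-- dropping an acyclic upper piece -/
lemma hh_upper {D : 𝕋 →ₗ[S] 𝕋} (hD : ∀ x, D (D x) = 0) {X Y Z : ℤ → Submodule S 𝕋}
    (hXY : ∀ δ, X δ ≤ Y δ) (hYZ : ∀ δ, Y δ ≤ Z δ) {δ : ℤ}
    (h0 : hh D Z Y δ = 0) (h1 : hh D Z Y (δ + 1) = 0) : hh D Z X δ = hh D Y X δ := by
  have e1 : bb D Z X δ ⊔ zz D Z X δ = bb D Z X δ ⊔ zz D Y X δ := by
    refine le_antisymm (sup_le le_sup_left fun z hz => ?_) (sup_le le_sup_left fun z hz => ?_)
    · obtain ⟨hz1, hz2⟩ := mem_zz.1 hz
      obtain ⟨w, hw, hy⟩ := hh_eq_zero_iff.1 h0 z hz1 (hXY _ hz2)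
      refine Submodule.mem_sup.2 ⟨D w, mem_bb.2 ⟨w, hw, by simp⟩, z - D w, ?_, by abel⟩
      refine mem_zz.2 ⟨hy, ?_⟩
      rw [map_sub, hD, sub_zero]
      exact hz2
    · obtain ⟨hz1, hz2⟩ := mem_zz.1 hz
      exact le_sup_right (a := bb D Z X δ) (mem_zz.2 ⟨hYZ _ hz1, hz2⟩)
  have e2 : bb D Z X δ ⊓ zz D Y X δ = bb D Y X δ ⊓ zz D Y X δ := by
    apply le_antisymm
    · intro z hz
      refine ⟨?_, hz.2⟩
      obtain ⟨w, hw, hy⟩ := mem_bb.1 hz.1
      obtain ⟨hz1, hz2⟩ := mem_zz.1 hz.2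
      have h3 : D w ∈ Y (δ + 1 - 1) := by
        rw [add_sub_cancel_right]
        have := sub_mem hz1 (hXY _ hy)
        rwa [sub_sub_cancel] at this
      obtain ⟨u, -, hv⟩ := hh_eq_zero_iff.1 h1 w hw h3
      refine mem_bb.2 ⟨w - D u, hv, ?_⟩
      rw [map_sub, hD, sub_zero]
      exact hy
    · intro z hz
      refine ⟨?_, hz.2⟩
      obtain ⟨w, hw, hy⟩ := mem_bb.1 hz.1
      exact mem_bb.2 ⟨w, hYZ _ hw, hy⟩
  unfold hh
  rw [← rl_sup_right (bb D Z X δ), e1, rl_sup_right, ← rl_inf_left (bb D Z X δ), e2, rl_inf_left]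

end

section

variable {S : Type*} [CommRing S] {ι : Type*} [Fintype ι] {M : Type*} [AddCommGroup M]
  [Module S M]

lemma tr_tot_apply (deg : ι → ℤ) (Q : Matrix ι ι S) (d : M →ₗ[S] M) (f : ι → M) (a : ι) :
    tot deg Q d f a = ∑ b, Q a b • f b + ((deg a).negOnePow : ℤ) • d (f a) := rfl

lemma tr_mem_lift {deg : ι → ℤ} {X : ℤ → Submodule S M} {δ : ℤ} {f : ι → M} :
    f ∈ lift deg X δ ↔ ∀ a, f a ∈ X (deg a - δ) := by
  unfold lift
  rw [Submodule.mem_pi]
  simp

lemma sgn_sgn (n : ℤ) (x : M) : ((n.negOnePow : ℤˣ) : ℤ) • ((n.negOnePow : ℤˣ) : ℤ) • x = x := by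
  rw [smul_smul, ← Units.val_mul, Int.units_mul_self, Units.val_one, one_smul]

lemma tot_tot' (deg : ι → ℤ) (Q : Matrix ι ι S) (hQ : IsCx deg Q) (d : M →ₗ[S] M)
    (hd : ∀ x, d (d x) = 0) (f : ι → M) : tot deg Q d (tot deg Q d f) = 0 := by
  ext a
  rw [tr_tot_apply]
  simp only [tr_tot_apply, smul_add, Finset.sum_add_distrib, Finset.smul_sum, map_add, map_sum,
    map_smul, Pi.zero_apply]
  have h1 : ∑ b, ∑ c, Q a b • Q b c • f c = 0 := by
    rw [Finset.sum_comm]
    refine Finset.sum_eq_zero fun c _ => ?_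
    simp only [smul_smul]
    rw [← Finset.sum_smul]
    have : ∑ b, Q a b * Q b c = (Q * Q) a c := rfl
    rw [this, hQ.sq, Matrix.zero_apply, zero_smul]
  have h2 : ∑ b, Q a b • ((deg b).negOnePow : ℤ) • d (f b) +
      ∑ b, ((deg a).negOnePow : ℤ) • Q a b • d (f b) = 0 := by
    rw [← Finset.sum_add_distrib]
    refine Finset.sum_eq_zero fun b _ => ?_
    by_cases hb : Q a b = 0
    · rw [hb, zero_smul, zero_smul, smul_zero, add_zero]
    · rw [hQ.deg_eq a b hb, Int.negOnePow_succ, Units.val_neg, neg_smul, smul_neg,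
        smul_comm (((deg a).negOnePow : ℤˣ) : ℤ)]
      abel
  have h3 : d (((deg a).negOnePow : ℤ) • d (f a)) = 0 := by
    rw [map_zsmul, hd, smul_zero]
  rw [h1, zero_add, h3, smul_zero, add_zero]
  exact h2

lemma lift_stab' (deg : ι → ℤ) (Q : Matrix ι ι S) (hQ : IsCx deg Q) (d : M →ₗ[S] M)
    (X : ℤ → Submodule S M) (hX : CStab d X) : Stab (tot deg Q d) (lift deg X) := by
  intro δ f hf
  rw [tr_mem_lift] at hf ⊢
  intro a
  rw [tr_tot_apply]
  refine add_mem (sum_mem fun b _ => ?_) ?_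
  · by_cases hb : Q a b = 0
    · rw [hb, zero_smul]
      exact zero_mem _
    · have h1 := hf b
      rw [hQ.deg_eq a b hb] at h1
      refine Submodule.smul_mem _ _ ?_
      rwa [show deg a - (δ - 1) = deg a + 1 - δ by ring]
  · refine zsmul_mem ?_ _
    have h1 := hX _ _ (hf a)
    rwa [show deg a - (δ - 1) = deg a - δ + 1 by ring]

end

end TR

open TR

section T

variable {S : Type*} [CommRing S] {ι : Type*} [Fintype ι] {M : Type*} [AddCommGroup M]
  [Module S M]

/-- TASK T2: exact rows give an exact total complex (only the degrees `p = deg a - δ` matter). -/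
theorem hh_lift_eq_zero (deg : ι → ℤ) (Q : Matrix ι ι S) (hQ : IsCx deg Q) (d : M →ₗ[S] M)
    (hd : ∀ x, d (d x) = 0) (X Y : ℤ → Submodule S M) (hX : CStab d X) (hY : CStab d Y)
    (hXY : ∀ p, X p ≤ Y p) (δ : ℤ) (h : ∀ a, Ex d Y X (deg a - δ)) :
    hh (tot deg Q d) (lift deg Y) (lift deg X) δ = 0 := by
  classical
  have := hX
  rw [hh_eq_zero_iff]
  obtain ⟨lo, hlo⟩ : ∃ lo : ℤ, ∀ a, lo ≤ deg a := by
    obtain ⟨lo, hlo⟩ := (Set.finite_range deg).bddBelow
    exact ⟨lo, fun a => hlo ⟨a, rfl⟩⟩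
  obtain ⟨hi, hhi⟩ : ∃ hi : ℤ, ∀ a, deg a ≤ hi := by
    obtain ⟨hi, hhi⟩ := (Set.finite_range deg).bddAbove
    exact ⟨hi, fun a => hhi ⟨a, rfl⟩⟩
  have key : ∀ k : ℕ, ∀ f ∈ lift deg Y δ, tot deg Q d f ∈ lift deg X (δ - 1) →
      (∀ a, lo + k ≤ deg a → f a ∈ X (deg a - δ)) →
      ∃ w ∈ lift deg Y (δ + 1), f - tot deg Q d w ∈ lift deg X δ := by
    intro k
    induction k with
    | zero =>
      intro f _ _ h3
      refine ⟨0, zero_mem _, ?_⟩
      rw [map_zero, sub_zero, tr_mem_lift]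
      intro a
      exact h3 a (by simpa using hlo a)
    | succ k ih =>
      intro f h1 h2 h3
      have hg : ∀ a, ∃ g : M, deg a = lo + k → (g ∈ Y (deg a - δ - 1) ∧
          f a - d g ∈ X (deg a - δ)) := by
        intro a
        by_cases ha : deg a = lo + k
        · have h4 : ((deg a).negOnePow : ℤ) • d (f a) ∈ X (deg a - δ + 1) := by
            have h5 := tr_mem_lift.1 h2 a
            rw [tr_tot_apply, show deg a - (δ - 1) = deg a - δ + 1 by ring] at h5
            have h6 : ∑ b, Q a b • f b ∈ X (deg a - δ + 1) := by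
              refine sum_mem fun b _ => ?_
              by_cases hb : Q a b = 0
              · rw [hb, zero_smul]
                exact zero_mem _
              · have h7 := hQ.deg_eq a b hb
                have h8 := h3 b (by push_cast; omega)
                rw [h7] at h8
                refine Submodule.smul_mem _ _ ?_
                rwa [show deg a - δ + 1 = deg a + 1 - δ by ring]
            have h7 := sub_mem h5 h6
            rwa [add_sub_cancel_left] at h7
          have h5 : d (f a) ∈ X (deg a - δ + 1) := by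
            have := zsmul_mem h4 ((deg a).negOnePow : ℤ)
            rwa [sgn_sgn] at this
          have h6 : f a ∈ cb d Y X (deg a - δ) := h a ⟨tr_mem_lift.1 h1 a, h5⟩
          obtain ⟨x, ⟨g, hg, rfl⟩, y, hy, hxy⟩ := Submodule.mem_sup.1 h6
          refine ⟨g, fun _ => ⟨hg, ?_⟩⟩
          rw [← hxy, add_sub_cancel_left]
          exact hy
        · exact ⟨0, fun h => absurd h ha⟩
      choose g hg using hg
      set G : ι → M := fun a => if deg a = lo + k then ((deg a).negOnePow : ℤ) • g a else 0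
        with hG
      have hGY : G ∈ lift deg Y (δ + 1) := by
        rw [tr_mem_lift]
        intro a
        rw [hG]
        simp only
        split_ifs with ha
        · refine zsmul_mem ?_ _
          have := (hg a ha).1
          rwa [show deg a - (δ + 1) = deg a - δ - 1 by ring]
        · exact zero_mem _
      have hDG : tot deg Q d G ∈ lift deg Y δ := by
        have := lift_stab' deg Q hQ d Y hY _ _ hGY
        rwa [add_sub_cancel_right] at this
      obtain ⟨w, hw, hw2⟩ := ih (f - tot deg Q d G) (sub_mem h1 hDG) (by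
        rw [map_sub, tot_tot' deg Q hQ d hd, sub_zero]
        exact h2) (by
        intro a ha
        have e1 : ∑ b, Q a b • G b = 0 := by
          refine Finset.sum_eq_zero fun b _ => ?_
          by_cases hb : Q a b = 0
          · rw [hb, zero_smul]
          · have h7 := hQ.deg_eq a b hb
            rw [hG]
            simp only
            rw [if_neg (by omega), smul_zero]
        rw [Pi.sub_apply, tr_tot_apply, e1, zero_add]
        by_cases ha2 : deg a = lo + k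
        · have e2 : G a = ((deg a).negOnePow : ℤ) • g a := by
            rw [hG]
            simp only
            rw [if_pos ha2]
          rw [e2, map_zsmul, sgn_sgn]
          exact (hg a ha2).2
        · have e2 : G a = 0 := by
            rw [hG]
            simp only
            rw [if_neg ha2]
          rw [e2, map_zero, smul_zero, sub_zero]
          exact h3 a (by push_cast; omega))
      refine ⟨G + w, add_mem hGY hw, ?_⟩
      rw [map_add, ← sub_sub]
      exact hw2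
  intro z hz hDz
  refine key (hi - lo + 1).toNat z hz hDz fun a ha => ?_
  exfalso
  have h1 := hhi a
  have h2 := hlo a
  omega

/-- the family equal to `Y` below `p₀`, to `Z` at `p₀` and to `X` above. -/
def TR.mix (Y X : ℤ → Submodule S M) (Z : Submodule S M) (p₀ p : ℤ) : Submodule S M :=
  if p < p₀ then Y p else if p = p₀ then Z else X p

lemma TR.mix_lt {Y X : ℤ → Submodule S M} {Z : Submodule S M} {p₀ p : ℤ} (h : p < p₀) :
    TR.mix Y X Z p₀ p = Y p := if_pos h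

lemma TR.mix_eq {Y X : ℤ → Submodule S M} {Z : Submodule S M} {p₀ : ℤ} :
    TR.mix Y X Z p₀ p₀ = Z := by
  unfold TR.mix
  rw [if_neg (lt_irrefl _), if_pos rfl]

lemma TR.mix_gt {Y X : ℤ → Submodule S M} {Z : Submodule S M} {p₀ p : ℤ} (h : p₀ < p) :
    TR.mix Y X Z p₀ p = X p := by
  unfold TR.mix
  rw [if_neg (by omega), if_neg (by omega)]

lemma TR.mix_cstab {d : M →ₗ[S] M} {Y X : ℤ → Submodule S M} {Z : Submodule S M} {p₀ : ℤ}
    (hX : CStab d X) (hY : CStab d Y) (h1 : ∀ x ∈ Y (p₀ - 1), d x ∈ Z)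
    (h2 : ∀ x ∈ Z, d x ∈ X (p₀ + 1)) : CStab d (TR.mix Y X Z p₀) := by
  intro p x hx
  rcases lt_trichotomy p p₀ with h | h | h
  · rw [TR.mix_lt h] at hx
    rcases lt_trichotomy (p + 1) p₀ with h' | h' | h'
    · rw [TR.mix_lt h']
      exact hY _ _ hx
    · rw [h', TR.mix_eq]
      refine h1 x ?_
      rwa [show p₀ - 1 = p by omega]
    · omega
  · subst h
    rw [TR.mix_eq] at hx
    rw [TR.mix_gt (by omega)]
    exact h2 x hx
  · rw [TR.mix_gt h] at hx
    rw [TR.mix_gt (by omega)]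
    exact hX _ _ hx

lemma TR.cb_le_cz {d : M →ₗ[S] M} (hd : ∀ x, d (d x) = 0) {Y X : ℤ → Submodule S M}
    (hX : CStab d X) (hY : CStab d Y) (hXY : ∀ p, X p ≤ Y p) (p : ℤ) :
    cb d Y X p ≤ cz d Y X p := by
  refine sup_le ?_ fun x hx => ⟨hXY _ hx, hX _ _ hx⟩
  rintro _ ⟨y, hy, rfl⟩
  refine ⟨?_, ?_⟩
  · have := hY _ _ hy
    rwa [sub_add_cancel] at this
  · change d (d y) ∈ X (p + 1)
    rw [hd]
    exact zero_mem _

lemma TR.mem_lift_conc {deg : ι → ℤ} {Z : Submodule S M} {i : ℤ} {f : ι → M} :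
    f ∈ lift deg (conc Z) i ↔ ∀ a, (deg a = i → f a ∈ Z) ∧ (deg a ≠ i → f a = 0) := by
  rw [tr_mem_lift]
  refine forall_congr' fun a => ?_
  unfold conc
  by_cases h : deg a = i
  · rw [if_pos (by omega)]
    simp [h]
  · rw [if_neg (by omega)]
    simp [h]

lemma TR.tot_zero_apply (deg : ι → ℤ) (Q : Matrix ι ι S) (f : ι → M) (a : ι) :
    tot deg Q (0 : M →ₗ[S] M) f a = ∑ b, Q a b • f b := by
  rw [tr_tot_apply]
  simp

/-- the concentrated piece -/
lemma TR.hh_mix (deg : ι → ℤ) (Q : Matrix ι ι S) (hQ : IsCx deg Q) (d : M →ₗ[S] M)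
    (Y X : ℤ → Submodule S M) (C Z : Submodule S M) (p₀ : ℤ)
    (hX : CStab d X) (hY : CStab d Y) (hCZ : C ≤ Z) (h1 : ∀ x ∈ Y (p₀ - 1), d x ∈ C)
    (h2 : ∀ x ∈ Z, d x ∈ X (p₀ + 1)) (δ : ℤ) :
    hh (tot deg Q d) (lift deg (TR.mix Y X Z p₀)) (lift deg (TR.mix Y X C p₀)) δ =
      khs deg Q Z C (δ + p₀) := by
  classical
  have hle : ∀ p, TR.mix Y X C p₀ p ≤ TR.mix Y X Z p₀ p := by
    intro p
    rcases lt_trichotomy p p₀ with h | h | h
    · rw [TR.mix_lt h, TR.mix_lt h]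
    · subst h
      rw [TR.mix_eq, TR.mix_eq]
      exact hCZ
    · rw [TR.mix_gt h, TR.mix_gt h]
  have hst := lift_stab' deg Q hQ d _
    (TR.mix_cstab hX hY h1 (fun x hx => h2 x (hCZ hx)))
  -- splitting off the concentrated part
  have hspl : ∀ (e : ℤ) (f : ι → M), f ∈ lift deg (TR.mix Y X Z p₀) e →
      ∃ g ∈ lift deg (conc Z) (e + p₀), (∀ a, deg a = e + p₀ → g a = f a) ∧
        f - g ∈ lift deg (TR.mix Y X C p₀) e := by
    intro e f hf
    rw [tr_mem_lift] at hf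
    refine ⟨fun a => if deg a = e + p₀ then f a else 0, ?_, ?_, ?_⟩
    · rw [TR.mem_lift_conc]
      intro a
      refine ⟨fun h => ?_, fun h => if_neg h⟩
      rw [if_pos h]
      have := hf a
      rwa [show deg a - e = p₀ by omega, TR.mix_eq] at this
    · exact fun a h => if_pos h
    · rw [tr_mem_lift]
      intro a
      rw [Pi.sub_apply]
      by_cases h : deg a = e + p₀
      · rw [if_pos h, sub_self]
        exact zero_mem _
      · rw [if_neg h, sub_zero]
        have := hf a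
        rcases lt_trichotomy (deg a - e) p₀ with h' | h' | h'
        · rwa [TR.mix_lt h'] at this ⊢
        · omega
        · rwa [TR.mix_gt h'] at this ⊢
  -- the differential of a concentrated element
  have hdiff : ∀ (e : ℤ) (g : ι → M), g ∈ lift deg (conc Z) (e + p₀) →
      tot deg Q d g - tot deg Q (0 : M →ₗ[S] M) g ∈ lift deg (TR.mix Y X C p₀) (e - 1) := by
    intro e g hg
    rw [TR.mem_lift_conc] at hg
    rw [tr_mem_lift]
    intro a
    rw [Pi.sub_apply, TR.tot_zero_apply, tr_tot_apply, add_sub_cancel_left]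
    refine zsmul_mem ?_ _
    by_cases h : deg a = e + p₀
    · have h3 := h2 _ ((hg a).1 h)
      rwa [show deg a - (e - 1) = p₀ + 1 by omega, TR.mix_gt (by omega)]
    · rw [(hg a).2 h, map_zero]
      exact zero_mem _
  have hconc : ∀ (e : ℤ) (g : ι → M), g ∈ lift deg (conc C) (e + p₀) →
      g ∈ lift deg (TR.mix Y X C p₀) e := by
    intro e g hg
    rw [TR.mem_lift_conc] at hg
    rw [tr_mem_lift]
    intro a
    by_cases h : deg a = e + p₀
    · rw [show deg a - e = p₀ by omega, TR.mix_eq]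
      exact (hg a).1 h
    · rw [(hg a).2 h]
      exact zero_mem _
  have hconcZ : ∀ (e : ℤ) (g : ι → M), g ∈ lift deg (conc Z) (e + p₀) →
      g ∈ lift deg (TR.mix Y X Z p₀) e := by
    intro e g hg
    rw [TR.mem_lift_conc] at hg
    rw [tr_mem_lift]
    intro a
    by_cases h : deg a = e + p₀
    · rw [show deg a - e = p₀ by omega, TR.mix_eq]
      exact (hg a).1 h
    · rw [(hg a).2 h]
      exact zero_mem _
  have hsupp : ∀ (e : ℤ) (g : ι → M), g ∈ lift deg (TR.mix Y X C p₀) e →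
      (∀ a, deg a ≠ e + p₀ → g a = 0) → g ∈ lift deg (conc C) (e + p₀) := by
    intro e g hg hs
    rw [tr_mem_lift] at hg
    rw [TR.mem_lift_conc]
    intro a
    refine ⟨fun h => ?_, hs a⟩
    have := hg a
    rwa [show deg a - e = p₀ by omega, TR.mix_eq] at this
  set L := lift deg (TR.mix Y X C p₀) δ with hL
  set zz0 := zz (tot deg Q (0 : M →ₗ[S] M)) (lift deg (conc Z)) (lift deg (conc C)) (δ + p₀)
    with hzz0
  set bb0 := bb (tot deg Q (0 : M →ₗ[S] M)) (lift deg (conc Z)) (lift deg (conc C)) (δ + p₀)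
    with hbb0
  have hQsupp : ∀ (i : ℤ) (g : ι → M) (W : Submodule S M), g ∈ lift deg (conc W) i →
      ∀ a, deg a ≠ i - 1 → tot deg Q (0 : M →ₗ[S] M) g a = 0 := by
    intro i g W hg a ha
    rw [TR.mem_lift_conc] at hg
    rw [TR.tot_zero_apply]
    refine Finset.sum_eq_zero fun b _ => ?_
    by_cases hb : Q a b = 0
    · rw [hb, zero_smul]
    · have := hQ.deg_eq a b hb
      rw [(hg b).2 (by omega), smul_zero]
  have ezz : zz (tot deg Q d) (lift deg (TR.mix Y X Z p₀)) (lift deg (TR.mix Y X C p₀)) δ =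
      L ⊔ zz0 := by
    apply le_antisymm
    · intro f hf
      obtain ⟨hf1, hf2⟩ := mem_zz.1 hf
      obtain ⟨g, hg1, hg2, hg3⟩ := hspl δ f hf1
      refine Submodule.mem_sup.2 ⟨f - g, hg3, g, ?_, by abel⟩
      refine mem_zz.2 ⟨hg1, ?_⟩
      have h3 : tot deg Q d (f - g) ∈ lift deg (TR.mix Y X C p₀) (δ - 1) := hst _ _ hg3
      have h4 : tot deg Q (0 : M →ₗ[S] M) g ∈ lift deg (TR.mix Y X C p₀) (δ - 1) := by
        have h5 := sub_mem (sub_mem hf2 h3) (hdiff δ g hg1)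
        rw [map_sub] at h5
        have e5 : tot deg Q d f - (tot deg Q d f - tot deg Q d g) -
            (tot deg Q d g - tot deg Q (0 : M →ₗ[S] M) g) = tot deg Q (0 : M →ₗ[S] M) g := by
          abel
        rwa [e5] at h5
      rw [show δ + p₀ - 1 = δ - 1 + p₀ by ring]
      refine hsupp _ _ h4 fun a ha => ?_
      exact hQsupp _ g Z hg1 a (by omega)
    · refine sup_le (fun f hf => ?_) fun g hg => ?_
      · refine mem_zz.2 ⟨?_, hst _ _ hf⟩
        rw [tr_mem_lift] at hf ⊢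
        exact fun a => hle _ (hf a)
      · obtain ⟨hg1, hg2⟩ := mem_zz.1 hg
        refine mem_zz.2 ⟨hconcZ _ _ hg1, ?_⟩
        rw [show δ + p₀ - 1 = δ - 1 + p₀ by ring] at hg2
        have h3 := add_mem (hdiff δ g hg1) (hconc _ _ hg2)
        rwa [sub_add_cancel] at h3
  have ebb : bb (tot deg Q d) (lift deg (TR.mix Y X Z p₀)) (lift deg (TR.mix Y X C p₀)) δ =
      L ⊔ bb0 := by
    apply le_antisymm
    · intro f hf
      obtain ⟨w, hw, hx⟩ := mem_bb.1 hf
      obtain ⟨g, hg1, hg2, hg3⟩ := hspl (δ + 1) w hw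
      have h3 : tot deg Q d (w - g) ∈ L := by
        have := hst _ _ hg3
        rwa [add_sub_cancel_right] at this
      have h4 : tot deg Q d g - tot deg Q (0 : M →ₗ[S] M) g ∈ L := by
        have := hdiff _ g hg1
        rwa [add_sub_cancel_right] at this
      refine Submodule.mem_sup.2 ⟨f - tot deg Q (0 : M →ₗ[S] M) g, ?_,
        tot deg Q (0 : M →ₗ[S] M) g, ?_, by abel⟩
      · have h5 := add_mem (add_mem hx h3) h4
        rw [map_sub] at h5
        have e5 : f - tot deg Q d w + (tot deg Q d w - tot deg Q d g) +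
            (tot deg Q d g - tot deg Q (0 : M →ₗ[S] M) g) =
            f - tot deg Q (0 : M →ₗ[S] M) g := by abel
        rwa [e5] at h5
      · refine mem_bb.2 ⟨g, ?_, by simp⟩
        rwa [show δ + p₀ + 1 = δ + 1 + p₀ by ring]
    · refine sup_le (fun f hf => ?_) fun f hf => ?_
      · exact mem_bb.2 ⟨0, zero_mem _, by simpa using hf⟩
      · obtain ⟨g, hg, hx⟩ := mem_bb.1 hf
        rw [show δ + p₀ + 1 = δ + 1 + p₀ by ring] at hg
        refine mem_bb.2 ⟨g, hconcZ _ _ hg, ?_⟩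
        have h4 := hdiff _ g hg
        rw [add_sub_cancel_right] at h4
        have h5 := sub_mem (hconc _ _ hx) h4
        have e5 : f - tot deg Q (0 : M →ₗ[S] M) g -
          (tot deg Q d g - tot deg Q (0 : M →ₗ[S] M) g) = f - tot deg Q d g := by abel
        rwa [e5] at h5
  have einf : (L ⊔ bb0) ⊓ zz0 = bb0 ⊓ zz0 := by
    apply le_antisymm
    · rintro x ⟨hx1, hx2⟩
      refine ⟨?_, hx2⟩
      obtain ⟨l, hl, b, hb, rfl⟩ := Submodule.mem_sup.1 hx1
      refine add_mem ?_ hb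
      have h3 : l ∈ lift deg (conc C) (δ + p₀) := by
        refine hsupp _ _ hl fun a ha => ?_
        have h4 := (TR.mem_lift_conc.1 (mem_zz.1 hx2).1 a).2 ha
        obtain ⟨g, hg, hy⟩ := mem_bb.1 hb
        have h5 := (TR.mem_lift_conc.1 hy a).2 ha
        have h6 := hQsupp _ g Z hg a (by omega)
        rw [Pi.sub_apply, h6, sub_zero] at h5
        rw [Pi.add_apply, h5, add_zero] at h4
        exact h4
      exact mem_bb.2 ⟨0, zero_mem _, by simpa using h3⟩
    · exact inf_le_inf_right _ le_sup_right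
  unfold khs
  unfold hh
  rw [ezz, ebb]
  have e7 : L ⊔ bb0 ⊔ (L ⊔ zz0) = L ⊔ bb0 ⊔ zz0 := by
    rw [← sup_assoc, sup_eq_left.2 (le_sup_left : L ≤ L ⊔ bb0)]
  rw [← rl_sup_right (L ⊔ bb0), e7, rl_sup_right, ← rl_inf_left (L ⊔ bb0), einf, rl_inf_left]

/-- TASK T3: homology of the total complex when the rows have cohomology only in degree `p₀`. -/
theorem hh_lift_of_ex (deg : ι → ℤ) (Q : Matrix ι ι S) (hQ : IsCx deg Q) (d : M →ₗ[S] M)
    (hd : ∀ x, d (d x) = 0) (X Y : ℤ → Submodule S M) (hX : CStab d X) (hY : CStab d Y)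
    (hXY : ∀ p, X p ≤ Y p) (p₀ : ℤ) (h : ∀ p, p ≠ p₀ → Ex d Y X p) (δ : ℤ) :
    hh (tot deg Q d) (lift deg Y) (lift deg X) δ =
      khs deg Q (cz d Y X p₀) (cb d Y X p₀) (δ + p₀) := by
  have hcc := TR.cb_le_cz hd hX hY hXY p₀
  have hd1 : ∀ x ∈ Y (p₀ - 1), d x ∈ cb d Y X p₀ := fun x hx =>
    le_sup_left (b := X p₀) ⟨x, hx, rfl⟩
  have hd2 : ∀ x ∈ cz d Y X p₀, d x ∈ X (p₀ + 1) := fun x hx => hx.2
  set T' := TR.mix Y X (cz d Y X p₀) p₀ with hT'
  set B' := TR.mix Y X (cb d Y X p₀) p₀ with hB'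
  have sT : CStab d T' := TR.mix_cstab hX hY (fun x hx => hcc (hd1 x hx)) hd2
  have sB : CStab d B' := TR.mix_cstab hX hY hd1 (fun x hx => hd2 x (hcc hx))
  have hXB : ∀ p, X p ≤ B' p := by
    intro p
    rcases lt_trichotomy p p₀ with h' | h' | h'
    · rw [hB', TR.mix_lt h']
      exact hXY p
    · subst h'
      rw [hB', TR.mix_eq]
      exact le_sup_right
    · rw [hB', TR.mix_gt h']
  have hBT : ∀ p, B' p ≤ T' p := by
    intro p
    rcases lt_trichotomy p p₀ with h' | h' | h'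
    · rw [hB', hT', TR.mix_lt h', TR.mix_lt h']
    · subst h'
      rw [hB', hT', TR.mix_eq, TR.mix_eq]
      exact hcc
    · rw [hB', hT', TR.mix_gt h', TR.mix_gt h']
  have hTY : ∀ p, T' p ≤ Y p := by
    intro p
    rcases lt_trichotomy p p₀ with h' | h' | h'
    · rw [hT', TR.mix_lt h']
    · subst h'
      rw [hT', TR.mix_eq]
      exact inf_le_left
    · rw [hT', TR.mix_gt h']
      exact hXY p
  have exYT : ∀ p, Ex d Y T' p := by
    rintro p x ⟨hx1, hx2⟩
    have hx2' : d x ∈ T' (p + 1) := hx2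
    rcases lt_trichotomy p p₀ with h' | h' | h'
    · refine le_sup_right (a := (Y (p - 1)).map d) ?_
      rw [hT', TR.mix_lt h']
      exact hx1
    · subst h'
      refine le_sup_right (a := (Y (p - 1)).map d) ?_
      rw [hT', TR.mix_eq]
      rw [hT', TR.mix_gt (by omega)] at hx2'
      exact ⟨hx1, hx2'⟩
    · rw [hT', TR.mix_gt (by omega)] at hx2'
      have h3 := h p (by omega) ⟨hx1, hx2'⟩
      have h4 : (Y (p - 1)).map d ⊔ X p ≤ (Y (p - 1)).map d ⊔ T' p := by
        rw [hT', TR.mix_gt h']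
      exact h4 h3
  have exBX : ∀ p, Ex d B' X p := by
    rintro p x ⟨hx1, hx2⟩
    rcases lt_trichotomy p p₀ with h' | h' | h'
    · rw [hB', TR.mix_lt h'] at hx1
      have h3 := h p (by omega) ⟨hx1, hx2⟩
      have h4 : (Y (p - 1)).map d ⊔ X p ≤ (B' (p - 1)).map d ⊔ X p := by
        rw [hB', TR.mix_lt (by omega)]
      exact h4 h3
    · subst h'
      rw [hB', TR.mix_eq] at hx1
      have h4 : (Y (p - 1)).map d ⊔ X p ≤ (B' (p - 1)).map d ⊔ X p := by
        rw [hB', TR.mix_lt (by omega)]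
      exact h4 hx1
    · rw [hB', TR.mix_gt h'] at hx1
      exact le_sup_right (a := (B' (p - 1)).map d) hx1
  have lm : ∀ {P R : ℤ → Submodule S M}, (∀ p, P p ≤ R p) → ∀ δ, lift deg P δ ≤ lift deg R δ := by
    intro P R hPR δ f hf
    rw [tr_mem_lift] at hf ⊢
    exact fun a => hPR _ (hf a)
  have hD := tot_tot' deg Q hQ d hd
  rw [hh_upper hD (lm (fun p => (hXB p).trans (hBT p))) (lm hTY)
      (hh_lift_eq_zero deg Q hQ d hd T' Y sT hY hTY δ fun a => exYT _)
      (hh_lift_eq_zero deg Q hQ d hd T' Y sT hY hTY (δ + 1) fun a => exYT _),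
    hh_lower hD (lift_stab' deg Q hQ d X hX) (lm hXB) (lm hBT)
      (hh_lift_eq_zero deg Q hQ d hd X B' hX sB hXB δ fun a => exBX _)
      (hh_lift_eq_zero deg Q hQ d hd X B' hX sB hXB (δ - 1) fun a => exBX _)]
  exact TR.hh_mix deg Q hQ d Y X _ _ p₀ hX hY hcc hd1 hd2 δ

end T

end Vale.Agent.P202.CharP
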