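import Vale.Agent.P202.CharP.Defs

/-!
P202-CHARP, definitions for the monomial model.

`Lau κ r` is the ring of Laurent polynomials in `Z_0, .., Z_{r-1}, τ`; the polynomial ring
`P = κ[X_0, .., X_r]` acts through `X_l ↦ e_l(Z) τ`.
-/

namespace Vale.Agent.P202.CharP

open Submodule TensorProduct

/-- exponents `(s, j)` of monomials `Z^s τ^j`. -/
abbrev Gx (r : ℕ) : Type := (Fin r → ℤ) × ℤ

/-- Laurent polynomials. -/
def Lau (κ : Type*) [Field κ] (r : ℕ) : Type _ := AddMonoidAlgebra κ (Gx r)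

section

variable (κ : Type*) [Field κ] (r : ℕ)

noncomputable instance : CommRing (Lau κ r) :=
  inferInstanceAs (CommRing (AddMonoidAlgebra κ (Gx r)))

noncomputable instance : Algebra κ (Lau κ r) :=
  inferInstanceAs (Algebra κ (AddMonoidAlgebra κ (Gx r)))

end

variable {κ : Type*} [Field κ] {r : ℕ}

/-- coefficients. -/
noncomputable def cf (f : Lau κ r) (g : Gx r) : κ := AddMonoidAlgebra.coeff f g

/-- monomials. -/
noncomputable def mono (g : Gx r) (c : κ) : Lau κ r := AddMonoidAlgebra.single g c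

lemma cf_add (f f' : Lau κ r) (g : Gx r) : cf (f + f') g = cf f g + cf f' g := rfl

lemma cf_zero (g : Gx r) : cf (0 : Lau κ r) g = 0 := rfl

/-- the exponent of `Z^L τ`. -/
def ex (L : Finset (Fin r)) : Gx r := (fun i => if i ∈ L then 1 else 0, 1)

variable (κ) in
/-- the element `e_l(Z) τ`. -/
noncomputable def xl (l : Fin (r + 1)) : Lau κ r :=
  ∑ L ∈ (Finset.univ : Finset (Fin r)).powersetCard l, mono (ex L) 1

/-- the polynomial ring in `r + 1` variables. -/
abbrev PP (κ : Type*) [Field κ] (r : ℕ) : Type _ := MvPolynomial (Fin (r + 1)) κ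

noncomputable instance : Algebra (PP κ r) (Lau κ r) :=
  (MvPolynomial.aeval (xl κ (r := r))).toRingHom.toAlgebra

lemma algebraMap_X (l : Fin (r + 1)) :
    algebraMap (PP κ r) (Lau κ r) (MvPolynomial.X l) = xl κ l := by
  show MvPolynomial.aeval (xl κ (r := r)) (MvPolynomial.X l) = xl κ l
  simp

/-- the irrelevant ideal of `P`. -/
noncomputable def mX (κ : Type*) [Field κ] (r : ℕ) : Ideal (PP κ r) :=
  Ideal.span (Set.range fun l : Fin (r + 1) => (MvPolynomial.X l : PP κ r))

/-- the ambient module of the Čech complex. -/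
abbrev Lam (κ : Type*) [Field κ] (r : ℕ) : Type _ := Finset (Fin r) → Lau κ r

/-- the largest `P`-submodule of `Lau` all of whose elements are supported in `E`. -/
noncomputable def NMon (κ : Type*) [Field κ] {r : ℕ} (E : Set (Gx r)) : Submodule (PP κ r) (Lau κ r) where
  carrier := {f | ∀ (q : PP κ r) (g : Gx r), cf (q • f) g ≠ 0 → g ∈ E}
  add_mem' := by
    intro f f' hf hf' q g h
    rw [smul_add, cf_add] at h
    by_cases h1 : cf (q • f) g = 0
    · rw [h1, zero_add] at h
      exact hf' q g h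
    · exact hf q g h1
  zero_mem' := by
    intro q g h
    rw [smul_zero] at h
    exact absurd (cf_zero g) h
  smul_mem' := by
    intro c f hf q g h
    rw [smul_smul] at h
    exact hf _ g h

/-- the largest `P`-submodule of `Lam` all of whose elements are supported in `E`. -/
noncomputable def Mon (κ : Type*) [Field κ] {r : ℕ} (E : Set (Finset (Fin r) × Gx r)) :
    Submodule (PP κ r) (Lam κ r) where
  carrier := {f | ∀ (q : PP κ r) (I : Finset (Fin r)) (g : Gx r),
    cf (q • f I) g ≠ 0 → (I, g) ∈ E}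
  add_mem' := by
    intro f f' hf hf' q I g h
    rw [Pi.add_apply, smul_add, cf_add] at h
    by_cases h1 : cf (q • f I) g = 0
    · rw [h1, zero_add] at h
      exact hf' q I g h
    · exact hf q I g h1
  zero_mem' := by
    intro q I g h
    rw [Pi.zero_apply, smul_zero] at h
    exact absurd (cf_zero g) h
  smul_mem' := by
    intro c f hf q I g h
    rw [Pi.smul_apply, smul_smul] at h
    exact hf _ I g h

/-- the set is stable under the monomials `Z^L τ`. -/
def Up (E : Set (Finset (Fin r) × Gx r)) : Prop := ∀ I g L, (I, g) ∈ E → (I, g + ex L) ∈ E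

/-- the set is stable under the monomials `Z^L τ`. -/
def NUp (E : Set (Gx r)) : Prop := ∀ g L, g ∈ E → g + ex L ∈ E

/-- part of Čech degree `p`. -/
def grd (E : Set (Finset (Fin r) × Gx r)) (p : ℤ) : Set (Finset (Fin r) × Gx r) :=
  {x | x ∈ E ∧ (x.1.card : ℤ) = p}

/-- sign of `i` in `I`. -/
def sg (i : Fin r) (I : Finset (Fin r)) : ℤ := (-1) ^ (I.filter (· < i)).card

/-- the Čech differential. -/
noncomputable def dC (κ : Type*) [Field κ] (r : ℕ) : Lam κ r →ₗ[PP κ r] Lam κ r where
  toFun f I := ∑ i ∈ I, sg i I • f (I.erase i)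
  map_add' f f' := by
    ext I
    simp [Finset.sum_add_distrib]
  map_smul' c f := by
    ext I
    simp only [Pi.smul_apply, RingHom.id_apply, Finset.smul_sum]
    exact Finset.sum_congr rfl fun i _ => smul_comm _ _ _

/-- monomials of the modules `F_I`. -/
def SF (r : ℕ) : Set (Finset (Fin r) × Gx r) := {x | ∀ i ∉ x.1, 0 ≤ x.2.1 i}

/-- monomials of the modules `G_I`. -/
def SG (a : Fin r → ℤ) : Set (Finset (Fin r) × Gx r) :=
  {x | x ∈ SF r ∧ ∃ i ∈ x.1, x.2.1 i ≤ a i + x.2.2}

/-- the level `1 - k` of the window filtration. -/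
def SW (a : Fin r → ℤ) (Q k : ℕ) : Set (Finset (Fin r) × Gx r) :=
  {x | x ∈ SG a ∨ (x ∈ SF r ∧ (1 - (k : ℤ)) * Q ≤ x.2.2)}

/-- monomials of the module `N_a`. -/
def SN (a : Fin r → ℤ) : Set (Gx r) := {g | 0 ≤ g.2 ∧ ∀ i, 0 ≤ g.1 i ∧ g.1 i ≤ a i + g.2}

/-- the twist vector `Q • ({0, .., r} \ {m})`. -/
def am (m : Fin (r + 1)) (Q : ℕ) : Fin r → ℤ := fun i => ((m.succAbove i : ℕ) : ℤ) * Q

/-- dimension of the cohomology of the window `-j`. -/
def wc (m : Fin (r + 1)) (Q j : ℕ) : ℕ :=
  ∑ u ∈ Finset.range Q, ∏ i : Fin r, (am m Q i - (j : ℤ) * Q + u + 1).natAbs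

/-- family of `P`-submodules attached to a set of monomials. -/
noncomputable def MF (κ : Type*) [Field κ] {r : ℕ} (E : Set (Finset (Fin r) × Gx r)) (p : ℤ) :
    Submodule (PP κ r) (Lam κ r) := Mon κ (grd E p)

end Vale.Agent.P202.CharP
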