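import Vale.Agent.P202.CharP.DefsF
import Vale.Agent.P202.CharP.TotBasic

/-!
P202-CHARP, tasks K8, K9: in a Cohen-Macaulay local ring the Koszul homology of every system of
parameters vanishes in positive degrees, and every system of parameters is a regular sequence.
-/

namespace Vale.Agent.P202.CharP

open Submodule IsLocalRing
open scoped Pointwise

section KCm

variable {B : Type*} [CommRing B] {M : Type*} [AddCommGroup M] [Module B M]

theorem kcm_mem_conc {ι : Type*} (deg : ι → ℤ) (X : Submodule B M) (i : ℤ) (f : ι → M) :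
    f ∈ lift deg (conc X) i ↔ ∀ a, (deg a = i → f a ∈ X) ∧ (deg a ≠ i → f a = 0) := by
  rw [mem_lift]
  refine forall_congr' fun a => ?_
  unfold conc
  by_cases h : deg a = i
  · simp [h]
  · have : deg a - i ≠ 0 := sub_ne_zero.mpr h
    simp [h, this]

theorem kcm_mem_top {ι : Type*} (deg : ι → ℤ) (i : ℤ) (f : ι → M) :
    f ∈ lift deg (conc (⊤ : Submodule B M)) i ↔ ∀ a, deg a ≠ i → f a = 0 := by
  rw [kcm_mem_conc]
  simp

theorem kcm_mem_bot {ι : Type*} (deg : ι → ℤ) (i : ℤ) (f : ι → M) :
    f ∈ lift deg (conc (⊥ : Submodule B M)) i ↔ f = 0 := by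
  rw [kcm_mem_conc, funext_iff]
  refine forall_congr' fun a => ?_
  simp only [Submodule.mem_bot, Pi.zero_apply]
  tauto

theorem kcm_tot_zero {ι : Type*} [Fintype ι] (deg : ι → ℤ) (Q : Matrix ι ι B) (f : ι → M) :
    tot deg Q (0 : M →ₗ[B] M) f = act Q M f := by
  ext a
  rw [tot_eq]
  simp

/-- vanishing of the Koszul homology in degree `i`, elementwise. -/
def KVan {n : ℕ} (y : Fin n → B) (M : Type*) [AddCommGroup M] [Module B M] (i : ℤ) : Prop :=
  ∀ f : KIdx n → M, (∀ a, kdeg n a ≠ i → f a = 0) → act (kos n y) M f = 0 →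
    ∃ g : KIdx n → M, (∀ a, kdeg n a ≠ i + 1 → g a = 0) ∧ act (kos n y) M g = f

theorem kk_eq_zero_iff {n : ℕ} (y : Fin n → B) (i : ℤ) : kk y M i = 0 ↔ KVan y M i := by
  unfold kk kh khs hh
  rw [rl_eq_zero_iff]
  constructor
  · intro h f hf hf0
    have h1 : f ∈ zz (tot (kdeg n) (kos n y) (0 : M →ₗ[B] M))
        (lift (kdeg n) (conc (⊤ : Submodule B M))) (lift (kdeg n) (conc (⊥ : Submodule B M))) i := by
      refine ⟨(kcm_mem_top _ _ _).mpr hf, ?_⟩
      rw [SetLike.mem_coe, Submodule.mem_comap, kcm_mem_bot, kcm_tot_zero, hf0]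
    have h2 := h h1
    unfold bb at h2
    obtain ⟨u, hu, v, hv, huv⟩ := Submodule.mem_sup.mp h2
    rw [kcm_mem_bot] at hv
    obtain ⟨g, hg, rfl⟩ := hu
    rw [SetLike.mem_coe, kcm_mem_top] at hg
    refine ⟨g, hg, ?_⟩
    rw [← huv, hv, add_zero, kcm_tot_zero]
  · intro h f hf
    obtain ⟨hf1, hf2⟩ := hf
    rw [SetLike.mem_coe, kcm_mem_top] at hf1
    rw [SetLike.mem_coe, Submodule.mem_comap, kcm_mem_bot, kcm_tot_zero] at hf2
    obtain ⟨g, hg, hgf⟩ := h f hf1 hf2
    refine Submodule.mem_sup_left ⟨g, ?_, ?_⟩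
    · rw [SetLike.mem_coe, kcm_mem_top]
      exact hg
    · rw [kcm_tot_zero, hgf]

/-- elements of the ideal `(y)` kill the Koszul homology. -/
theorem kcm_homotopy {n : ℕ} (y : Fin n → B) (c : B) (hc : c ∈ Ideal.span (Set.range y)) :
    ∃ h : Matrix (KIdx n) (KIdx n) B,
    (∀ a b, h a b ≠ 0 → kdeg n a = kdeg n b + 1) ∧ kos n y * h + h * kos n y = c • 1 := by
  obtain ⟨c', hc'⟩ := (Ideal.mem_span_range_iff_exists_fun).mp hc
  choose h h1 h2 using kos_homotopy n y
  refine ⟨∑ l, c' l • h l, ?_, ?_⟩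
  · intro a b hab
    by_contra hne
    apply hab
    rw [Matrix.sum_apply]
    refine Finset.sum_eq_zero fun l _ => ?_
    rw [Matrix.smul_apply]
    by_cases h0 : h l a b = 0
    · rw [h0, smul_zero]
    · exact absurd (h1 l a b h0) hne
  · rw [Finset.mul_sum, Finset.sum_mul, ← Finset.sum_add_distrib, ← hc', Finset.sum_smul]
    refine Finset.sum_congr rfl fun l _ => ?_
    rw [Matrix.mul_smul, Matrix.smul_mul, ← smul_add, h2, smul_smul]

theorem kcm_act_deg {n : ℕ} (y : Fin n → B) {i : ℤ} {f : KIdx n → M}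
    (hf : ∀ a, kdeg n a ≠ i + 1 → f a = 0) (a : KIdx n) (ha : kdeg n a ≠ i) :
    act (kos n y) M f a = 0 := by
  rw [act_apply]
  refine Finset.sum_eq_zero fun b _ => ?_
  by_cases h : kos n y a b = 0
  · rw [h, zero_smul]
  · have := (kos_isCx n y).deg_eq a b h
    rw [hf b (by omega), smul_zero]

theorem kcm_act_h {n : ℕ} (h : Matrix (KIdx n) (KIdx n) B)
    (h1 : ∀ a b, h a b ≠ 0 → kdeg n a = kdeg n b + 1) {i : ℤ} {f : KIdx n → M}
    (hf : ∀ a, kdeg n a ≠ i → f a = 0) (a : KIdx n) (ha : kdeg n a ≠ i + 1) :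
    act h M f a = 0 := by
  rw [act_apply]
  refine Finset.sum_eq_zero fun b _ => ?_
  by_cases h0 : h a b = 0
  · rw [h0, zero_smul]
  · have := h1 a b h0
    rw [hf b (by omega), smul_zero]

theorem kcm_act_act {n : ℕ} (y : Fin n → B) (f : KIdx n → M) :
    act (kos n y) M (act (kos n y) M f) = 0 := by
  rw [← act_mul, (kos_isCx n y).sq, act_zero]

/-- key step: `z` regular on `M`, `H_{i+1}(y; M/zM) = 0`, then `z` is injective on `H_i(y; M)`. -/
theorem kcm_step {n : ℕ} (y : Fin n → B) (z : B) (hz : IsSMulRegular M z) (i : ℤ)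
    (hv : KVan y (QuotSMulTop z M) (i + 1)) (f : KIdx n → M)
    (g : KIdx n → M) (hg : ∀ a, kdeg n a ≠ i + 1 → g a = 0)
    (hfg : act (kos n y) M g = z • f) :
    ∃ u : KIdx n → M, (∀ a, kdeg n a ≠ i + 1 → u a = 0) ∧ act (kos n y) M u = f := by
  let π : M →ₗ[B] QuotSMulTop z M := Submodule.mkQ _
  have hπs : Function.Surjective π := Submodule.mkQ_surjective _
  have hπz : ∀ m : M, π (z • m) = 0 := by
    intro m
    rw [← LinearMap.mem_ker, Submodule.ker_mkQ]
    exact Submodule.smul_mem_pointwise_smul m z ⊤ trivial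
  have hact : ∀ v : KIdx n → M, act (kos n y) (QuotSMulTop z M) (fun a => π (v a)) =
      fun a => π (act (kos n y) M v a) := by
    intro v
    ext a
    simp only [act_apply, map_sum, map_smul]
  obtain ⟨k, hk1, hk2⟩ := hv (fun a => π (g a)) (fun a ha => by rw [hg a ha, map_zero]) (by
    rw [hact, hfg]
    ext a
    exact hπz _)
  choose k' hk' using fun a => hπs (k a)
  let k'' : KIdx n → M := fun a => if kdeg n a = i + 1 + 1 then k' a else 0
  have hk'' : (fun a => π (k'' a)) = k := by
    ext a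
    by_cases h : kdeg n a = i + 1 + 1
    · simp only [k'', h, if_true, hk']
    · simp only [k'', h, if_false, map_zero, hk1 a h]
  have h1 : ∀ a, g a - act (kos n y) M k'' a ∈ (z • ⊤ : Submodule B M) := by
    intro a
    rw [← Submodule.ker_mkQ (z • ⊤ : Submodule B M), LinearMap.mem_ker]
    change π _ = 0
    rw [map_sub, sub_eq_zero]
    have := congrFun hk2 a
    rw [← hk'', hact] at this
    exact this.symm
  have h2 : ∀ a, ∃ m : M, z • m = g a - act (kos n y) M k'' a := by
    intro a
    obtain ⟨m, -, hm⟩ := (Submodule.mem_smul_pointwise_iff_exists _ _ _).mp (h1 a)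
    exact ⟨m, hm⟩
  choose u hu using h2
  have hdeg : ∀ a, kdeg n a ≠ i + 1 → u a = 0 := by
    intro a ha
    have h3 : g a - act (kos n y) M k'' a = 0 := by
      rw [hg a ha, kcm_act_deg y (i := i + 1) (fun b hb => by simp only [k'', hb, if_false]) a ha,
        sub_zero]
    have h4 := hu a
    rw [h3] at h4
    exact hz (h4.trans (smul_zero z).symm)
  refine ⟨u, hdeg, ?_⟩
  have h5 : z • u = g - act (kos n y) M k'' := by
    ext a
    exact hu a
  have h6 : z • act (kos n y) M u = z • f := by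
    rw [← map_smul, h5, map_sub, kcm_act_act, sub_zero, hfg]
  ext a
  exact hz (congrFun h6 a)

theorem kcm_van_of_regular {n : ℕ} (y : Fin n → B) : ∀ (zs : List B),
    (∀ z ∈ zs, ∃ t : ℕ, z ^ t ∈ Ideal.span (Set.range y)) →
    ∀ (M : Type*) [AddCommGroup M] [Module B M],
    RingTheory.Sequence.IsWeaklyRegular M zs → ∀ i : ℤ, (n : ℤ) - zs.length < i → KVan y M i
  | [], _, M, _, _, _, i, hi => by
    intro f hf hf0
    refine ⟨0, fun a _ => rfl, ?_⟩
    rw [map_zero]
    ext a
    have := kdeg_range n a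
    simp only [List.length_nil] at hi
    rw [hf a (by push_cast at hi; omega)]
    rfl
  | z :: zs, hzs, M, _, _, hreg, i, hi => by
    rw [RingTheory.Sequence.isWeaklyRegular_cons_iff] at hreg
    have ih := kcm_van_of_regular y zs (fun w hw => hzs w (List.mem_cons_of_mem _ hw))
      (QuotSMulTop z M) hreg.2 (i + 1) (by
        rw [List.length_cons] at hi
        push_cast at hi
        omega)
    obtain ⟨t, ht⟩ := hzs z List.mem_cons_self
    obtain ⟨h, h1, h2⟩ := kcm_homotopy y _ ht
    intro f hf hf0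
    have key : ∀ s : ℕ, (∃ g : KIdx n → M, (∀ a, kdeg n a ≠ i + 1 → g a = 0) ∧
        act (kos n y) M g = z ^ s • f) →
        ∃ g : KIdx n → M, (∀ a, kdeg n a ≠ i + 1 → g a = 0) ∧ act (kos n y) M g = f := by
      intro s
      induction s with
      | zero => rintro ⟨g, hg, hgf⟩; exact ⟨g, hg, by rw [hgf, pow_zero, one_smul]⟩
      | succ s ihs =>
        rintro ⟨g, hg, hgf⟩
        apply ihs
        refine kcm_step y z hreg.1 i ih (z ^ s • f) g hg ?_
        rw [hgf, smul_smul, pow_succ, mul_comm]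
    refine key t ⟨act h M f, fun a ha => kcm_act_h h h1 hf a ha, ?_⟩
    have h3 : act (kos n y * h + h * kos n y) M f = z ^ t • f := by
      rw [h2, act_smul, act_one]
    rw [act_add, act_mul, act_mul, hf0, map_zero, add_zero] at h3
    exact h3

/-- the index of degree `0`. -/
def kcmBase : ∀ n, KIdx n
  | 0 => PUnit.unit
  | n + 1 => Sum.inl (kcmBase n)

theorem kcm_deg_zero_iff : ∀ (n : ℕ) (a : KIdx n), kdeg n a = 0 ↔ a = kcmBase n
  | 0, a => by
    constructor
    · intro _; exact rfl
    · intro _; rfl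
  | n + 1, Sum.inl a => by
    change kdeg n a = 0 ↔ Sum.inl a = Sum.inl (kcmBase n)
    rw [kcm_deg_zero_iff n a, Sum.inl.injEq]
  | n + 1, Sum.inr a => by
    have := kdeg_range n a
    change kdeg n a + 1 = 0 ↔ Sum.inr a = Sum.inl (kcmBase n)
    constructor
    · intro h; omega
    · intro h; exact absurd h (by simp)

/-- the two components of a family indexed by `KIdx (n + 1)`. -/
def kcmPair {n : ℕ} (u v : KIdx n → M) : KIdx (n + 1) → M := fun a => Sum.elim u v a

theorem kcm_act_pair {n : ℕ} (y : Fin (n + 1) → B) (u v : KIdx n → M) :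
    act (kos (n + 1) y) M (kcmPair u v) =
      kcmPair (act (kos n fun i => y i.succ) M u + y 0 • v)
        (-(act (kos n fun i => y i.succ) M v)) := by
  ext a
  have hs : ∀ F : KIdx n ⊕ KIdx n → M, ∑ b, F b = ∑ b, F (Sum.inl b) + ∑ b, F (Sum.inr b) :=
    fun F => Fintype.sum_sum_type F
  rcases a with a | a
  · change ∑ b : KIdx n ⊕ KIdx n, Matrix.fromBlocks (kos n fun i => y i.succ)
      (y 0 • (1 : Matrix (KIdx n) (KIdx n) B)) 0 (-(kos n fun i => y i.succ)) (Sum.inl a) b •
        kcmPair u v b = _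
    rw [hs]
    change ∑ b, (kos n fun i => y i.succ) a b • u b +
      ∑ b, (y 0 • (1 : Matrix (KIdx n) (KIdx n) B)) a b • v b =
      act (kos n fun i => y i.succ) M u a + y 0 • v a
    rw [act_apply]
    congr 1
    simp [Matrix.one_apply]
  · change ∑ b : KIdx n ⊕ KIdx n, Matrix.fromBlocks (kos n fun i => y i.succ)
      (y 0 • (1 : Matrix (KIdx n) (KIdx n) B)) 0 (-(kos n fun i => y i.succ)) (Sum.inr a) b •
        kcmPair u v b = _
    rw [hs]
    change ∑ b, (0 : Matrix (KIdx n) (KIdx n) B) a b • u b +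
      ∑ b, (-(kos n fun i => y i.succ)) a b • v b =
      -(act (kos n fun i => y i.succ) M v a)
    rw [act_apply]
    simp

omit [AddCommGroup M] in
theorem kcm_pair_eta {n : ℕ} (f : KIdx (n + 1) → M) :
    kcmPair (fun a => f (Sum.inl a)) (fun a => f (Sum.inr a)) = f := by
  ext a
  rcases a with a | a <;> rfl

/-- elements of `(y)M` in degree `0` are boundaries. -/
theorem kcm_bd_zero : ∀ {n : ℕ} (y : Fin n → B) (m : M),
    m ∈ (Ideal.span (Set.range y) • (⊤ : Submodule B M)) →
    ∃ f : KIdx n → M, (∀ a, kdeg n a ≠ 1 → f a = 0) ∧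
      act (kos n y) M f = Pi.single (kcmBase n) m
  | 0, y, m, hm => by
    have h0 : Ideal.span (Set.range y) = ⊥ := by
      rw [Ideal.span_eq_bot]
      rintro _ ⟨i, -⟩
      exact i.elim0
    rw [h0, Submodule.bot_smul, Submodule.mem_bot] at hm
    refine ⟨0, fun _ _ => rfl, ?_⟩
    rw [hm, map_zero, Pi.single_zero]
  | n + 1, y, m, hm => by
    have h0 : Ideal.span (Set.range y) =
        Ideal.span {y 0} ⊔ Ideal.span (Set.range fun i : Fin n => y i.succ) := by
      rw [← Ideal.span_union]
      congr 1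
      ext x
      simp only [Set.mem_range, Set.mem_union, Set.mem_singleton_iff, Fin.exists_fin_succ,
        eq_comm]
    rw [h0, Submodule.sup_smul] at hm
    obtain ⟨m₁, hm₁, m₂, hm₂, rfl⟩ := Submodule.mem_sup.mp hm
    rw [Submodule.ideal_span_singleton_smul] at hm₁
    obtain ⟨x, -, rfl⟩ := (Submodule.mem_smul_pointwise_iff_exists _ _ _).mp hm₁
    obtain ⟨f, hf, hfm⟩ := kcm_bd_zero (fun i => y i.succ) m₂ hm₂
    refine ⟨kcmPair f (Pi.single (kcmBase n) x), ?_, ?_⟩
    · rintro (a | a) ha
      · exact hf a ha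
      · change (Pi.single (kcmBase n) x : KIdx n → M) a = 0
        have : a ≠ kcmBase n := by
          intro h
          apply ha
          change kdeg n a + 1 = 1
          rw [(kcm_deg_zero_iff n a).mpr h, zero_add]
        rw [Pi.single_eq_of_ne this]
    · rw [kcm_act_pair, hfm]
      have h3 : act (kos n fun i => y i.succ) M (Pi.single (kcmBase n) x) = 0 := by
        ext a
        have := kdeg_range n a
        refine kcm_act_deg (fun i : Fin n => y i.succ) (i := -1) (fun b hb => ?_) a (by omega)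
        rw [Pi.single_eq_of_ne]
        intro h
        apply hb
        rw [(kcm_deg_zero_iff n b).mpr h]
        norm_num
      rw [h3]
      ext a
      rcases a with a | a
      · change (Pi.single (kcmBase n) m₂ : KIdx n → M) a +
          y 0 • (Pi.single (kcmBase n) x : KIdx n → M) a =
          (Pi.single (Sum.inl (kcmBase n)) (y 0 • x + m₂) : KIdx n ⊕ KIdx n → M) (Sum.inl a)
        by_cases h : a = kcmBase n
        · subst h
          simp [add_comm]
        · have h' : (Sum.inl a : KIdx n ⊕ KIdx n) ≠ Sum.inl (kcmBase n) := by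
            simpa using h
          rw [Pi.single_eq_of_ne h, Pi.single_eq_of_ne h, Pi.single_eq_of_ne h', smul_zero,
            add_zero]
      · change -(0 : KIdx n → M) a =
          (Pi.single (Sum.inl (kcmBase n)) (y 0 • x + m₂) : KIdx n ⊕ KIdx n → M) (Sum.inr a)
        rw [Pi.single_eq_of_ne (by simp)]
        simp

theorem kcm_kos_mem : ∀ {n : ℕ} (y : Fin n → B) (a b : KIdx n),
    kos n y a b ∈ Ideal.span (Set.range y)
  | 0, y, a, b => by
    change (0 : Matrix (KIdx 0) (KIdx 0) B) a b ∈ _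
    rw [Matrix.zero_apply]
    exact Ideal.zero_mem _
  | n + 1, y, a, b => by
    have hle : Ideal.span (Set.range fun i : Fin n => y i.succ) ≤ Ideal.span (Set.range y) := by
      refine Ideal.span_mono ?_
      rintro _ ⟨i, rfl⟩
      exact ⟨i.succ, rfl⟩
    rcases a with a | a <;> rcases b with b | b
    · exact hle (kcm_kos_mem (fun i => y i.succ) a b)
    · change (y 0 • (1 : Matrix (KIdx n) (KIdx n) B)) a b ∈ _
      rw [Matrix.smul_apply, smul_eq_mul]
      exact Ideal.mul_mem_right _ _ (Ideal.subset_span ⟨0, rfl⟩)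
    · change (0 : Matrix (KIdx n) (KIdx n) B) a b ∈ _
      rw [Matrix.zero_apply]
      exact Ideal.zero_mem _
    · change (-(kos n fun i => y i.succ)) a b ∈ _
      rw [Matrix.neg_apply]
      exact Ideal.neg_mem_iff _ |>.mpr (hle (kcm_kos_mem (fun i => y i.succ) a b))

/-- boundaries in degree `0` lie in `(y)M`. -/
theorem kcm_act_mem {n : ℕ} (y : Fin n → B) (f : KIdx n → M) (a : KIdx n) :
    act (kos n y) M f a ∈ (Ideal.span (Set.range y) • (⊤ : Submodule B M)) := by
  rw [act_apply]
  refine Submodule.sum_mem _ fun b _ => Submodule.smul_mem_smul ?_ trivial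
  exact kcm_kos_mem y a b

/-- `H_1(y; M) = 0` implies that `y` is weakly regular on `M`. -/
theorem kcm_regular_of_van [IsLocalRing B] [IsNoetherianRing B] : ∀ {n : ℕ} (y : Fin n → B),
    (∀ i, y i ∈ maximalIdeal B) → ∀ (M : Type*) [AddCommGroup M] [Module B M] [Module.Finite B M],
    KVan y M 1 → RingTheory.Sequence.IsWeaklyRegular M (List.ofFn y)
  | 0, y, _, M, _, _, _, _ => by
    rw [List.ofFn_zero]
    exact RingTheory.Sequence.IsWeaklyRegular.nil B M
  | n + 1, y, hy, M, _, _, _, hv => by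
    set y' : Fin n → B := fun i => y i.succ with hy'
    -- cycles and boundaries of `y'` in degree `1`
    let Z : Submodule B (KIdx n → M) :=
      lift (kdeg n) (conc (⊤ : Submodule B M)) 1 ⊓ LinearMap.ker (act (kos n y') M)
    let Bd : Submodule B (KIdx n → M) :=
      (lift (kdeg n) (conc (⊤ : Submodule B M)) 2).map (act (kos n y') M)
    have hZ : Z ≤ Bd ⊔ maximalIdeal B • Z := by
      intro f hf
      have hf1 : ∀ a, kdeg n a ≠ 1 → f a = 0 := (kcm_mem_top _ _ _).mp hf.1
      have hf2 : act (kos n y') M f = 0 := hf.2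
      obtain ⟨g, hg, hgf⟩ := hv (kcmPair f 0) (by
        rintro (a | a) ha
        · exact hf1 a ha
        · rfl) (by
        rw [kcm_act_pair, hf2, smul_zero, add_zero, map_zero, neg_zero]
        ext a
        rcases a with a | a <;> rfl)
      rw [← kcm_pair_eta g, kcm_act_pair] at hgf
      set g₁ : KIdx n → M := fun a => g (Sum.inl a)
      set g₂ : KIdx n → M := fun a => g (Sum.inr a)
      have h1 : act (kos n y') M g₁ + y 0 • g₂ = f := by
        ext a
        exact congrFun hgf (Sum.inl a)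
      have h2 : act (kos n y') M g₂ = 0 := by
        ext a
        have := congrFun hgf (Sum.inr a)
        change -(act (kos n y') M g₂ a) = 0 at this
        exact neg_eq_zero.mp this
      rw [← h1]
      refine Submodule.add_mem_sup ⟨g₁, ?_, rfl⟩ (Submodule.smul_mem_smul (hy 0) ⟨?_, h2⟩)
      · rw [SetLike.mem_coe, kcm_mem_top]
        intro a ha
        refine hg (Sum.inl a) ?_
        change kdeg n a ≠ 1 + 1
        norm_num
        exact ha
      · rw [SetLike.mem_coe, kcm_mem_top]
        intro a ha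
        refine hg (Sum.inr a) ?_
        change kdeg n a + 1 ≠ 1 + 1
        intro h
        exact ha (by omega)
    have hZB : Z ≤ Bd := by
      have : IsNoetherian B (KIdx n → M) := inferInstance
      exact Submodule.le_of_le_smul_of_le_jacobson_bot (IsNoetherian.noetherian Z)
        (IsLocalRing.maximalIdeal_le_jacobson ⊥) hZ
    have hv' : KVan y' M 1 := by
      intro f hf hf0
      obtain ⟨g, hg, hgf⟩ := hZB (show f ∈ Z from ⟨(kcm_mem_top _ _ _).mpr hf, hf0⟩)
      exact ⟨g, (kcm_mem_top _ _ _).mp hg, hgf⟩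
    have ih := kcm_regular_of_van y' (fun i => hy i.succ) M hv'
    have hspan : Ideal.ofList (List.ofFn y') = Ideal.span (Set.range y') := by
      unfold Ideal.ofList
      congr 1
      ext x
      rw [Set.mem_ofPred_eq, List.mem_ofFn]
      rfl
    have hlast : IsSMulRegular
        (M ⧸ (Ideal.ofList (List.ofFn y') • (⊤ : Submodule B M))) (y 0) := by
      rw [isSMulRegular_iff_right_eq_zero_of_smul]
      intro x hx
      obtain ⟨x, rfl⟩ := Submodule.Quotient.mk_surjective _ x
      rw [← Submodule.Quotient.mk_smul, Submodule.Quotient.mk_eq_zero, hspan] at hx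
      rw [Submodule.Quotient.mk_eq_zero, hspan]
      obtain ⟨f, hf, hfx⟩ := kcm_bd_zero y' (y 0 • x) hx
      obtain ⟨g, hg, hgf⟩ := hv (kcmPair (-f) (Pi.single (kcmBase n) x)) (by
        rintro (a | a) ha
        · change -(f a) = 0
          rw [hf a ha, neg_zero]
        · change (Pi.single (kcmBase n) x : KIdx n → M) a = 0
          rw [Pi.single_eq_of_ne]
          intro h
          apply ha
          change kdeg n a + 1 = 1
          rw [(kcm_deg_zero_iff n a).mpr h, zero_add]) (by
        have h3 : act (kos n y') M (Pi.single (kcmBase n) x) = 0 := by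
          ext a
          have := kdeg_range n a
          refine kcm_act_deg y' (i := -1) (fun b hb => ?_) a (by omega)
          rw [Pi.single_eq_of_ne]
          intro h
          apply hb
          rw [(kcm_deg_zero_iff n b).mpr h]
          norm_num
        rw [kcm_act_pair, map_neg, hfx, h3, neg_zero, Pi.single_smul, neg_add_cancel]
        ext a
        rcases a with a | a <;> rfl)
      rw [← kcm_pair_eta g, kcm_act_pair] at hgf
      have h4 := congrFun hgf (Sum.inr (kcmBase n))
      change -(act (kos n y') M (fun a => g (Sum.inr a)) (kcmBase n)) =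
        (Pi.single (kcmBase n) x : KIdx n → M) (kcmBase n) at h4
      rw [Pi.single_eq_same] at h4
      rw [← h4]
      exact Submodule.neg_mem _ (kcm_act_mem y' _ _)
    have happ : RingTheory.Sequence.IsWeaklyRegular M (List.ofFn y' ++ [y 0]) := by
      rw [RingTheory.Sequence.isWeaklyRegular_append_iff]
      exact ⟨ih, (RingTheory.Sequence.isWeaklyRegular_singleton_iff _ _).mpr hlast⟩
    refine IsLocalRing.isWeaklyRegular_of_perm_of_subset_maximalIdeal happ ?_ ?_
    · rw [List.ofFn_succ]
      exact List.perm_append_singleton (y 0) (List.ofFn y')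
    · intro r hr
      rw [List.mem_append, List.mem_ofFn, List.mem_singleton] at hr
      rcases hr with ⟨i, rfl⟩ | rfl
      · exact hy i.succ
      · exact hy 0

theorem kcm_exists_pow [IsLocalRing B] [IsNoetherianRing B] {n : ℕ} (y : Fin n → B)
    (hyl : Module.length B (B ⧸ Ideal.span (Set.range y)) ≠ ⊤) (z : B)
    (hz : z ∈ maximalIdeal B) : ∃ t : ℕ, z ^ t ∈ Ideal.span (Set.range y) := by
  have hart : IsArtinian B (B ⧸ Ideal.span (Set.range y)) :=
    (isFiniteLength_iff_isNoetherian_isArtinian.mp (Module.length_ne_top_iff.mp hyl)).2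
  obtain ⟨t, c, hc⟩ := IsArtinian.exists_pow_succ_smul_dvd z
    (Submodule.Quotient.mk (1 : B) : B ⧸ Ideal.span (Set.range y))
  obtain ⟨c, rfl⟩ := Submodule.Quotient.mk_surjective _ c
  rw [← Submodule.Quotient.mk_smul, ← Submodule.Quotient.mk_smul, Submodule.Quotient.eq] at hc
  refine ⟨t, ?_⟩
  have hu : IsUnit (z * c - 1) := by
    have h1 : IsUnit (1 - z * c) :=
      (IsLocalRing.notMem_maximalIdeal).mp fun h => by
        have h2 : (1 : B) ∈ maximalIdeal B := by
          have := Ideal.add_mem _ h (Ideal.mul_mem_right c _ hz)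
          simpa using this
        exact (Ideal.ne_top_iff_one _).mp (IsLocalRing.maximalIdeal.isMaximal B).ne_top h2
    rw [← neg_sub]
    exact h1.neg
  have h3 : z ^ t.succ • c - z ^ t • (1 : B) = (z * c - 1) * z ^ t := by
    rw [smul_eq_mul, smul_eq_mul, Nat.succ_eq_add_one, pow_succ]
    ring
  rw [h3] at hc
  exact (Ideal.unit_mul_mem_iff_mem _ hu).mp hc

theorem kcm_van [IsLocalRing B] [IsNoetherianRing B] {n : ℕ} (z y : Fin n → B)
    (hz : ∀ i, z i ∈ maximalIdeal B)
    (hreg : RingTheory.Sequence.IsWeaklyRegular B (List.ofFn z))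
    (hyl : Module.length B (B ⧸ Ideal.span (Set.range y)) ≠ ⊤) (i : ℤ) (hi : 1 ≤ i) :
    KVan y B i := by
  refine kcm_van_of_regular y (List.ofFn z) ?_ B hreg i ?_
  · intro w hw
    obtain ⟨j, rfl⟩ := (List.mem_ofFn' _ _).mp hw
    exact kcm_exists_pow y hyl _ (hz j)
  · rw [List.length_ofFn]
    omega

/-- TASK K8: in a Cohen-Macaulay ring the Koszul homology of every system of parameters
vanishes. -/
theorem kk_eq_zero_of_cm [IsNoetherianRing B] [IsLocalRing B] {n : ℕ} (z y : Fin n → B)
    (hz : ∀ i, z i ∈ maximalIdeal B) (hy : ∀ i, y i ∈ maximalIdeal B)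
    (hreg : RingTheory.Sequence.IsWeaklyRegular B (List.ofFn z))
    (hzl : Module.length B (B ⧸ Ideal.span (Set.range z)) ≠ ⊤)
    (hyl : Module.length B (B ⧸ Ideal.span (Set.range y)) ≠ ⊤) (i : ℤ) (hi : 1 ≤ i) :
    kk y B i = 0 :=
  (kk_eq_zero_iff y i).mpr (kcm_van z y hz hreg hyl i hi)

/-- TASK K9: ... and every system of parameters is a regular sequence. -/
theorem regular_of_cm [IsNoetherianRing B] [IsLocalRing B] {n : ℕ} (z y : Fin n → B)
    (hz : ∀ i, z i ∈ maximalIdeal B) (hy : ∀ i, y i ∈ maximalIdeal B)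
    (hreg : RingTheory.Sequence.IsWeaklyRegular B (List.ofFn z))
    (hzl : Module.length B (B ⧸ Ideal.span (Set.range z)) ≠ ⊤)
    (hyl : Module.length B (B ⧸ Ideal.span (Set.range y)) ≠ ⊤) :
    RingTheory.Sequence.IsWeaklyRegular B (List.ofFn y) :=
  kcm_regular_of_van y hy B (kcm_van z y hz hreg hyl 1 le_rfl)

end KCm

end Vale.Agent.P202.CharP
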