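import Vale.Agent.P202.CharP.DefsM

/-!
P202-CHARP, tasks M0 and M1: membership in monomial submodules, stability of the sets of
monomials, the Čech differential.
-/

namespace Vale.Agent.P202.CharP

open Submodule TensorProduct

variable {κ : Type*} [Field κ] {r : ℕ}

/-! ### coefficients -/

theorem mb_cf_mono_mul (h : Gx r) (c : κ) (f : Lau κ r) (g : Gx r) :
    cf (mono h c * f) g = c * cf f (g - h) := by
  have := AddMonoidAlgebra.coeff_single_mul_apply (R := κ) (G := Gx r) f c h g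
  rw [neg_add_eq_sub] at this
  exact this

theorem mb_cf_sum {ι : Type*} (s : Finset ι) (f : ι → Lau κ r) (g : Gx r) :
    cf (∑ i ∈ s, f i) g = ∑ i ∈ s, cf (f i) g := by
  classical
  induction s using Finset.induction_on with
  | empty => simp [cf_zero]
  | insert a s ha ih => rw [Finset.sum_insert ha, Finset.sum_insert ha, cf_add, ih]

theorem mb_cf_neg (f : Lau κ r) (g : Gx r) : cf (-f) g = -cf f g := by
  have h := cf_add f (-f) g
  rw [add_neg_cancel, cf_zero] at h
  exact (neg_eq_of_add_eq_zero_right h.symm).symm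

theorem mb_cf_smul (c : κ) (f : Lau κ r) (g : Gx r) : cf (c • f) g = c * cf f g := rfl

theorem mb_cf_zsmul (c : ℤ) (f : Lau κ r) (g : Gx r) : cf (c • f) g = c • cf f g := by
  induction c using Int.induction_on with
  | zero => simp [cf_zero]
  | succ n ih => rw [add_smul, add_smul, cf_add, ih, one_smul, one_smul]
  | pred n ih => rw [sub_smul, sub_smul, sub_eq_add_neg, cf_add, mb_cf_neg, ih, one_smul, one_smul,
      sub_eq_add_neg]

theorem mb_lau_ext {f f' : Lau κ r} (h : ∀ g, cf f g = cf f' g) : f = f' := by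
  have : AddMonoidAlgebra.coeff (R := κ) (M := Gx r) f = AddMonoidAlgebra.coeff f' := by
    ext g
    exact h g
  exact (AddMonoidAlgebra.coeffEquiv (R := κ) (M := Gx r)).injective this

/-- the coefficients of `X_l • f`. -/
theorem mb_cf_X_smul (l : Fin (r + 1)) (f : Lau κ r) (g : Gx r) :
    cf ((MvPolynomial.X l : PP κ r) • f) g =
      ∑ L ∈ (Finset.univ : Finset (Fin r)).powersetCard l, cf f (g - ex L) := by
  rw [Algebra.smul_def, algebraMap_X, xl, Finset.sum_mul, mb_cf_sum]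
  refine Finset.sum_congr rfl fun L _ => ?_
  rw [mb_cf_mono_mul, one_mul]

/-- the support of `q • f` is inside the closure of the support of `f` under the monomials. -/
theorem mb_support_smul {E : Set (Gx r)} (hE : NUp E) (q : PP κ r) :
    ∀ f : Lau κ r, (∀ g, cf f g ≠ 0 → g ∈ E) → ∀ g, cf (q • f) g ≠ 0 → g ∈ E := by
  induction q using MvPolynomial.induction_on with
  | C c =>
    intro f hf g hg
    refine hf g fun h0 => hg ?_
    have : (MvPolynomial.C c : PP κ r) • f = c • f := by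
      rw [Algebra.smul_def, Algebra.smul_def]
      congr 1
      change MvPolynomial.aeval (xl κ (r := r)) (MvPolynomial.C c) = _
      rw [MvPolynomial.aeval_C]
    rw [this, mb_cf_smul, h0, mul_zero]
  | add p q hp hq =>
    intro f hf g hg
    rw [add_smul, cf_add] at hg
    by_cases h1 : cf (p • f) g = 0
    · rw [h1, zero_add] at hg
      exact hq f hf g hg
    · exact hp f hf g h1
  | mul_X p l hp =>
    intro f hf g hg
    rw [mul_smul] at hg
    refine hp _ (fun g' hg' => ?_) g hg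
    rw [mb_cf_X_smul] at hg'
    obtain ⟨L, _, hL⟩ := Finset.exists_ne_zero_of_sum_ne_zero hg'
    have := hE _ L (hf _ hL)
    rwa [sub_add_cancel] at this

/-- TASK M0: membership for stable sets of monomials. -/
theorem mem_Mon {E : Set (Finset (Fin r) × Gx r)} (hE : Up E) (f : Lam κ r) :
    f ∈ Mon κ E ↔ ∀ I g, cf (f I) g ≠ 0 → (I, g) ∈ E := by
  constructor
  · intro h I g hg
    exact h 1 I g (by rwa [one_smul])
  · intro h q I g hg
    exact mb_support_smul (E := {g | (I, g) ∈ E}) (fun g' L hg' => hE I g' L hg') q (f I)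
      (fun g' hg' => h I g' hg') g hg

/-- TASK M0. -/
theorem mem_NMon {E : Set (Gx r)} (hE : NUp E) (f : Lau κ r) :
    f ∈ NMon κ E ↔ ∀ g, cf f g ≠ 0 → g ∈ E := by
  constructor
  · intro h g hg
    exact h 1 g (by rwa [one_smul])
  · intro h q g hg
    exact mb_support_smul hE q f h g hg

/-! ### stable sets -/

theorem mb_ex_fst_nonneg (L : Finset (Fin r)) (i : Fin r) : 0 ≤ (ex L).1 i := by
  unfold ex
  dsimp only
  split_ifs <;> norm_num

theorem mb_ex_fst_le (L : Finset (Fin r)) (i : Fin r) : (ex L).1 i ≤ 1 := by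
  unfold ex
  dsimp only
  split_ifs <;> norm_num

theorem mb_ex_snd (L : Finset (Fin r)) : (ex L).2 = 1 := rfl

/-- TASK M0. -/
theorem up_SF : Up (SF r) := by
  intro I g L h i hi
  have h1 := h i hi
  have h2 := mb_ex_fst_nonneg L i
  change 0 ≤ g.1 i + (ex L).1 i
  change 0 ≤ g.1 i at h1
  omega

/-- TASK M0. -/
theorem up_SG (a : Fin r → ℤ) : Up (SG a) := by
  rintro I g L ⟨h, i, hi, h1⟩
  refine ⟨up_SF I g L h, i, hi, ?_⟩
  have h2 := mb_ex_fst_le L i
  have h3 := mb_ex_snd L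
  change g.1 i + (ex L).1 i ≤ a i + (g.2 + (ex L).2)
  change g.1 i ≤ a i + g.2 at h1
  omega

/-- TASK M0. -/
theorem up_SW (a : Fin r → ℤ) (Q k : ℕ) : Up (SW a Q k) := by
  rintro I g L (h | ⟨h, h1⟩)
  · exact Or.inl (up_SG a I g L h)
  · refine Or.inr ⟨up_SF I g L h, ?_⟩
    have h3 := mb_ex_snd L
    change (1 - (k : ℤ)) * Q ≤ g.2 + (ex L).2
    change (1 - (k : ℤ)) * Q ≤ g.2 at h1
    rw [h3]
    linarith

/-- TASK M0. -/
theorem up_grd {E : Set (Finset (Fin r) × Gx r)} (hE : Up E) (p : ℤ) : Up (grd E p) := by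
  rintro I g L ⟨h, h1⟩
  exact ⟨hE I g L h, h1⟩

/-- TASK M0. -/
theorem nup_SN (a : Fin r → ℤ) : NUp (SN a) := by
  rintro g L ⟨h, h1⟩
  refine ⟨?_, fun i => ⟨?_, ?_⟩⟩
  · have h3 := mb_ex_snd L
    change 0 ≤ g.2 + (ex L).2
    omega
  · have h2 := mb_ex_fst_nonneg L i
    have := (h1 i).1
    change 0 ≤ g.1 i + (ex L).1 i
    omega
  · have h2 := mb_ex_fst_le L i
    have h3 := mb_ex_snd L
    have := (h1 i).2
    change g.1 i + (ex L).1 i ≤ a i + (g.2 + (ex L).2)
    omega

/-! ### the Čech differential -/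

theorem mb_dC_apply (f : Lam κ r) (I : Finset (Fin r)) :
    dC κ r f I = ∑ i ∈ I, sg i I • f (I.erase i) := rfl

theorem mb_sg_swap_aux {I : Finset (Fin r)} {i j : Fin r} (hi : i ∈ I) (hij : i < j) :
    sg i I * sg j (I.erase i) + sg j I * sg i (I.erase j) = 0 := by
  unfold sg
  have h1 : ((I.erase j).filter (· < i)) = I.filter (· < i) := by
    ext k
    simp only [Finset.mem_filter, Finset.mem_erase]
    constructor
    · rintro ⟨⟨_, h⟩, h'⟩; exact ⟨h, h'⟩
    · rintro ⟨h, h'⟩; exact ⟨⟨(h'.trans hij).ne, h⟩, h'⟩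
  have h2 : (I.filter (· < j)) = insert i ((I.erase i).filter (· < j)) := by
    ext k
    simp only [Finset.mem_filter, Finset.mem_erase, Finset.mem_insert]
    constructor
    · rintro ⟨h, h'⟩
      by_cases hk : k = i
      · exact Or.inl hk
      · exact Or.inr ⟨⟨hk, h⟩, h'⟩
    · rintro (rfl | ⟨⟨_, h⟩, h'⟩)
      · exact ⟨hi, hij⟩
      · exact ⟨h, h'⟩
  rw [h1, h2, Finset.card_insert_of_notMem (by simp)]
  ring

theorem mb_sg_swap {I : Finset (Fin r)} {i j : Fin r} (hi : i ∈ I) (hj : j ∈ I) (hij : i ≠ j) :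
    sg i I * sg j (I.erase i) + sg j I * sg i (I.erase j) = 0 := by
  rcases lt_or_gt_of_ne hij with h | h
  · exact mb_sg_swap_aux hi h
  · rw [add_comm]; exact mb_sg_swap_aux hj h

/-- TASK M1. -/
theorem dC_dC (f : Lam κ r) : dC κ r (dC κ r f) = 0 := by
  funext I
  rw [mb_dC_apply, Pi.zero_apply]
  simp only [mb_dC_apply, Finset.smul_sum, smul_smul]
  rw [Finset.sum_sigma']
  refine Finset.sum_involution (fun x _ => (⟨x.2, x.1⟩ : Σ _ : Fin r, Fin r)) ?_ ?_ ?_ ?_
  · rintro ⟨i, j⟩ hx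
    simp only [Finset.mem_sigma, Finset.mem_erase] at hx
    obtain ⟨hi, hji, hj⟩ := hx
    dsimp only
    rw [Finset.erase_right_comm (a := j) (b := i), ← add_smul, mb_sg_swap hi hj hji.symm, zero_smul]
  · rintro ⟨i, j⟩ hx _ h
    simp only [Finset.mem_sigma, Finset.mem_erase] at hx
    simp only [Sigma.mk.injEq, heq_eq_eq] at h
    exact hx.2.1 h.1
  · rintro ⟨i, j⟩ hx
    simp only [Finset.mem_sigma, Finset.mem_erase] at hx ⊢
    exact ⟨hx.2.2, fun h => hx.2.1 h.symm, hx.1⟩
  · rintro ⟨i, j⟩ hx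
    rfl

/-- TASK M1. -/
theorem cstab_MF {E : Set (Finset (Fin r) × Gx r)} (hE : Up E)
    (hE' : ∀ I g i, (I, g) ∈ E → i ∉ I → (insert i I, g) ∈ E) : CStab (dC κ r) (MF κ E) := by
  intro p f hf
  rw [MF, mem_Mon (up_grd hE _)] at hf ⊢
  intro I g hg
  rw [mb_dC_apply, mb_cf_sum] at hg
  obtain ⟨i, hi, h1⟩ := Finset.exists_ne_zero_of_sum_ne_zero hg
  have h2 : cf (f (I.erase i)) g ≠ 0 := by
    intro h0
    apply h1
    rw [mb_cf_zsmul, h0, smul_zero]
  obtain ⟨h3, h4⟩ := hf _ _ h2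
  have h5 := hE' _ _ i h3 (Finset.notMem_erase i I)
  rw [Finset.insert_erase hi] at h5
  refine ⟨h5, ?_⟩
  change ((I.erase i).card : ℤ) = p at h4
  change (I.card : ℤ) = p + 1
  have := Finset.card_erase_add_one hi
  rw [← this]
  push_cast
  rw [h4]

end Vale.Agent.P202.CharP
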