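import Vale.Agent.P202.CharP.DefsM

/-!
P202-CHARP, windows: `κ`-linear structure and lengths of nilpotent modules.
-/

namespace Vale.Agent.P202.CharP.WinAux

open Submodule

section len

variable {κ : Type*} [Field κ] {r : ℕ}

/-- for a module killed by the variables the length is the dimension. -/
theorem length_eq_of_killed (M : Type*) [AddCommGroup M] [Module (PP κ r) M] [Module κ M]
    [IsScalarTower κ (PP κ r) M] (h : ∀ (l : Fin (r + 1)) (x : M),
      (MvPolynomial.X l : PP κ r) • x = 0) :
    Module.length (PP κ r) M = Module.length κ M := by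
  letI : Algebra (PP κ r) κ := (MvPolynomial.constantCoeff (R := κ) (σ := Fin (r + 1))).toAlgebra
  have key : ∀ (p : PP κ r) (x : M), p • x = (MvPolynomial.constantCoeff p : κ) • x := by
    intro p x
    induction p using MvPolynomial.induction_on generalizing x with
    | C c =>
      rw [MvPolynomial.constantCoeff_C]
      have : (MvPolynomial.C c : PP κ r) = c • (1 : PP κ r) := by
        rw [MvPolynomial.smul_eq_C_mul, mul_one]
      rw [this, smul_assoc, one_smul]
    | add p q hp hq => rw [add_smul, hp, hq, map_add, add_smul]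
    | mul_X p l hp => rw [mul_smul, h, smul_zero, map_mul, MvPolynomial.constantCoeff_X, mul_zero,
        zero_smul]
  haveI : IsScalarTower (PP κ r) κ M := ⟨fun p c x => by
    rw [key p (c • x), ← mul_smul]
    rfl⟩
  exact Module.length_eq_of_surjective (R := κ) (S := PP κ r) (M := M) (fun c =>
    ⟨MvPolynomial.C c, MvPolynomial.constantCoeff_C _ c⟩)

/-- for a module killed by a power of the ideal of the variables the length is the dimension. -/
theorem length_eq_of_nilpotent (n : ℕ) : ∀ (M : Type*) [AddCommGroup M] [Module (PP κ r) M]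
    [Module κ M] [IsScalarTower κ (PP κ r) M],
    (∀ p ∈ (mX κ r) ^ n, ∀ x : M, p • x = 0) →
    Module.length (PP κ r) M = Module.length κ M := by
  induction n with
  | zero =>
    intro M _ _ _ _ h
    haveI : Subsingleton M := ⟨fun x y => by
      rw [← one_smul (PP κ r) x, ← one_smul (PP κ r) y, h 1 (by simp), h 1 (by simp)]⟩
    rw [Module.length_eq_zero, Module.length_eq_zero]
  | succ n ih =>
    intro M _ _ _ _ h
    let N : Submodule (PP κ r) M := (mX κ r) • (⊤ : Submodule (PP κ r) M)
    have h1 : Module.length (PP κ r) N = Module.length κ N := by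
      refine ih N (fun p hp x => ?_)
      obtain ⟨x, hx⟩ := x
      apply Subtype.ext
      change p • x = 0
      refine Submodule.smul_induction_on hx (fun a ha y _ => ?_) (fun y z hy hz => ?_)
      · rw [← mul_smul]
        exact h _ (by rw [pow_succ]; exact Ideal.mul_mem_mul hp ha) y
      · rw [smul_add, hy, hz, add_zero]
    have h2 : Module.length (PP κ r) (M ⧸ N) = Module.length κ (M ⧸ N) := by
      refine length_eq_of_killed (M ⧸ N) (fun l x => ?_)
      obtain ⟨x, rfl⟩ := Submodule.Quotient.mk_surjective _ x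
      rw [← Submodule.Quotient.mk_smul, Submodule.Quotient.mk_eq_zero]
      exact Submodule.smul_mem_smul (Ideal.subset_span ⟨l, rfl⟩) trivial
    rw [Module.length_eq_add_of_exact N.subtype N.mkQ N.injective_subtype N.mkQ_surjective
        (LinearMap.exact_subtype_mkQ N), h1, h2]
    exact (Module.length_eq_add_of_exact (N.subtype.restrictScalars κ) (N.mkQ.restrictScalars κ)
      N.injective_subtype N.mkQ_surjective (LinearMap.exact_subtype_mkQ N)).symm

end len

section cf

variable {κ : Type*} [Field κ] {r : ℕ}

instance : IsScalarTower κ (PP κ r) (Lau κ r) := by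
  refine IsScalarTower.of_algebraMap_eq fun c => ?_
  change _ = MvPolynomial.aeval (xl κ (r := r)) (MvPolynomial.C c)
  rw [MvPolynomial.aeval_C]

theorem cf_smul (c : κ) (f : Lau κ r) (g : Gx r) : cf (c • f) g = c * cf f g := rfl

theorem cf_neg (f : Lau κ r) (g : Gx r) : cf (-f) g = - cf f g := by
  have := cf_add f (-f) g
  rw [add_neg_cancel, cf_zero] at this
  exact (neg_eq_of_add_eq_zero_right this.symm).symm

theorem cf_zsmul (n : ℤ) (f : Lau κ r) (g : Gx r) : cf (n • f) g = n • cf f g := by
  have h : ∀ n : ℤ, n • f = (n : κ) • f := fun n => (Int.cast_smul_eq_zsmul κ n f).symm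
  rw [h, cf_smul, zsmul_eq_mul]

/-- the coefficient as a linear map -/
noncomputable def cfl (g : Gx r) : Lau κ r →ₗ[κ] κ where
  toFun f := cf f g
  map_add' f f' := cf_add f f' g
  map_smul' c f := cf_smul c f g

theorem cf_sum {ι : Type*} (s : Finset ι) (f : ι → Lau κ r) (g : Gx r) :
    cf (∑ i ∈ s, f i) g = ∑ i ∈ s, cf (f i) g := map_sum (cfl g) f s

theorem cf_ext {f f' : Lau κ r} (h : ∀ g, cf f g = cf f' g) : f = f' := by
  apply AddMonoidAlgebra.coeff_injective
  ext g
  exact h g

theorem cf_mono (g g' : Gx r) (c : κ) : cf (mono g c) g' = if g = g' then c else 0 := by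
  unfold cf mono
  rw [AddMonoidAlgebra.coeff_single, Finsupp.single_apply]

theorem cf_mono_mul (g : Gx r) (f : Lau κ r) (k : Gx r) :
    cf (mono g 1 * f) k = cf f (k - g) := by
  have := AddMonoidAlgebra.coeff_single_mul_eq_mul_coeff (x := (f : AddMonoidAlgebra κ (Gx r)))
    (r := (1 : κ)) (m := g) (m₁ := k) (k - g) (by
      intro m' _
      constructor
      · rintro rfl; abel
      · rintro rfl; abel)
  rw [one_mul] at this
  exact this

theorem cf_X_smul (l : Fin (r + 1)) (f : Lau κ r) (g : Gx r)
    (h : cf ((MvPolynomial.X l : PP κ r) • f) g ≠ 0) : ∃ L, cf f (g - ex L) ≠ 0 := by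
  rw [Algebra.smul_def, algebraMap_X, xl, Finset.sum_mul, cf_sum] at h
  obtain ⟨L, _, hL⟩ := Finset.exists_ne_zero_of_sum_ne_zero h
  rw [cf_mono_mul] at hL
  exact ⟨L, hL⟩

end cf

end Vale.Agent.P202.CharP.WinAux
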