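import Vale.Agent.P202.CharP.DefsM

/-!
P202-CHARP, task M2: the toggle homotopy.
-/

namespace Vale.Agent.P202.CharP

namespace TogM

open Finset

variable {r : ℕ} {V : Type*} [AddCommGroup V]

theorem sg_mul_self (i : Fin r) (J : Finset (Fin r)) : sg i J * sg i J = 1 := by
  unfold sg
  rw [← pow_add, ← two_mul, pow_mul]
  simp

theorem sg_erase_self (i : Fin r) (J : Finset (Fin r)) : sg i (J.erase i) = sg i J := by
  unfold sg
  congr 2
  ext x
  simp only [mem_filter, mem_erase]
  constructor
  · rintro ⟨⟨_, h⟩, h'⟩; exact ⟨h, h'⟩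
  · rintro ⟨h, h'⟩; exact ⟨⟨h'.ne, h⟩, h'⟩

theorem sg_insert_self (i : Fin r) (J : Finset (Fin r)) : sg i (insert i J) = sg i J := by
  unfold sg
  congr 2
  ext x
  simp only [mem_filter, mem_insert]
  constructor
  · rintro ⟨h | h, h'⟩
    · exact absurd h h'.ne
    · exact ⟨h, h'⟩
  · rintro ⟨h, h'⟩; exact ⟨Or.inr h, h'⟩

theorem sg_erase_of_le {i j : Fin r} (J : Finset (Fin r)) (h : i ≤ j) :
    sg i (J.erase j) = sg i J := by
  unfold sg
  congr 2
  ext x
  simp only [mem_filter, mem_erase]
  constructor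
  · rintro ⟨⟨_, h1⟩, h'⟩; exact ⟨h1, h'⟩
  · rintro ⟨h1, h'⟩; exact ⟨⟨(h'.trans_le h).ne, h1⟩, h'⟩

theorem sg_erase_of_lt {i j : Fin r} {J : Finset (Fin r)} (hj : j ∈ J) (h : j < i) :
    sg i (J.erase j) = - sg i J := by
  unfold sg
  have e : ((J.erase j).filter (· < i)) = (J.filter (· < i)).erase j := by
    ext x; simp only [mem_filter, mem_erase]; tauto
  have hm : j ∈ (J.filter (· < i)) := by simp [hj, h]
  have hc := card_erase_add_one hm
  rw [e, ← hc, pow_succ]
  ring

theorem sg_insert_of_le {i j : Fin r} (J : Finset (Fin r)) (h : i ≤ j) :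
    sg i (insert j J) = sg i J := by
  unfold sg
  congr 2
  ext x
  simp only [mem_filter, mem_insert]
  constructor
  · rintro ⟨h1 | h1, h'⟩
    · exact absurd (h1 ▸ h') (not_lt.2 h)
    · exact ⟨h1, h'⟩
  · rintro ⟨h1, h'⟩; exact ⟨Or.inr h1, h'⟩

theorem sg_insert_of_lt {i j : Fin r} {J : Finset (Fin r)} (hj : j ∉ J) (h : j < i) :
    sg i (insert j J) = - sg i J := by
  have := sg_erase_of_lt (i := i) (mem_insert_self j J) h
  rw [erase_insert hj] at this
  rw [this]; ring

/-- wedge with the sum of all basis vectors. -/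
def wdd (f : Finset (Fin r) → V) (J : Finset (Fin r)) : V :=
  ∑ i ∈ J, sg i J • f (J.erase i)

/-- contraction with the `i`-th dual basis vector. -/
def wcc (i : Fin r) (f : Finset (Fin r) → V) (J : Finset (Fin r)) : V :=
  if i ∈ J then 0 else sg i J • f (insert i J)

theorem wdd_wcc (i : Fin r) (f : Finset (Fin r) → V) (J : Finset (Fin r)) :
    wdd (wcc i f) J + wcc i (wdd f) J = f J := by
  by_cases hi : i ∈ J
  · have h2 : wcc i (wdd f) J = 0 := by simp [wcc, hi]
    rw [h2, add_zero]
    unfold wdd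
    rw [sum_eq_single i]
    · simp only [wcc, mem_erase, ne_eq, not_true_eq_false, false_and, if_false]
      rw [insert_erase hi, sg_erase_self, smul_smul, sg_mul_self, one_smul]
    · intro j hj hji
      have : i ∈ J.erase j := mem_erase.2 ⟨Ne.symm hji, hi⟩
      simp [wcc, this]
    · intro h; exact absurd hi h
  · have h2 : wcc i (wdd f) J =
        f J + ∑ j ∈ J, (sg i J * sg j (insert i J)) • f (insert i (J.erase j)) := by
      simp only [wcc, hi, if_false, wdd]
      rw [sum_insert hi, smul_add, smul_smul, erase_insert hi, sg_insert_self, sg_mul_self,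
        one_smul, smul_sum]
      congr 1
      refine sum_congr rfl ?_
      intro j hj
      have : j ≠ i := fun e => hi (e ▸ hj)
      rw [smul_smul, erase_insert_of_ne this.symm]
    have h1 : wdd (wcc i f) J =
        ∑ j ∈ J, (sg j J * sg i (J.erase j)) • f (insert i (J.erase j)) := by
      unfold wdd
      refine sum_congr rfl ?_
      intro j hj
      have : i ∉ J.erase j := fun h => hi (mem_of_mem_erase h)
      simp only [wcc, this, if_false]
      rw [smul_smul]
    rw [h1, h2, add_comm, add_assoc, ← sum_add_distrib]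
    rw [sum_eq_zero, add_zero]
    intro j hj
    have hne : j ≠ i := fun e => hi (e ▸ hj)
    rw [← add_smul]
    rcases lt_or_gt_of_ne hne with h | h
    · rw [sg_erase_of_lt hj h, sg_insert_of_le J h.le]
      have : sg i J * sg j J + sg j J * -sg i J = 0 := by ring
      rw [this, zero_smul]
    · rw [sg_insert_of_lt hi h, sg_erase_of_le J h.le]
      have : sg i J * -sg j J + sg j J * sg i J = 0 := by ring
      rw [this, zero_smul]

variable {κ : Type*} [Field κ]

/-- the coefficient at `g` as a linear map. -/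
noncomputable def cfL (κ : Type*) [Field κ] {r : ℕ} (g : Gx r) : Lau κ r →ₗ[κ] κ where
  toFun f := cf f g
  map_add' f f' := cf_add f f' g
  map_smul' _ _ := rfl

lemma cfL_apply (g : Gx r) (f : Lau κ r) : cfL κ g f = cf f g := rfl

lemma cf_ext {f f' : Lau κ r} (h : ∀ g, cf f g = cf f' g) : f = f' :=
  AddMonoidAlgebra.ext (Finsupp.ext h)

lemma cf_smul (c : κ) (f : Lau κ r) (g : Gx r) : cf (c • f) g = c * cf f g := rfl

lemma cf_zsmul (c : ℤ) (f : Lau κ r) (g : Gx r) : cf (c • f) g = c • cf f g := by
  rw [← cfL_apply, map_zsmul, cfL_apply]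

lemma cf_sum {ι : Type*} (s : Finset ι) (F : ι → Lau κ r) (g : Gx r) :
    cf (∑ i ∈ s, F i) g = ∑ i ∈ s, cf (F i) g := by
  rw [← cfL_apply, map_sum]; rfl

/-- restriction of the support to a set of exponents. -/
noncomputable def cut (κ : Type*) [Field κ] {r : ℕ} (p : Gx r → Prop) : Lau κ r →ₗ[κ] Lau κ r := by
  classical
  exact
  { toFun := fun f => (AddMonoidAlgebra.ofCoeff (Finsupp.filter p f.coeff) :
      AddMonoidAlgebra κ (Gx r))
    map_add' := fun f f' => by
      apply cf_ext
      intro g
      show Finsupp.filter p (f + f').coeff g = Finsupp.filter p f.coeff g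
        + Finsupp.filter p f'.coeff g
      rw [Finsupp.filter_apply, Finsupp.filter_apply, Finsupp.filter_apply]
      split_ifs
      · exact cf_add f f' g
      · rw [add_zero]
    map_smul' := fun c f => by
      apply cf_ext
      intro g
      show Finsupp.filter p (c • f).coeff g = c * Finsupp.filter p f.coeff g
      rw [Finsupp.filter_apply, Finsupp.filter_apply]
      split_ifs
      · exact cf_smul c f g
      · rw [mul_zero] }

open Classical in
lemma cf_cut (p : Gx r → Prop) (f : Lau κ r) (g : Gx r) :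
    cf (cut κ p f) g = if p g then cf f g else 0 := by
  show Finsupp.filter p f.coeff g = _
  rw [Finsupp.filter_apply]
  rfl

open Classical in
/-- the chosen index. -/
noncomputable def i0 (a : Fin r → ℤ) (g : Gx r) : Option (Fin r) :=
  if h : ∃ i, 0 ≤ g.1 i ∧ a i + g.2 < g.1 i then some h.choose else none

lemma i0_some {a : Fin r → ℤ} {g : Gx r} {i : Fin r} (h : i0 a g = some i) :
    0 ≤ g.1 i ∧ a i + g.2 < g.1 i := by
  unfold i0 at h
  split_ifs at h with h'
  have := h'.choose_spec
  rw [Option.some.inj h] at this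
  exact this

lemma i0_none {a : Fin r → ℤ} {g : Gx r} (h : i0 a g = none) (i : Fin r) :
    g.1 i < 0 ∨ g.1 i ≤ a i + g.2 := by
  unfold i0 at h
  split_ifs at h with h'
  by_contra hc
  rw [not_or, not_lt, not_le] at hc
  exact h' ⟨i, hc⟩

/-- the homotopy. -/
noncomputable def hM (κ : Type*) [Field κ] {r : ℕ} (a : Fin r → ℤ) : Lam κ r →ₗ[κ] Lam κ r where
  toFun f J := ∑ i : Fin r, cut κ (fun g => i0 a g = some i) (wcc i f J)
  map_add' f f' := by
    funext J
    rw [Pi.add_apply, ← Finset.sum_add_distrib]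
    refine Finset.sum_congr rfl fun i _ => ?_
    rw [← map_add]
    congr 1
    unfold wcc
    split_ifs
    · rw [add_zero]
    · rw [Pi.add_apply, smul_add]
  map_smul' c f := by
    funext J
    rw [Pi.smul_apply, RingHom.id_apply, Finset.smul_sum]
    refine Finset.sum_congr rfl fun i _ => ?_
    rw [← map_smul]
    congr 1
    unfold wcc
    split_ifs
    · rw [smul_zero]
    · rw [Pi.smul_apply, smul_comm]

lemma cf_wcc (i : Fin r) (f : Lam κ r) (J : Finset (Fin r)) (g : Gx r) :
    cf (wcc i f J) g = wcc i (fun K => cf (f K) g) J := by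
  unfold wcc
  split_ifs
  · exact cf_zero g
  · exact cf_zsmul _ _ _

lemma cf_hM_some (a : Fin r → ℤ) (f : Lam κ r) (J : Finset (Fin r)) (g : Gx r) (i : Fin r)
    (h : i0 a g = some i) : cf (hM κ a f J) g = wcc i (fun K => cf (f K) g) J := by
  show cf (∑ i : Fin r, cut κ (fun g => i0 a g = some i) (wcc i f J)) g = _
  rw [cf_sum, Finset.sum_eq_single i]
  · rw [cf_cut, if_pos h, cf_wcc]
  · intro j _ hj
    rw [cf_cut, if_neg]
    rw [h]
    intro h2
    exact hj (Option.some.inj h2).symm
  · intro h2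
    exact absurd (Finset.mem_univ i) h2

lemma cf_hM_none (a : Fin r → ℤ) (f : Lam κ r) (J : Finset (Fin r)) (g : Gx r)
    (h : i0 a g = none) : cf (hM κ a f J) g = 0 := by
  show cf (∑ i : Fin r, cut κ (fun g => i0 a g = some i) (wcc i f J)) g = _
  rw [cf_sum]
  refine Finset.sum_eq_zero fun i _ => ?_
  rw [cf_cut, if_neg]
  rw [h]
  simp

lemma cf_dC (f : Lam κ r) (J : Finset (Fin r)) (g : Gx r) :
    cf (dC κ r f J) g = wdd (fun K => cf (f K) g) J := by
  show cf (∑ i ∈ J, sg i J • f (J.erase i)) g = _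
  rw [cf_sum]
  exact Finset.sum_congr rfl fun i _ => cf_zsmul _ _ _

/-- the projection. -/
noncomputable def piM (κ : Type*) [Field κ] {r : ℕ} (a : Fin r → ℤ) :
    Lam κ r →ₗ[κ] Lam κ r where
  toFun f J := cut κ (fun g => i0 a g = none) (f J)
  map_add' f f' := by
    funext J
    rw [Pi.add_apply, Pi.add_apply, map_add]
  map_smul' c f := by
    funext J
    rw [Pi.smul_apply, RingHom.id_apply, Pi.smul_apply, map_smul]

lemma cf_piM (a : Fin r → ℤ) (f : Lam κ r) (J : Finset (Fin r)) (g : Gx r) [Decidable (i0 a g = none)] :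
    cf (piM κ a f J) g = if i0 a g = none then cf (f J) g else 0 := by
  classical
  show cf (cut κ (fun g => i0 a g = none) (f J)) g = _
  rw [cf_cut]
  congr

end TogM

open TogM in
/-- TASK M2: the toggle homotopy. For a monomial `Z^s τ^j` having an index `i` with
`0 ≤ s i` and `a i + j < s i`, choose one such `i` (depending only on `(s, j)`) and remove it from
the slot; `π` is the projection on the remaining monomials. -/
theorem exists_homotopy {κ : Type*} [Field κ] {r : ℕ} (a : Fin r → ℤ) :
    ∃ h π : Lam κ r →ₗ[κ] Lam κ r,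
    (∀ f, f = dC κ r (h f) + h (dC κ r f) + π f) ∧
    (∀ f I g, cf (h f I) g ≠ 0 →
      ∃ i, i ∉ I ∧ cf (f (insert i I)) g ≠ 0 ∧ 0 ≤ g.1 i ∧ a i + g.2 < g.1 i) ∧
    (∀ f I g, cf (π f I) g ≠ 0 → cf (f I) g ≠ 0 ∧ ∀ i, g.1 i < 0 ∨ g.1 i ≤ a i + g.2) := by
  classical
  refine ⟨hM κ a, piM κ a, ?_, ?_, ?_⟩
  · intro f
    funext J
    apply cf_ext
    intro g
    rw [Pi.add_apply, Pi.add_apply, cf_add, cf_add, cf_dC]
    rcases h : i0 a g with _ | i
    · rw [cf_hM_none a _ J g h, cf_piM, if_pos h]
      have : (fun K => cf (hM κ a f K) g) = fun _ => 0 := by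
        funext K
        exact cf_hM_none a f K g h
      rw [this]
      simp [wdd]
    · rw [cf_hM_some a _ J g i h, cf_piM, if_neg (by rw [h]; simp), add_zero]
      have h1 : (fun K => cf (hM κ a f K) g) = wcc i (fun K => cf (f K) g) := by
        funext K
        exact cf_hM_some a f K g i h
      have h2 : (fun K => cf (dC κ r f K) g) = wdd (fun K => cf (f K) g) := by
        funext K
        exact cf_dC f K g
      rw [h1, h2, wdd_wcc]
  · intro f I g hne
    rcases h : i0 a g with _ | i
    · exact absurd (cf_hM_none a f I g h) hne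
    · rw [cf_hM_some a f I g i h] at hne
      unfold wcc at hne
      split_ifs at hne with hi
      · exact absurd rfl hne
      · exact ⟨i, hi, fun h0 => hne (by
          show sg i I • cf (f (insert i I)) g = 0
          rw [h0, smul_zero]), i0_some h⟩
  · intro f I g hne
    rw [cf_piM] at hne
    split_ifs at hne with h
    · exact ⟨hne, i0_none h⟩
    · exact absurd rfl hne

end Vale.Agent.P202.CharP
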