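import Vale.Agent.P202.CharP.WinLen
import Vale.Agent.P202.CharP.MonBasic
import Vale.Agent.P202.CharP.ToggleM

/-!
P202-CHARP, tasks M3, M4, M5: the windows of the Čech complex.
-/

namespace Vale.Agent.P202.CharP

open Submodule TensorProduct

variable {κ : Type*} [Field κ] {r : ℕ}

namespace WinAux

/-- level `b` -/
def SB (a : Fin r → ℤ) (b : ℤ) : Set (Finset (Fin r) × Gx r) :=
  {x | x ∈ SG a ∨ (x ∈ SF r ∧ b ≤ x.2.2)}

theorem SW_eq (a : Fin r → ℤ) (Q k : ℕ) : SW a Q k = SB a ((1 - (k : ℤ)) * Q) := rfl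

theorem up_SB (a : Fin r → ℤ) (b : ℤ) : Up (SB a b) := by
  rintro I g L (h | h)
  · exact Or.inl (up_SG a I g L h)
  · refine Or.inr ⟨up_SF I g L h.1, ?_⟩
    have : b ≤ g.2 := h.2
    change b ≤ g.2 + 1
    omega

theorem SB_sub_SF {a : Fin r → ℤ} {b : ℤ} : SB a b ⊆ SF r := by
  rintro x (h | h)
  · exact h.1
  · exact h.1

theorem SG_sub_SB {a : Fin r → ℤ} {b : ℤ} : SG a ⊆ SB a b := fun _ h => Or.inl h

theorem SB_anti {a : Fin r → ℤ} {b b' : ℤ} (h : b ≤ b') : SB a b' ⊆ SB a b := by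
  rintro x (h1 | h1)
  · exact Or.inl h1
  · exact Or.inr ⟨h1.1, h.trans h1.2⟩

theorem SF_ins {I : Finset (Fin r)} {g : Gx r} (i : Fin r) (h : (I, g) ∈ SF r) :
    (insert i I, g) ∈ SF r := fun k hk => h k (fun h' => hk (Finset.mem_insert_of_mem h'))

theorem SG_ins {a : Fin r → ℤ} {I : Finset (Fin r)} {g : Gx r} (i : Fin r) (h : (I, g) ∈ SG a) :
    (insert i I, g) ∈ SG a := by
  obtain ⟨k, hk, hk'⟩ := h.2
  exact ⟨SF_ins i h.1, k, Finset.mem_insert_of_mem hk, hk'⟩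

theorem SB_ins {a : Fin r → ℤ} {b : ℤ} {I : Finset (Fin r)} {g : Gx r} (i : Fin r)
    (h : (I, g) ∈ SB a b) : (insert i I, g) ∈ SB a b := by
  rcases h with h | h
  · exact Or.inl (SG_ins i h)
  · exact Or.inr ⟨SF_ins i h.1, h.2⟩

theorem mem_MF {E : Set (Finset (Fin r) × Gx r)} (hE : Up E) {p : ℤ} {f : Lam κ r} :
    f ∈ MF κ E p ↔ ∀ I g, cf (f I) g ≠ 0 → (I, g) ∈ E ∧ (I.card : ℤ) = p :=
  mem_Mon (up_grd hE p) f

theorem MF_mono {E E' : Set (Finset (Fin r) × Gx r)} (hE : Up E) (hE' : Up E') (h : E ⊆ E')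
    (p : ℤ) : MF κ E p ≤ MF κ E' p := by
  intro f hf
  rw [mem_MF hE] at hf
  rw [mem_MF hE']
  exact fun I g hg => ⟨h (hf I g hg).1, (hf I g hg).2⟩

/-- multiplication by a variable raises the level -/
theorem X_MF {a : Fin r → ℤ} {b p : ℤ} (l : Fin (r + 1)) {f : Lam κ r}
    (hf : f ∈ MF κ (SB a b) p) : (MvPolynomial.X l : PP κ r) • f ∈ MF κ (SB a (b + 1)) p := by
  rw [mem_MF (up_SB a b)] at hf
  rw [mem_MF (up_SB a (b + 1))]
  intro I g hg
  rw [Pi.smul_apply] at hg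
  obtain ⟨L, hL⟩ := cf_X_smul l (f I) g hg
  obtain ⟨h1, h2⟩ := hf I _ hL
  refine ⟨?_, h2⟩
  rcases h1 with h1 | h1
  · have := up_SG a I _ L h1
    rw [sub_add_cancel] at this
    exact Or.inl this
  · have h3 := up_SF I _ L h1.1
    rw [sub_add_cancel] at h3
    refine Or.inr ⟨h3, ?_⟩
    have h4 : b ≤ g.2 - 1 := h1.2
    change b + 1 ≤ g.2
    omega

theorem mX_MF {a : Fin r → ℤ} {b p : ℤ} : mX κ r • MF κ (SB a b) p ≤ MF κ (SB a (b + 1)) p := by
  rw [Submodule.smul_le]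
  intro c hc f hf
  unfold mX at hc
  induction hc using Submodule.span_induction with
  | mem x h =>
    obtain ⟨l, rfl⟩ := h
    exact X_MF l hf
  | zero => rw [zero_smul]; exact Submodule.zero_mem _
  | add x y _ _ hx hy => rw [add_smul]; exact Submodule.add_mem _ hx hy
  | smul c x _ hx => rw [smul_eq_mul, mul_smul]; exact Submodule.smul_mem _ _ hx

theorem mX_pow_MF {a : Fin r → ℤ} {b p : ℤ} (k : ℕ) :
    (mX κ r) ^ k • MF κ (SB a b) p ≤ MF κ (SB a (b + k)) p := by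
  induction k generalizing b with
  | zero => simp
  | succ k ih =>
    rw [pow_succ, Submodule.mul_smul]
    refine (smul_mono_right _ mX_MF).trans (ih.trans ?_)
    rw [show b + 1 + (k : ℤ) = b + ((k + 1 : ℕ) : ℤ) by push_cast; ring]

/-! ### the homotopy -/

/-- the toggling stabilises a set of monomials -/
def Tog (a : Fin r → ℤ) (E : Set (Finset (Fin r) × Gx r)) : Prop :=
  ∀ i I g, i ∉ I → (insert i I, g) ∈ E → 0 ≤ g.1 i → a i + g.2 < g.1 i → (I, g) ∈ E

theorem tog_SG (a : Fin r → ℤ) : Tog a (SG a) := by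
  intro i I g hi h h0 h1
  refine ⟨fun k hk => ?_, ?_⟩
  · by_cases hki : k = i
    · subst hki; exact h0
    · exact h.1 k (fun h' => by
        rcases Finset.mem_insert.1 h' with h2 | h2
        · exact hki h2
        · exact hk h2)
  · obtain ⟨k, hk, hk'⟩ := h.2
    rcases Finset.mem_insert.1 hk with h2 | h2
    · subst h2
      change g.1 k ≤ a k + g.2 at hk'
      omega
    · exact ⟨k, h2, hk'⟩

theorem tog_SB (a : Fin r → ℤ) (b : ℤ) : Tog a (SB a b) := by
  intro i I g hi h h0 h1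
  rcases h with h | h
  · exact Or.inl (tog_SG a i I g hi h h0 h1)
  · refine Or.inr ⟨fun k hk => ?_, h.2⟩
    by_cases hki : k = i
    · subst hki; exact h0
    · exact h.1 k (fun h' => by
        rcases Finset.mem_insert.1 h' with h2 | h2
        · exact hki h2
        · exact hk h2)

/-- property of the homotopy -/
structure Hom (a : Fin r → ℤ) (h π : Lam κ r →ₗ[κ] Lam κ r) : Prop where
  eq : ∀ f, f = dC κ r (h f) + h (dC κ r f) + π f
  hs : ∀ f I g, cf (h f I) g ≠ 0 →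
      ∃ i, i ∉ I ∧ cf (f (insert i I)) g ≠ 0 ∧ 0 ≤ g.1 i ∧ a i + g.2 < g.1 i
  ps : ∀ f I g, cf (π f I) g ≠ 0 → cf (f I) g ≠ 0 ∧ ∀ i, g.1 i < 0 ∨ g.1 i ≤ a i + g.2

theorem exists_hom (a : Fin r → ℤ) : ∃ h π : Lam κ r →ₗ[κ] Lam κ r, Hom a h π := by
  obtain ⟨h, π, h1, h2, h3⟩ := exists_homotopy (κ := κ) a
  exact ⟨h, π, h1, h2, h3⟩

theorem Hom.mem {a : Fin r → ℤ} {h π : Lam κ r →ₗ[κ] Lam κ r} (H : Hom a h π)
    {E : Set (Finset (Fin r) × Gx r)} (hE : Up E) (hT : Tog a E) {p : ℤ} {f : Lam κ r}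
    (hf : f ∈ MF κ E (p + 1)) : h f ∈ MF κ E p := by
  rw [mem_MF hE] at hf ⊢
  intro I g hg
  obtain ⟨i, hi, h1, h2, h3⟩ := H.hs f I g hg
  obtain ⟨h4, h5⟩ := hf _ g h1
  refine ⟨hT i I g hi h4 h2 h3, ?_⟩
  rw [Finset.card_insert_of_notMem hi] at h5
  push_cast at h5
  omega

/-- a monomial without free index of degree `p`, in level `b` but not in level `b'` -/
theorem nofree {a : Fin r → ℤ} {b b' : ℤ} {I : Finset (Fin r)} {g : Gx r}
    (h : (I, g) ∈ SB a b) (h' : (I, g) ∉ SB a b') (hn : ∀ i, g.1 i < 0 ∨ g.1 i ≤ a i + g.2) :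
    b ≤ g.2 ∧ g.2 < b' ∧ (∀ i, i ∈ I ↔ a i + g.2 < 0) ∧
      ∀ i, (i ∈ I → a i + g.2 < g.1 i ∧ g.1 i < 0) ∧ (i ∉ I → 0 ≤ g.1 i ∧ g.1 i ≤ a i + g.2) := by
  have hF : (I, g) ∈ SF r := SB_sub_SF h
  have hG : (I, g) ∉ SG a := fun hG => h' (Or.inl hG)
  have h1 : b ≤ g.2 := by
    rcases h with h | h
    · exact absurd h hG
    · exact h.2
  have h2 : g.2 < b' := by
    by_contra hc
    exact h' (Or.inr ⟨hF, not_lt.1 hc⟩)
  have h3 : ∀ i ∈ I, a i + g.2 < g.1 i := by
    intro i hi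
    by_contra hc
    exact hG ⟨hF, i, hi, not_lt.1 hc⟩
  have h4 : ∀ i ∉ I, 0 ≤ g.1 i := fun i hi => hF i hi
  refine ⟨h1, h2, fun i => ?_, fun i => ⟨fun hi => ?_, fun hi => ?_⟩⟩
  · have := hn i
    constructor
    · intro hi
      have := h3 i hi
      omega
    · intro hi
      by_contra hi'
      have := h4 i hi'
      omega
  · have := hn i
    have := h3 i hi
    omega
  · have := hn i
    have := h4 i hi
    omega

/-- exactness of a window away from its degree -/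
theorem ex_SB {a : Fin r → ℤ} {b b' p : ℤ}
    (hp : ∀ t, b ≤ t → t < b' → ((Finset.univ.filter fun i => a i + t < 0).card : ℤ) ≠ p) :
    Ex (dC κ r) (MF κ (SB a b)) (MF κ (SB a b')) p := by
  obtain ⟨h, π, H⟩ := exists_hom (κ := κ) a
  rintro z ⟨hz, hdz⟩
  replace hdz : dC κ r z ∈ MF κ (SB a b') (p + 1) := hdz
  replace hz : z ∈ MF κ (SB a b) p := hz
  rw [H.eq z]
  refine Submodule.add_mem _ (Submodule.add_mem _ (Submodule.mem_sup_left ?_)
    (Submodule.mem_sup_right ?_)) (Submodule.mem_sup_right ?_)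
  · exact Submodule.mem_map_of_mem (H.mem (up_SB a b) (tog_SB a b) (by rwa [sub_add_cancel]))
  · exact H.mem (up_SB a b') (tog_SB a b') hdz
  · rw [mem_MF (up_SB a b')]
    intro I g hg
    obtain ⟨h1, h2⟩ := H.ps z I g hg
    rw [mem_MF (up_SB a b)] at hz
    obtain ⟨h3, h4⟩ := hz I g h1
    refine ⟨?_, h4⟩
    by_contra hc
    obtain ⟨h5, h6, h7, _⟩ := nofree h3 hc h2
    refine hp g.2 h5 h6 ?_
    rw [← h4]
    congr 2
    ext i
    simp [h7 i]

/-- the level `b` is exact over `G` away from degree `0`, if `b` is large -/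
theorem ex_SB_SG {a : Fin r → ℤ} {b p : ℤ} (ha : ∀ i, 0 ≤ a i + b) (hp : p ≠ 0) :
    Ex (dC κ r) (MF κ (SB a b)) (MF κ (SG a)) p := by
  obtain ⟨h, π, H⟩ := exists_hom (κ := κ) a
  rintro z ⟨hz, hdz⟩
  replace hdz : dC κ r z ∈ MF κ (SG a) (p + 1) := hdz
  replace hz : z ∈ MF κ (SB a b) p := hz
  rw [H.eq z]
  refine Submodule.add_mem _ (Submodule.add_mem _ (Submodule.mem_sup_left ?_)
    (Submodule.mem_sup_right ?_)) (Submodule.mem_sup_right ?_)
  · exact Submodule.mem_map_of_mem (H.mem (up_SB a b) (tog_SB a b) (by rwa [sub_add_cancel]))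
  · exact H.mem (up_SG a) (tog_SG a) hdz
  · rw [mem_MF (up_SG a)]
    intro I g hg
    obtain ⟨h1, h2⟩ := H.ps z I g hg
    rw [mem_MF (up_SB a b)] at hz
    obtain ⟨h3, h4⟩ := hz I g h1
    refine ⟨?_, h4⟩
    by_contra hc
    have h3' : (I, g) ∉ SB a (g.2 + 1) := by
      rintro (h5 | h5)
      · exact hc h5
      · have := h5.2
        change g.2 + 1 ≤ g.2 at this
        omega
    obtain ⟨h5, h6, h7, _⟩ := nofree h3 h3' h2
    apply hp
    rw [← h4]
    have : I = ∅ := by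
      rw [Finset.eq_empty_iff_forall_notMem]
      intro i hi
      have := (h7 i).1 hi
      have := ha i
      omega
    rw [this]
    simp

/-- cocycles of a window lift modulo boundaries to cocycles modulo `G` -/
theorem lift_SB {a : Fin r → ℤ} {b b' p : ℤ} (hb : b ≤ b') :
    cz (dC κ r) (MF κ (SB a b)) (MF κ (SB a b')) p ≤
      (MF κ (SB a b) p ⊓ (MF κ (SG a) (p + 1)).comap (dC κ r)) ⊔
        cb (dC κ r) (MF κ (SB a b)) (MF κ (SB a b')) p := by
  obtain ⟨h, π, H⟩ := exists_hom (κ := κ) a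
  rintro z ⟨hz, hdz⟩
  replace hdz : dC κ r z ∈ MF κ (SB a b') (p + 1) := hdz
  replace hz : z ∈ MF κ (SB a b) p := hz
  rw [H.eq z]
  have hhd : h (dC κ r z) ∈ MF κ (SB a b') p := H.mem (up_SB a b') (tog_SB a b') hdz
  refine Submodule.add_mem _ (Submodule.add_mem _ (Submodule.mem_sup_right
    (Submodule.mem_sup_left ?_)) (Submodule.mem_sup_right (Submodule.mem_sup_right hhd)))
    (Submodule.mem_sup_left ?_)
  · exact Submodule.mem_map_of_mem (H.mem (up_SB a b) (tog_SB a b) (by rwa [sub_add_cancel]))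
  · have hπ : ∀ I g, cf (π z I) g ≠ 0 → ((I, g) ∈ SB a b ∧ (I.card : ℤ) = p) ∧
        ∀ i, g.1 i < 0 ∨ g.1 i ≤ a i + g.2 := by
      intro I g hg
      obtain ⟨h1, h2⟩ := H.ps z I g hg
      rw [mem_MF (up_SB a b)] at hz
      exact ⟨hz I g h1, h2⟩
    refine ⟨(mem_MF (up_SB a b)).2 fun I g hg => (hπ I g hg).1, ?_⟩
    change dC κ r (π z) ∈ MF κ (SG a) (p + 1)
    rw [mem_MF (up_SG a)]
    intro I g hg
    have hsum : dC κ r (π z) I = ∑ i ∈ I, sg i I • π z (I.erase i) := rfl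
    rw [hsum, cf_sum] at hg
    obtain ⟨i, hi, hne⟩ := Finset.exists_ne_zero_of_sum_ne_zero hg
    rw [cf_zsmul] at hne
    have hne' : cf (π z (I.erase i)) g ≠ 0 := fun h0 => hne (by rw [h0, smul_zero])
    obtain ⟨⟨h1, h2⟩, h3⟩ := hπ _ g hne'
    have hcard : (I.card : ℤ) = p + 1 := by
      rw [← h2, Finset.card_erase_of_mem hi]
      have : 1 ≤ I.card := Finset.card_pos.2 ⟨i, hi⟩
      push_cast [this]
      ring
    have hF := SB_sub_SF h1
    have hins : insert i (I.erase i) = I := Finset.insert_erase hi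
    refine ⟨⟨?_, i, hi, ?_⟩, hcard⟩
    · have := SF_ins i hF
      rwa [hins] at this
    · have h4 : 0 ≤ g.1 i := hF i (Finset.notMem_erase i I)
      have := h3 i
      change g.1 i ≤ a i + g.2
      omega

/-! ### the dimension of the cohomology of a window -/

/-- the slot of the monomials of level `t` -/
def slot (a : Fin r → ℤ) (t : ℤ) : Finset (Fin r) := Finset.univ.filter fun i => a i + t < 0

/-- the possible exponents in one variable -/
noncomputable def rg (b : ℤ) : Finset ℤ := if 0 ≤ b then Finset.Icc 0 b else Finset.Ioo b 0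

theorem card_rg (b : ℤ) : (rg b).card = (b + 1).natAbs := by
  unfold rg
  split_ifs with h
  · rw [Int.card_Icc]; omega
  · rw [Int.card_Ioo]; omega

/-- the monomials of the cohomology of a window of `Q` levels above `b` -/
noncomputable def TT (a : Fin r → ℤ) (b : ℤ) (Q : ℕ) : Finset (Σ _ : ℕ, (Fin r → ℤ)) :=
  (Finset.range Q).sigma fun u => Fintype.piFinset fun i => rg (a i + (b + u))

theorem card_TT (a : Fin r → ℤ) (b : ℤ) (Q : ℕ) :
    (TT a b Q).card = ∑ u ∈ Finset.range Q, ∏ i : Fin r, (a i + (b + u) + 1).natAbs := by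
  rw [TT, Finset.card_sigma]
  refine Finset.sum_congr rfl fun u _ => ?_
  rw [Fintype.card_piFinset]
  exact Finset.prod_congr rfl fun i _ => card_rg _

/-- coordinates of a class -/
noncomputable def Phi (κ : Type*) [Field κ] (a : Fin r → ℤ) (b : ℤ) (Q : ℕ) :
    Lam κ r →ₗ[κ] (↥(TT a b Q) → κ) where
  toFun f x := cf (f (slot a (b + x.1.1))) (x.1.2, b + x.1.1)
  map_add' f f' := by ext x; exact cf_add _ _ _
  map_smul' c f := by ext x; exact cf_smul _ _ _

theorem mem_rg {b s : ℤ} : s ∈ rg b ↔ (0 ≤ b ∧ 0 ≤ s ∧ s ≤ b) ∨ (b < 0 ∧ b < s ∧ s < 0) := by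
  unfold rg
  split_ifs with h
  · rw [Finset.mem_Icc]; omega
  · rw [Finset.mem_Ioo]; omega

/-- the monomials indexed by `TT` -/
theorem TT_spec {a : Fin r → ℤ} {b : ℤ} {Q : ℕ} (x : ↥(TT a b Q)) :
    (x.1.1 < Q) ∧ ∀ i, (i ∈ slot a (b + x.1.1) → a i + (b + x.1.1) < x.1.2 i ∧ x.1.2 i < 0) ∧
      (i ∉ slot a (b + x.1.1) → 0 ≤ x.1.2 i ∧ x.1.2 i ≤ a i + (b + x.1.1)) := by
  obtain ⟨⟨u, s⟩, hx⟩ := x
  unfold TT at hx
  rw [Finset.mem_sigma, Finset.mem_range, Fintype.mem_piFinset] at hx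
  refine ⟨hx.1, fun i => ?_⟩
  have h1 := mem_rg.1 (hx.2 i)
  simp only [slot, Finset.mem_filter, Finset.mem_univ, true_and]
  change (0 ≤ a i + (b + u) ∧ 0 ≤ s i ∧ s i ≤ a i + (b + u)) ∨
            (a i + (b + u) < 0 ∧ a i + (b + u) < s i ∧ s i < 0) at h1
  constructor
  · intro hi
    omega
  · intro hi
    omega

theorem slot_mem_SF {a : Fin r → ℤ} {b : ℤ} {Q : ℕ} (x : ↥(TT a b Q)) :
    (slot a (b + x.1.1), ((x.1.2, b + x.1.1) : Gx r)) ∈ SF r :=
  fun i hi => (((TT_spec x).2 i).2 hi).1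

theorem slot_notMem {a : Fin r → ℤ} {b : ℤ} {Q : ℕ} (x : ↥(TT a b Q)) :
    (slot a (b + x.1.1), ((x.1.2, b + x.1.1) : Gx r)) ∉ SB a (b + Q) := by
  rintro (h | h)
  · obtain ⟨i, hi, h1⟩ := h.2
    have := ((TT_spec x).2 i).1 hi
    change x.1.2 i ≤ a i + (b + x.1.1) at h1
    omega
  · have h1 := h.2
    have h2 := (TT_spec x).1
    change b + Q ≤ b + x.1.1 at h1
    omega

/-- the kernel of the coordinate map -/
theorem phi_ker {a : Fin r → ℤ} {b p : ℤ} {Q : ℕ} {z : Lam κ r}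
    (hz : z ∈ cz (dC κ r) (MF κ (SB a b)) (MF κ (SB a (b + Q))) p)
    (h0 : Phi κ a b Q z = 0) : z ∈ cb (dC κ r) (MF κ (SB a b)) (MF κ (SB a (b + Q))) p := by
  obtain ⟨h, π, H⟩ := exists_hom (κ := κ) a
  have hz1 : z ∈ MF κ (SB a b) p := hz.1
  have hz2 : dC κ r z ∈ MF κ (SB a (b + Q)) (p + 1) := hz.2
  rw [H.eq z]
  refine Submodule.add_mem _ (Submodule.add_mem _ (Submodule.mem_sup_left ?_)
    (Submodule.mem_sup_right ?_)) (Submodule.mem_sup_right ?_)
  · exact Submodule.mem_map_of_mem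
      (H.mem (up_SB a b) (tog_SB a b) (by rwa [sub_add_cancel]))
  · exact H.mem (up_SB a _) (tog_SB a _) hz2
  · rw [mem_MF (up_SB a _)]
    intro I g hg
    obtain ⟨h1, h2⟩ := H.ps z I g hg
    rw [mem_MF (up_SB a b)] at hz1
    obtain ⟨h3, h4⟩ := hz1 I g h1
    refine ⟨?_, h4⟩
    by_contra hc
    obtain ⟨h5, h6, h7, h8⟩ := nofree h3 hc h2
    obtain ⟨u, hu⟩ : ∃ u : ℕ, g.2 = b + u := ⟨(g.2 - b).toNat, by omega⟩
    have hI : I = slot a (b + u) := by
      ext i
      rw [← hu]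
      simp [slot, h7 i]
    have hmem : (⟨u, g.1⟩ : Σ _ : ℕ, (Fin r → ℤ)) ∈ TT a b Q := by
      unfold TT
      rw [Finset.mem_sigma, Finset.mem_range, Fintype.mem_piFinset]
      refine ⟨by change u < Q; omega, fun i => ?_⟩
      rw [mem_rg]
      change (0 ≤ a i + (b + u) ∧ 0 ≤ g.1 i ∧ g.1 i ≤ a i + (b + u)) ∨
        (a i + (b + u) < 0 ∧ a i + (b + u) < g.1 i ∧ g.1 i < 0)
      rw [← hu]
      by_cases hi : i ∈ I
      · have h9 := (h8 i).1 hi
        have h10 := (h7 i).1 hi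
        omega
      · have h9 := (h8 i).2 hi
        omega
    have h9 : cf (z (slot a (b + u))) (g.1, b + u) = 0 := congrFun h0 ⟨⟨u, g.1⟩, hmem⟩
    rw [← hI, ← hu] at h9
    exact h1 h9

/-- the coordinate map kills the boundaries -/
theorem phi_bdry {a : Fin r → ℤ} {b p : ℤ} {Q : ℕ} {z : Lam κ r}
    (hz : z ∈ cb (dC κ r) (MF κ (SB a b)) (MF κ (SB a (b + Q))) p) : Phi κ a b Q z = 0 := by
  obtain ⟨y, hy, x, hx, rfl⟩ := Submodule.mem_sup.1 hz
  obtain ⟨w, hw, rfl⟩ := hy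
  replace hw : w ∈ MF κ (SB a b) (p - 1) := hw
  rw [mem_MF (up_SB a b)] at hw
  rw [mem_MF (up_SB a _)] at hx
  rw [map_add]
  ext v
  have e1 : Phi κ a b Q (dC κ r w) v = 0 := by
    change cf (∑ i ∈ slot a (b + v.1.1), sg i (slot a (b + v.1.1)) •
      w ((slot a (b + v.1.1)).erase i)) (v.1.2, b + v.1.1) = 0
    rw [cf_sum]
    refine Finset.sum_eq_zero fun i hi => ?_
    rw [cf_zsmul]
    by_contra hne
    have hne' : cf (w ((slot a (b + v.1.1)).erase i)) (v.1.2, b + v.1.1) ≠ 0 :=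
      fun h0 => hne (by rw [h0, smul_zero])
    have h1 := SB_sub_SF (hw _ _ hne').1 i (Finset.notMem_erase i _)
    have h2 := (((TT_spec v).2 i).1 hi).2
    change 0 ≤ v.1.2 i at h1
    omega
  have e2 : Phi κ a b Q x v = 0 := by
    by_contra hne
    exact slot_notMem v (hx _ _ hne).1
  rw [Pi.add_apply, e1, e2, add_zero]
  rfl

/-- the standard elements -/
noncomputable def std (c : κ) {a : Fin r → ℤ} {b : ℤ} {Q : ℕ} (v : ↥(TT a b Q)) : Lam κ r :=
  Pi.single (slot a (b + v.1.1)) (mono (v.1.2, b + v.1.1) c)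

theorem cf_std (c : κ) {a : Fin r → ℤ} {b : ℤ} {Q : ℕ} (v : ↥(TT a b Q)) (I : Finset (Fin r))
    (g : Gx r) : cf (std c v I) g =
      if I = slot a (b + v.1.1) ∧ ((v.1.2, b + v.1.1) : Gx r) = g then c else 0 := by
  unfold std
  rw [Pi.single_apply]
  by_cases hI : I = slot a (b + v.1.1)
  · rw [if_pos hI, cf_mono]
    simp [hI]
  · rw [if_neg hI, cf_zero, if_neg (fun h => hI h.1)]

theorem cf_std_ne {c : κ} {a : Fin r → ℤ} {b : ℤ} {Q : ℕ} {v : ↥(TT a b Q)}
    {I : Finset (Fin r)} {g : Gx r} (h : cf (std c v I) g ≠ 0) :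
    I = slot a (b + v.1.1) ∧ ((v.1.2, b + v.1.1) : Gx r) = g := by
  by_contra hc
  rw [cf_std, if_neg hc] at h
  exact h rfl

theorem std_mem {a : Fin r → ℤ} {b p : ℤ} {Q : ℕ}
    (hp : ∀ t, b ≤ t → t < b + Q → ((slot a t).card : ℤ) = p) (c : κ) (v : ↥(TT a b Q)) :
    std c v ∈ cz (dC κ r) (MF κ (SB a b)) (MF κ (SB a (b + Q))) p := by
  have hcard : ((slot a (b + v.1.1)).card : ℤ) = p :=
    hp _ (by omega) (by have := (TT_spec v).1; omega)
  constructor
  · change std c v ∈ MF κ (SB a b) p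
    rw [mem_MF (up_SB a b)]
    intro I g hg
    obtain ⟨rfl, rfl⟩ := cf_std_ne hg
    refine ⟨Or.inr ⟨slot_mem_SF v, ?_⟩, hcard⟩
    change b ≤ b + v.1.1
    omega
  · change dC κ r (std c v) ∈ MF κ (SB a (b + Q)) (p + 1)
    rw [mem_MF (up_SB a _)]
    intro I g hg
    change cf (∑ i ∈ I, sg i I • std c v (I.erase i)) g ≠ 0 at hg
    rw [cf_sum] at hg
    obtain ⟨i, hi, hne⟩ := Finset.exists_ne_zero_of_sum_ne_zero hg
    rw [cf_zsmul] at hne
    have hne' : cf (std c v (I.erase i)) g ≠ 0 := fun h0 => hne (by rw [h0, smul_zero])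
    obtain ⟨h1, rfl⟩ := cf_std_ne hne'
    have hii : i ∉ slot a (b + v.1.1) := by rw [← h1]; exact Finset.notMem_erase i I
    have hins : insert i (slot a (b + v.1.1)) = I := by rw [← h1]; exact Finset.insert_erase hi
    constructor
    · refine Or.inl ⟨?_, i, hi, (((TT_spec v).2 i).2 hii).2⟩
      have := SF_ins i (slot_mem_SF v)
      rwa [hins] at this
    · rw [← hins, Finset.card_insert_of_notMem hii]
      push_cast
      rw [hcard]

theorem phi_std {a : Fin r → ℤ} {b : ℤ} {Q : ℕ} (c : κ) (v : ↥(TT a b Q)) :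
    Phi κ a b Q (std c v) = Pi.single v c := by
  ext w
  change cf (std c v (slot a (b + w.1.1))) (w.1.2, b + w.1.1) = _
  rw [cf_std, Pi.single_apply]
  by_cases hvw : w = v
  · subst hvw; simp
  · rw [if_neg hvw, if_neg]
    rintro ⟨_, h2⟩
    apply hvw
    rw [Prod.mk.injEq] at h2
    apply Subtype.ext
    have h3 : v.1.1 = w.1.1 := by omega
    have h4 : v.1.2 = w.1.2 := h2.1
    exact (Sigma.ext h3 (heq_of_eq h4)).symm

theorem phi_surj {a : Fin r → ℤ} {b p : ℤ} {Q : ℕ}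
    (hp : ∀ t, b ≤ t → t < b + Q → ((slot a t).card : ℤ) = p) (c : ↥(TT a b Q) → κ) :
    ∃ z ∈ cz (dC κ r) (MF κ (SB a b)) (MF κ (SB a (b + Q))) p, Phi κ a b Q z = c := by
  refine ⟨∑ v, std (c v) v, Submodule.sum_mem _ fun v _ => std_mem hp (c v) v, ?_⟩
  rw [map_sum, Finset.sum_congr rfl fun v _ => phi_std (c v) v]
  ext w
  rw [Finset.sum_apply, Finset.sum_eq_single w]
  · rw [Pi.single_eq_same]
  · intro v _ hv
    exact Pi.single_eq_of_ne hv.symm _
  · intro hw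
    exact absurd (Finset.mem_univ _) hw

/-- the length of the cohomology of a window -/
theorem rl_SB {a : Fin r → ℤ} {b p : ℤ} {Q : ℕ}
    (hp : ∀ t, b ≤ t → t < b + Q → ((slot a t).card : ℤ) = p) :
    rl (cb (dC κ r) (MF κ (SB a b)) (MF κ (SB a (b + Q))) p)
      (cz (dC κ r) (MF κ (SB a b)) (MF κ (SB a (b + Q))) p) = ((TT a b Q).card : ℕ∞) := by
  set Z := cz (dC κ r) (MF κ (SB a b)) (MF κ (SB a (b + Q))) p with hZ
  set B := cb (dC κ r) (MF κ (SB a b)) (MF κ (SB a (b + Q))) p with hB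
  have hnil : ∀ c ∈ (mX κ r) ^ Q, ∀ x : (↥Z ⧸ B.submoduleOf Z), c • x = 0 := by
    intro c hc x
    obtain ⟨x, rfl⟩ := Submodule.Quotient.mk_surjective _ x
    rw [← Submodule.Quotient.mk_smul, Submodule.Quotient.mk_eq_zero]
    refine Submodule.mem_sup_right ?_
    exact mX_pow_MF Q (Submodule.smul_mem_smul hc x.2.1)
  let f : ↥Z →ₗ[κ] (↥(TT a b Q) → κ) := (Phi κ a b Q).comp (Z.subtype.restrictScalars κ)
  have hf : Function.Surjective f := fun c => by
    obtain ⟨z, hz, h1⟩ := phi_surj hp c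
    exact ⟨⟨z, hz⟩, h1⟩
  have hk : LinearMap.ker f = (B.submoduleOf Z).restrictScalars κ := by
    ext z
    rw [LinearMap.mem_ker]
    exact ⟨fun h0 => phi_ker z.2 h0, fun h0 => phi_bdry h0⟩
  have e : (↥Z ⧸ B.submoduleOf Z) ≃ₗ[κ] (↥(TT a b Q) → κ) :=
    (Submodule.quotEquivOfEq _ _ hk.symm).trans (f.quotKerEquivOfSurjective hf)
  rw [rl, length_eq_of_nilpotent Q _ hnil, e.length_eq, Module.length_eq_finrank,
    Module.finrank_fintype_fun_eq_card, Fintype.card_coe]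

/-! ### the statements -/

theorem lev_succ (Q j : ℕ) : (1 - ((j + 1 : ℕ) : ℤ)) * Q = -((j : ℤ) * Q) := by push_cast; ring

theorem lev (Q j : ℕ) : (1 - (j : ℤ)) * Q = -((j : ℤ) * Q) + Q := by ring

theorem slot_iff (m : Fin (r + 1)) {Q j : ℕ} {t : ℤ} (h1 : -((j : ℤ) * Q) ≤ t)
    (h2 : t < -((j : ℤ) * Q) + Q) (i : Fin r) :
    am m Q i + t < 0 ↔ (m.succAbove i : ℕ) < j := by
  unfold am
  set l : ℕ := (m.succAbove i : ℕ)
  constructor
  · intro h
    by_contra hc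
    push Not at hc
    have h3 : (j : ℤ) * Q ≤ (l : ℤ) * Q := by
      have : (j : ℤ) ≤ l := by exact_mod_cast hc
      exact mul_le_mul_of_nonneg_right this (by positivity)
    omega
  · intro h
    have h3 : ((l : ℤ) + 1) * Q ≤ (j : ℤ) * Q := by
      have : (l : ℤ) + 1 ≤ j := by exact_mod_cast h
      exact mul_le_mul_of_nonneg_right this (by positivity)
    rw [add_mul, one_mul] at h3
    omega

theorem card_lt (m : Fin (r + 1)) {j : ℕ} (hj : j ≤ r + 1) :
    ((Finset.univ.filter fun i : Fin r => (m.succAbove i : ℕ) < j).card : ℤ) = pdeg (m : ℕ) j := by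
  have h1 : ∑ l : Fin (r + 1), (if (l : ℕ) < j then 1 else 0) = j := by
    rw [Fin.sum_univ_eq_sum_range (fun l => if l < j then 1 else 0) (r + 1), ← Finset.card_filter]
    have : (Finset.range (r + 1)).filter (fun l => l < j) = Finset.range j := by
      ext l; simp only [Finset.mem_filter, Finset.mem_range]; omega
    rw [this, Finset.card_range]
  rw [Fin.sum_univ_succAbove _ m, ← Finset.card_filter] at h1
  unfold pdeg
  split_ifs at h1 ⊢ with h2 h3 <;> omega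

theorem slot_card (m : Fin (r + 1)) {Q j : ℕ} (hj : j ≤ r + 1) {t : ℤ}
    (h1 : -((j : ℤ) * Q) ≤ t) (h2 : t < -((j : ℤ) * Q) + Q) :
    ((slot (am m Q) t).card : ℤ) = pdeg (m : ℕ) j := by
  rw [← card_lt m hj]
  congr 2
  ext i
  simp only [slot, Finset.mem_filter, Finset.mem_univ, true_and]
  exact slot_iff m h1 h2 i

theorem am_nonneg (m : Fin (r + 1)) (Q : ℕ) (i : Fin r) : 0 ≤ am m Q i := by
  unfold am; positivity

end WinAux

open WinAux

/-- TASK M3: the windows of the Čech complex (second proof, see also `WinLam.lean`). -/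
theorem win_lam' (m : Fin (r + 1)) (Q : ℕ) (_hQ : 1 ≤ Q) :
    Win ((mX κ r) ^ Q) (r + 1) (m : ℕ) (dC κ r) (fun k => MF κ (SW (am m Q) Q k))
      (MF κ (SG (am m Q))) (fun j => (wc m Q j : ℕ∞)) where
  dd := dC_dC
  stab j := cstab_MF (up_SB _ _) (fun _ _ i h _ => SB_ins i h)
  stabinf := cstab_MF (up_SG _) (fun _ _ i h _ => SG_ins i h)
  mono j p := by
    refine MF_mono (up_SB _ _) (up_SB _ _) (SB_anti ?_) p
    rw [lev_succ, lev]
    omega
  monoinf p := MF_mono (up_SG _) (up_SB _ _) SG_sub_SB p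
  push j p := by
    have h := mX_pow_MF (κ := κ) (a := am m Q) (b := -((j : ℤ) * Q)) (p := p) Q
    rw [← lev, ← lev_succ] at h
    exact h
  neg j p hp := by
    rw [eq_bot_iff]
    intro f hf
    rw [Submodule.mem_bot]
    funext I
    refine cf_ext fun g => ?_
    by_contra hne
    have := ((mem_MF (up_SB _ _)).1 hf I g (by rwa [Pi.zero_apply, cf_zero] at hne)).2
    omega
  ex j hj p hp := by
    have h := ex_SB (κ := κ) (a := am m Q) (b := -((j : ℤ) * Q)) (b' := -((j : ℤ) * Q) + Q)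
      (p := p) (fun t h1 h2 h3 => hp (by rw [← h3]; exact slot_card m (by omega) h1 h2))
    rw [← lev, ← lev_succ] at h
    exact h
  dim j hj := by
    have h := rl_SB (κ := κ) (a := am m Q) (b := -((j : ℤ) * Q)) (p := pdeg (m : ℕ) j) (Q := Q)
      (fun t h1 h2 => slot_card m (by omega) h1 h2)
    rw [card_TT] at h
    have e : (∑ u ∈ Finset.range Q, ∏ i : Fin r, (am m Q i + (-((j : ℤ) * Q) + u) + 1).natAbs) =
        wc m Q j := by
      unfold wc
      refine Finset.sum_congr rfl fun u _ => Finset.prod_congr rfl fun i _ => ?_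
      congr 1
      ring
    rw [e, ← lev, ← lev_succ] at h
    exact h
  lift j hj := by
    have h := lift_SB (κ := κ) (a := am m Q) (b := -((j : ℤ) * Q)) (b' := -((j : ℤ) * Q) + Q)
      (p := pdeg (m : ℕ) j) (by omega)
    rw [← lev, ← lev_succ] at h
    exact h
  ex1 p hp := by
    refine ex_SB_SG (κ := κ) (a := am m Q) (b := (1 - ((0 : ℕ) : ℤ)) * Q) (fun i => ?_) (by omega)
    have := am_nonneg m Q i
    push_cast
    omega

/-- TASK M4: the windows far down. -/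
theorem ex_far (m : Fin (r + 1)) (Q : ℕ) (_hQ : 1 ≤ Q) (j : ℕ) (hj : r + 1 ≤ j) (p : ℤ)
    (hp : p ≠ r) :
    Ex (dC κ r) (MF κ (SW (am m Q) Q (j + 1))) (MF κ (SW (am m Q) Q j)) p := by
  have h := ex_SB (κ := κ) (a := am m Q) (b := -((j : ℤ) * Q)) (b' := -((j : ℤ) * Q) + Q)
      (p := p) (fun t h1 h2 h3 => hp (by
        rw [← h3]
        have : (Finset.univ.filter fun i : Fin r => am m Q i + t < 0) = Finset.univ := by
          ext i
          simp only [Finset.mem_filter, Finset.mem_univ, true_and, iff_true]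
          rw [slot_iff m h1 h2 i]
          have := (m.succAbove i).isLt
          omega
        rw [this, Finset.card_univ, Fintype.card_fin]))
  rw [← lev, ← lev_succ] at h
  exact h

/-- TASK M5: the level `0` has cohomology only in degree `0`. -/
theorem ex_zero (m : Fin (r + 1)) (Q : ℕ) (p : ℤ) (hp : p ≠ 0) :
    Ex (dC κ r) (MF κ (SW (am m Q) Q 1)) (MF κ (SG (am m Q))) p := by
  refine ex_SB_SG (κ := κ) (a := am m Q) (b := (1 - ((1 : ℕ) : ℤ)) * Q) (fun i => ?_) hp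
  have := am_nonneg m Q i
  push_cast
  omega

/-- the part of degree `0` of the cocycles of level `0` -/
theorem WinAux.cz_zero_iff (m : Fin (r + 1)) (Q : ℕ) (f : Lam κ r) :
    f ∈ cz (dC κ r) (MF κ (SW (am m Q) Q 1)) (MF κ (SG (am m Q))) 0 ↔
      (∀ I, I ≠ ∅ → f I = 0) ∧ ∀ g, cf (f ∅) g ≠ 0 → g ∈ SN (am m Q) := by
  have hlev : (1 - ((1 : ℕ) : ℤ)) * Q = 0 := by simp
  constructor
  · rintro ⟨h1, h2⟩
    replace h1 : f ∈ MF κ (SB (am m Q) ((1 - ((1 : ℕ) : ℤ)) * Q)) 0 := h1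
    replace h2 : dC κ r f ∈ MF κ (SG (am m Q)) (0 + 1) := h2
    rw [mem_MF (up_SB _ _), hlev] at h1
    rw [mem_MF (up_SG _)] at h2
    refine ⟨fun I hI => cf_ext fun g => ?_, fun g hg => ?_⟩
    · rw [cf_zero]
      by_contra hne
      have := (h1 I g hne).2
      apply hI
      rw [← Finset.card_eq_zero]
      exact_mod_cast this
    · obtain ⟨h3, _⟩ := h1 ∅ g hg
      have h4 : 0 ≤ g.2 ∧ ∀ i, 0 ≤ g.1 i := by
        rcases h3 with h3 | h3
        · obtain ⟨i, hi, _⟩ := h3.2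
          exact absurd hi (Finset.notMem_empty i)
        · exact ⟨h3.2, fun i => h3.1 i (Finset.notMem_empty i)⟩
      refine ⟨h4.1, fun i => ⟨h4.2 i, ?_⟩⟩
      have h5 : cf (dC κ r f {i}) g ≠ 0 := by
        change cf (∑ k ∈ ({i} : Finset (Fin r)), sg k {i} • f (({i} : Finset (Fin r)).erase k)) g ≠ 0
        have hs : sg i ({i} : Finset (Fin r)) = 1 := by
          simp [sg, Finset.filter_singleton]
        rw [Finset.sum_singleton, Finset.erase_singleton, hs, one_smul]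
        exact hg
      obtain ⟨h6, _⟩ := h2 {i} g h5
      obtain ⟨k, hk, hk'⟩ := h6.2
      rw [Finset.mem_singleton] at hk
      subst hk
      exact hk'
  · rintro ⟨h1, h2⟩
    have hne : ∀ I g, cf (f I) g ≠ 0 → I = ∅ := by
      intro I g hg
      by_contra hI
      rw [h1 I hI, cf_zero] at hg
      exact hg rfl
    refine ⟨?_, ?_⟩
    · change f ∈ MF κ (SB (am m Q) ((1 - ((1 : ℕ) : ℤ)) * Q)) 0
      rw [mem_MF (up_SB _ _), hlev]
      intro I g hg
      have hI := hne I g hg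
      subst hI
      have := h2 g hg
      exact ⟨Or.inr ⟨fun i _ => (this.2 i).1, this.1⟩, by simp⟩
    · change dC κ r f ∈ MF κ (SG (am m Q)) (0 + 1)
      rw [mem_MF (up_SG _)]
      intro I g hg
      change cf (∑ i ∈ I, sg i I • f (I.erase i)) g ≠ 0 at hg
      rw [cf_sum] at hg
      obtain ⟨i, hi, hne1⟩ := Finset.exists_ne_zero_of_sum_ne_zero hg
      rw [cf_zsmul] at hne1
      have hne' : cf (f (I.erase i)) g ≠ 0 := fun h0 => hne1 (by rw [h0, smul_zero])
      have hI := hne _ g hne'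
      rw [hI] at hne'
      have h3 := h2 g hne'
      have hI' : I = {i} := by rw [← Finset.insert_erase hi, hI]; rfl
      subst hI'
      exact ⟨⟨fun k _ => (h3.2 k).1, i, hi, (h3.2 i).2⟩, by simp⟩

/-- TASK M5: the cohomology of the level `0` is the module `N_a`. -/
theorem coh_zero (m : Fin (r + 1)) (Q : ℕ) :
    Nonempty ((↥(cz (dC κ r) (MF κ (SW (am m Q) Q 1)) (MF κ (SG (am m Q))) 0) ⧸
      (cb (dC κ r) (MF κ (SW (am m Q) Q 1)) (MF κ (SG (am m Q))) 0).submoduleOf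
        (cz (dC κ r) (MF κ (SW (am m Q) Q 1)) (MF κ (SG (am m Q))) 0)) ≃ₗ[PP κ r]
      ↥(NMon κ (SN (am m Q)))) := by
  set Z := cz (dC κ r) (MF κ (SW (am m Q) Q 1)) (MF κ (SG (am m Q))) 0 with hZ
  set B := cb (dC κ r) (MF κ (SW (am m Q) Q 1)) (MF κ (SG (am m Q))) 0 with hB
  let f : ↥Z →ₗ[PP κ r] ↥(NMon κ (SN (am m Q))) :=
    LinearMap.codRestrict _ ((LinearMap.proj (∅ : Finset (Fin r))).comp Z.subtype) (fun z =>
      (mem_NMon (nup_SN _) _).2 ((cz_zero_iff m Q z.1).1 z.2).2)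
  have hf : Function.Surjective f := by
    intro y
    refine ⟨⟨Pi.single ∅ y.1, ?_⟩, ?_⟩
    · refine (cz_zero_iff m Q _).2 ⟨fun I hI => Pi.single_eq_of_ne hI _, ?_⟩
      rw [Pi.single_eq_same]
      exact (mem_NMon (nup_SN _) _).1 y.2
    · apply Subtype.ext
      change (Pi.single ∅ y.1 : Lam κ r) ∅ = y.1
      rw [Pi.single_eq_same]
  have hk : LinearMap.ker f = B.submoduleOf Z := by
    ext z
    rw [LinearMap.mem_ker]
    have hz := (cz_zero_iff m Q z.1).1 z.2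
    constructor
    · intro h0
      have h1 : z.1 ∅ = 0 := congrArg Subtype.val h0
      have h2 : z.1 = 0 := by
        funext I
        by_cases hI : I = ∅
        · rw [hI]; exact h1
        · exact hz.1 I hI
      change z.1 ∈ B
      rw [h2]
      exact B.zero_mem
    · intro h0
      replace h0 : z.1 ∈ B := h0
      obtain ⟨y, hy, x, hx, hxy⟩ := Submodule.mem_sup.1 h0
      obtain ⟨w, hw, rfl⟩ := hy
      replace hw : w ∈ MF κ (SB (am m Q) ((1 - ((1 : ℕ) : ℤ)) * Q)) (0 - 1) := hw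
      rw [mem_MF (up_SB _ _)] at hw
      rw [mem_MF (up_SG _)] at hx
      apply Subtype.ext
      change z.1 ∅ = 0
      rw [← hxy, Pi.add_apply]
      have e1 : dC κ r w ∅ = 0 := by
        change (∑ i ∈ (∅ : Finset (Fin r)), sg i ∅ • w ((∅ : Finset (Fin r)).erase i)) = 0
        simp
      have e2 : x ∅ = 0 := by
        refine cf_ext fun g => ?_
        rw [cf_zero]
        by_contra hne
        obtain ⟨i, hi, _⟩ := (hx ∅ g hne).1.2
        exact absurd hi (Finset.notMem_empty i)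
      rw [e1, e2, add_zero]
  exact ⟨(Submodule.quotEquivOfEq _ _ hk.symm).trans (f.quotKerEquivOfSurjective hf)⟩

end Vale.Agent.P202.CharP
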