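import Vale.Agent.P202.CharP.ClsFin
import Vale.Agent.P202.CharP.KChi
import Vale.Agent.P202.CharP.FrobBasic
import Vale.Agent.P202.Growth
import Vale.Agent.P202.ChiEmin
import Vale.Agent.P202.LechOne

/-!
P202-CHARP, GEN: from Theorem B (`t₀ e(A) ≤ χ(y; S)` for complete `A`) to Lech's inequality for all
Noetherian local rings of characteristic `p` with `F`-finite residue field.
-/

namespace Vale.Agent.P202.CharP

open IsLocalRing Finset Filter Topology

universe u v

section

variable {B : Type u} [CommRing B] [IsLocalRing B] [IsNoetherianRing B]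

theorem PF.kchi_le_length : ∀ {n : ℕ} {y : Fin n → B} {M : Type v} [AddCommGroup M] [Module B M]
    [Module.Finite B M], PF y M →
    kchi y M ≤ ((Module.length B (M ⧸ (Ideal.span (Set.range y) • (⊤ : Submodule B M)))).toNat :
      ℤ) := by
  intro n
  induction n with
  | zero =>
    intro y M _ _ _ _
    unfold kchi
    rw [zero_add, Finset.sum_range_one, pow_zero, one_mul, Nat.cast_zero, kk_zero]
  | succ n ih =>
    intro y M _ _ _ h
    rw [_root_.Vale.Agent.P202.CharP.kchi_succ y M h.length_ne_top]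
    have h1 := h.tail_ker.kchi_nonneg
    have h2 := ih h.tail_coker
    refine (sub_le_self _ h1).trans (h2.trans ?_)
    have h3 : Module.length B ((M ⧸ LinearMap.range (LinearMap.lsmul B M (y 0))) ⧸
        (Ideal.span (Set.range fun i : Fin n => y i.succ) •
          (⊤ : Submodule B (M ⧸ LinearMap.range (LinearMap.lsmul B M (y 0)))))) ≤
        Module.length B (M ⧸ (Ideal.span (Set.range y) • (⊤ : Submodule B M))) := by
      let f : M →ₗ[B] ((M ⧸ LinearMap.range (LinearMap.lsmul B M (y 0))) ⧸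
        (Ideal.span (Set.range fun i : Fin n => y i.succ) •
          (⊤ : Submodule B (M ⧸ LinearMap.range (LinearMap.lsmul B M (y 0)))))) :=
        (Submodule.mkQ _).comp (Submodule.mkQ _)
      have hf : Function.Surjective f :=
        (Submodule.mkQ_surjective _).comp (Submodule.mkQ_surjective _)
      have hle : Ideal.span (Set.range y) • (⊤ : Submodule B M) ≤ LinearMap.ker f := by
        rw [Submodule.smul_le]
        intro a ha m _
        have key : ∀ i, ∀ m : M, f (y i • m) = 0 := by
          intro i m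
          refine Fin.cases ?_ (fun j => ?_) i
          · have h4 : (Submodule.mkQ (LinearMap.range (LinearMap.lsmul B M (y 0)))) (y 0 • m) =
                0 := by
              rw [Submodule.mkQ_apply, Submodule.Quotient.mk_eq_zero]
              exact ⟨m, rfl⟩
            change (Submodule.mkQ _) ((Submodule.mkQ _) (y 0 • m)) = 0
            rw [h4, map_zero]
          · change (Submodule.mkQ _) ((Submodule.mkQ _) (y j.succ • m)) = 0
            rw [map_smul, Submodule.mkQ_apply, Submodule.Quotient.mk_eq_zero]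
            exact Submodule.smul_mem_smul (Ideal.subset_span ⟨j, rfl⟩) trivial
        induction ha using Submodule.span_induction with
        | mem a ha =>
          obtain ⟨i, rfl⟩ := ha
          exact key i m
        | zero => rw [zero_smul]; exact Submodule.zero_mem _
        | add a b _ _ h4 h5 => rw [add_smul]; exact Submodule.add_mem _ h4 h5
        | smul c a _ h4 => rw [smul_assoc]; exact Submodule.smul_mem _ _ h4
      exact Module.length_le_of_surjective (Submodule.liftQ _ f hle) (by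
        intro z
        obtain ⟨m, rfl⟩ := hf z
        exact ⟨Submodule.Quotient.mk m, rfl⟩)
    have h4 := h.length_ne_top
    exact_mod_cast ENat.toNat_le_toNat h3 h4

/-- the Euler characteristic is at most the colength. -/
theorem kchi_le_ell {n : ℕ} (y : Fin n → B)
    (hyl : ell (Ideal.span (Set.range y)) ≠ ⊤) :
    kchi y B ≤ ((ell (Ideal.span (Set.range y))).toNat : ℤ) := by
  have e : (Ideal.span (Set.range y) • (⊤ : Submodule B B)) = Ideal.span (Set.range y) := by
    rw [smul_eq_mul, Ideal.mul_top]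
  have h1 : Module.length B (B ⧸ (Ideal.span (Set.range y) • (⊤ : Submodule B B))) ≠ ⊤ := by
    rw [e]
    exact hyl
  have h2 := (pf_of_length_ne_top h1).kchi_le_length
  rw [e] at h2
  exact h2

/-- the Euler characteristic is at most the minimal length of the graded pieces. -/
theorem kchi_le_emin {n : ℕ} (hn : 0 < n) (y : Fin n → B) (hy : ∀ i, y i ∈ maximalIdeal B)
    (hyl : ell (Ideal.span (Set.range y)) ≠ ⊤) :
    ((kchi y B).toNat : ℕ∞) ≤ emin y := by
  obtain ⟨E, hE⟩ := ENat.ne_top_iff_exists.mp (emin_ne_top hyl)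
  obtain ⟨K, hK⟩ := ENat.ne_top_iff_exists.mp (errB_ne_top hyl)
  have hyl' : Module.length B (B ⧸ (Ideal.span (Set.range y) • (⊤ : Submodule B B))) ≠ ⊤ := by
    have h1 : (Ideal.span (Set.range y) • (⊤ : Submodule B B)) = Ideal.span (Set.range y) := by
      rw [smul_eq_mul, Ideal.mul_top]
    rw [h1]
    exact hyl
  have h0 := kchi_nonneg y hy B hyl'
  obtain ⟨L, hL⟩ := Int.eq_ofNat_of_zero_le h0
  have key : L ≤ E := le_of_forall_pow_le (d := n) hn L E K 0 fun q hq => by
    have hfin : ell (Ideal.span (Set.range fun i => y i ^ q)) ≠ ⊤ := by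
      refine ne_top_of_le_ne_top ?_ (ell_span_pow_le y q)
      rw [← hE, ← hK]
      exact WithTop.coe_ne_top
        (a := (q ^ Fintype.card (Fin n) * E + K * q ^ (Fintype.card (Fin n) - 1) : ℕ))
    obtain ⟨L', hL'⟩ := ENat.ne_top_iff_exists.mp hfin
    have h1 := kchi_pow y hy q hq B hyl'
    have h2 := kchi_le_ell (fun i => y i ^ q) hfin
    have h3 := ell_span_pow_le y q
    rw [← hE, ← hK, ← hL', Fintype.card_fin] at h3
    rw [h1, hL, ← hL', ENat.toNat_natCast] at h2
    have h4 : L' ≤ q ^ n * E + K * q ^ (n - 1) := by exact_mod_cast h3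
    have h5 : q ^ n * L ≤ L' := by exact_mod_cast h2
    rw [add_zero]
    calc L * q ^ n = q ^ n * L := mul_comm _ _
      _ ≤ L' := h5
      _ ≤ q ^ n * E + K * q ^ (n - 1) := h4
      _ = E * q ^ n + K * q ^ (n - 1) := by ring
  rw [hL, ← hE]
  exact_mod_cast key

end

/-- The statement of Theorem B: `t₀ e(A) ≤ χ(y; S)`, with `e(A)` in the form `emin x` for a
reduction `x` of the maximal ideal. -/
def TheoremB (p : ℕ) [Fact p.Prime] : Prop :=
  ∀ {A S : Type u} [CommRing A] [IsLocalRing A] [IsNoetherianRing A] [CharP A p]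
    [CharP (ResidueField A) p] [IsAdicComplete (maximalIdeal A) A]
    [Infinite (ResidueField A)]
    (_ : fdeg p (ResidueField A) 1 ≠ ⊤)
    [CommRing S] [IsLocalRing S] [IsNoetherianRing S] [Algebra A S]
    [IsLocalHom (algebraMap A S)] [Module.Flat A S] {r : ℕ} (_ : ringKrullDim A = (r + 1 : ℕ))
    (_ : ringKrullDim S = (r + 1 : ℕ))
    (x : Fin (r + 1) → A) (_ : ∀ i, x i ∈ maximalIdeal A) (s : ℕ)
    (_ : ∀ j, maximalIdeal A ^ (j + s) ≤ Ideal.span (Set.range x) ^ j)
    (y : Fin (r + 1) → S) (_ : ∀ i, y i ∈ maximalIdeal S)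
    (_ : Module.length S (S ⧸ Ideal.span (Set.range y)) ≠ ⊤) (t0 lam : ℕ)
    (_ : Module.length S (S ⧸ ((maximalIdeal A).map (algebraMap A S) ⊔
      Ideal.span (Set.range y))) = t0)
    (_ : emin x = lam),
    (t0 : ℤ) * lam ≤ kchi y S

/-- The complete case for all rings of characteristic `p` from Theorem B. -/
theorem completeCase_of_theoremB (p : ℕ) [Fact p.Prime] (HB : TheoremB.{u} p) {d : ℕ}
    (hd : 0 < d) : CompleteCaseCls.{u} (ClsF p) d 1 := by
  rintro R S _ _ _ _ _ _ _ _ _ _ _ ⟨c1, c2, hF⟩ hR hS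
  obtain ⟨r, rfl⟩ : ∃ r, d = r + 1 := ⟨d - 1, by omega⟩
  have : Infinite (ResidueField S) :=
    Infinite.of_injective (algebraMap (ResidueField R) (ResidueField S)) (RingHom.injective _)
  have hF' : fdeg p (ResidueField R) 1 ≠ ⊤ := (fdeg_ne_top_iff p _).mpr hF
  -- the reduction of the maximal ideal of `R`
  obtain ⟨x, hx, r0, hr0⟩ := exists_reduction_max (A := R) (r + 1) hR
  have hxle : Ideal.span (Set.range x) ≤ maximalIdeal R := by
    rw [Ideal.span_le]
    rintro _ ⟨i, rfl⟩
    exact hx i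
  have hred : IsRed (Ideal.span (Set.range x)) (maximalIdeal R) := ⟨hxle, r0, hr0⟩
  obtain ⟨c0, hc0⟩ := hred.exists_pow_le
  have hxl : ell (Ideal.span (Set.range x)) ≠ ⊤ := by
    have h1 := hc0 1
    rw [pow_one] at h1
    exact ell_ne_top_of_pow_le h1
  -- the reduction of the maximal ideal of `S`
  obtain ⟨y, c, hy, hyl, hmin⟩ := exists_max_reduction (S := S) hS
  have hfib : ell ((maximalIdeal R).map (algebraMap R S)) ≠ ⊤ :=
    ell_fibre_ne_top (R := R) (S := S) (by rw [hR, hS])
  have hloc : (maximalIdeal R).map (algebraMap R S) ≤ maximalIdeal S :=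
    IsLocalRing.map_maximalIdeal_le (algebraMap R S)
  -- Theorem B
  have ht0 : ell ((maximalIdeal R).map (algebraMap R S) ⊔ Ideal.span (Set.range y)) ≠ ⊤ :=
    ne_top_of_le_ne_top hfib (ell_mono le_sup_left)
  obtain ⟨t0, ht0⟩ := ENat.ne_top_iff_exists.mp ht0
  obtain ⟨lam, hlam⟩ := ENat.ne_top_iff_exists.mp (emin_ne_top hxl)
  obtain ⟨eB, heB⟩ := ENat.ne_top_iff_exists.mp (errB_ne_top hxl)
  have hA := HB (A := R) (S := S) hF' hR hS x hx c0 hc0 y hy hyl t0 lam ht0.symm hlam.symm
  have ht1 : 1 ≤ t0 := by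
    have h1 : ell ((maximalIdeal R).map (algebraMap R S) ⊔ Ideal.span (Set.range y)) ≠ 0 := by
      rw [Ne, ell_eq_zero_iff]
      intro h
      have h2 : (maximalIdeal R).map (algebraMap R S) ⊔ Ideal.span (Set.range y) ≤
          maximalIdeal S := by
        refine sup_le hloc ?_
        rw [Ideal.span_le]
        rintro _ ⟨i, rfl⟩
        exact hy i
      rw [h, top_le_iff] at h2
      exact (IsLocalRing.maximalIdeal.isMaximal S).ne_top h2
    rw [← ht0] at h1
    have h3 : t0 ≠ 0 := by exact_mod_cast h1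
    omega
  have hlamL : lam ≤ (kchi y S).toNat := by
    have h1 : (lam : ℤ) ≤ kchi y S := by
      refine le_trans ?_ hA
      have h2 : lam ≤ t0 * lam := Nat.le_mul_of_pos_left _ ht1
      exact_mod_cast h2
    omega
  have hLe : (lam : ℕ∞) ≤ emin y :=
    le_trans (by exact_mod_cast hlamL) (kchi_le_emin (Nat.succ_pos r) y hy hyl)
  -- conclusion
  refine ⟨c, (r + 1).factorial * eB, fun N => ?_⟩
  have h1 : ell (maximalIdeal R ^ N) ≤
      (tri (Fin (r + 1)) N).card * (lam : ℕ∞) + (eB : ℕ∞) * (N ^ r : ℕ) := by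
    refine (ell_mono (Ideal.pow_right_mono hxle N)).trans ?_
    have h2 := ell_pow_le x N
    rw [← hlam, ← heB, Fintype.card_fin, Nat.add_sub_cancel] at h2
    exact h2
  have h2 : (tri (Fin (r + 1)) N).card * (lam : ℕ∞) ≤ ell (maximalIdeal S ^ (N + c)) := by
    calc (tri (Fin (r + 1)) N).card * (lam : ℕ∞) ≤ (tri (Fin (r + 1)) N).card * emin y :=
          mul_le_mul_right hLe _
      _ = emin y * (tri (Fin (r + 1)) N).card := mul_comm _ _
      _ ≤ ell (maximalIdeal S ^ (N + c)) := hmin N
  have h3 : (eB : ℕ∞) * (N ^ r : ℕ) ≤ (eB : ℕ∞) * ((N : ℕ∞) + 1) ^ r := by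
    have h4 : eB * N ^ r ≤ eB * (N + 1) ^ r :=
      Nat.mul_le_mul_left _ (Nat.pow_le_pow_left (Nat.le_succ N) r)
    exact_mod_cast h4
  simp only [Nat.cast_one, one_mul, Nat.add_sub_cancel]
  calc ((r + 1).factorial : ℕ∞) * ell (maximalIdeal R ^ N) ≤
      ((r + 1).factorial : ℕ∞) * (ell (maximalIdeal S ^ (N + c)) +
        (eB : ℕ∞) * ((N : ℕ∞) + 1) ^ r) :=
        mul_le_mul_right (h1.trans (add_le_add h2 h3)) _
    _ = _ := by
        rw [mul_add]
        push_cast
        ring

/-- Lech's inequality in characteristic `p` from Theorem B. -/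
theorem lech_charp_of_theoremB (p : ℕ) [Fact p.Prime] (HB : TheoremB.{u} p) {R S : Type u}
    [CommRing R] [IsLocalRing R] [IsNoetherianRing R]
    [CommRing S] [IsLocalRing S] [IsNoetherianRing S] [Algebra R S]
    [IsLocalHom (algebraMap R S)] [Module.Flat R S] [CharP R p] [CharP (ResidueField R) p]
    (hF : (frobenius (ResidueField R) p).Finite) {d : ℕ} (hd : 0 < d) (hR : ringKrullDim R = d) :
    ∃ s eR eS : ℕ, ringKrullDim S = s ∧ Tendsto (hsSeq R d) atTop (𝓝 (eR : ℝ)) ∧
      Tendsto (hsSeq S s) atTop (𝓝 (eS : ℝ)) ∧ eR ≤ eS := by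
  obtain ⟨s, eR, eS, h1, h2, h3, h4⟩ := lech_final_cls (stable_clsF p) hd
    (completeCase_of_theoremB p HB hd) (R := R) (S := S)
    ⟨inferInstance, inferInstance, hF⟩ hR
  exact ⟨s, eR, eS, h1, h2, h3, by rwa [one_mul] at h4⟩

end Vale.Agent.P202.CharP
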