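import Vale.Agent.P202.CharP.DefsM

/-!
P202-CHARP, the modules `N_a`: monotonicity, shifting, generation of the Ulrich module, finite
generation.
-/

namespace Vale.Agent.P202.CharP

open Submodule TensorProduct

namespace NMod

variable {κ : Type*} [Field κ] {r : ℕ}

/-! ### coefficients and monomials -/

lemma mono_mul (g g' : Gx r) (c c' : κ) :
    (mono g c * mono g' c' : Lau κ r) = mono (g + g') (c * c') := by
  show (AddMonoidAlgebra.single g c * AddMonoidAlgebra.single g' c' : AddMonoidAlgebra κ (Gx r)) = _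
  rw [AddMonoidAlgebra.single_mul_single]
  rfl

lemma mono_zero_one : (mono (0 : Gx r) (1 : κ) : Lau κ r) = 1 := rfl

lemma cf_mono (g k : Gx r) (c : κ) : cf (mono g c : Lau κ r) k = if g = k then c else 0 := by
  classical
  unfold cf mono
  rw [AddMonoidAlgebra.coeff_single, Finsupp.single_apply]

lemma cf_mono_mul (g : Gx r) (f : Lau κ r) (k : Gx r) :
    cf (mono g 1 * f) k = cf f (k - g) := by
  have := AddMonoidAlgebra.coeff_single_mul_eq_mul_coeff (x := (f : AddMonoidAlgebra κ (Gx r)))
    (r := (1 : κ)) (m := g) (m₁ := k) (k - g) (by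
      intro m' _
      constructor
      · rintro rfl; abel
      · rintro rfl; abel)
  rw [one_mul] at this
  exact this

lemma cf_smul (c : κ) (f : Lau κ r) (k : Gx r) : cf (c • f) k = c * cf f k := rfl

lemma cf_sum {ι : Type*} (s : Finset ι) (f : ι → Lau κ r) (k : Gx r) :
    cf (∑ i ∈ s, f i) k = ∑ i ∈ s, cf (f i) k := by
  classical
  induction s using Finset.induction_on with
  | empty => simp only [Finset.sum_empty]; exact cf_zero k
  | insert i s hi ih => rw [Finset.sum_insert hi, Finset.sum_insert hi, cf_add, ih]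

lemma cf_neg (f : Lau κ r) (k : Gx r) : cf (-f) k = -cf f k := rfl

lemma cf_sub (f f' : Lau κ r) (k : Gx r) : cf (f - f') k = cf f k - cf f' k := rfl

lemma ext_cf {f f' : Lau κ r} (h : ∀ k, cf f k = cf f' k) : f = f' := by
  have : (AddMonoidAlgebra.coeff f : Gx r →₀ κ) = AddMonoidAlgebra.coeff f' := Finsupp.ext h
  exact AddMonoidAlgebra.coeffAddEquiv.injective this

/-- decomposition into monomials -/
lemma exists_sum_mono (f : Lau κ r) :
    f = ∑ g ∈ (AddMonoidAlgebra.coeff f : Gx r →₀ κ).support, mono g (cf f g) := by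
  classical
  apply ext_cf
  intro k
  rw [cf_sum]
  simp only [cf_mono]
  rw [Finset.sum_ite_eq']
  split_ifs with h
  · rfl
  · exact Finsupp.notMem_support_iff.1 h

lemma X_smul (l : Fin (r + 1)) (f : Lau κ r) :
    (MvPolynomial.X l : PP κ r) • f = xl κ l * f := by
  rw [Algebra.smul_def, algebraMap_X]

lemma C_smul (c : κ) (f : Lau κ r) : (MvPolynomial.C c : PP κ r) • f = c • f := by
  rw [Algebra.smul_def, Algebra.smul_def]
  congr 1
  exact MvPolynomial.aeval_C _ _

lemma cf_X_smul (l : Fin (r + 1)) (f : Lau κ r) (k : Gx r) :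
    cf ((MvPolynomial.X l : PP κ r) • f) k =
      ∑ L ∈ (Finset.univ : Finset (Fin r)).powersetCard l, cf f (k - ex L) := by
  rw [X_smul]
  unfold xl
  rw [Finset.sum_mul, cf_sum]
  exact Finset.sum_congr rfl fun L _ => cf_mono_mul _ _ _

noncomputable instance : IsScalarTower κ (PP κ r) (Lau κ r) where
  smul_assoc c q f := by
    rw [MvPolynomial.smul_eq_C_mul, mul_smul, C_smul]

/-! ### membership -/

lemma supp_of_mem {E : Set (Gx r)} {f : Lau κ r} (hf : f ∈ NMon κ E) {g : Gx r}
    (h : cf f g ≠ 0) : g ∈ E := by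
  refine hf 1 g ?_
  rwa [one_smul]

lemma mem_of_supp {E : Set (Gx r)} (hE : NUp E) {f : Lau κ r} (hf : ∀ g, cf f g ≠ 0 → g ∈ E) :
    f ∈ NMon κ E := by
  intro q
  induction q using MvPolynomial.induction_on generalizing f with
  | C c =>
    intro g h
    rw [C_smul, cf_smul] at h
    exact hf g (right_ne_zero_of_mul h)
  | add p q hp hq =>
    intro g h
    rw [add_smul, cf_add] at h
    by_cases h1 : cf (p • f) g = 0
    · rw [h1, zero_add] at h
      exact hq hf g h
    · exact hp hf g h1
  | mul_X p l hp =>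
    intro g h
    rw [mul_smul] at h
    refine hp ?_ g h
    intro k hk
    rw [cf_X_smul] at hk
    obtain ⟨L, _, hL⟩ := Finset.exists_ne_zero_of_sum_ne_zero hk
    have := hE _ L (hf _ hL)
    rwa [sub_add_cancel] at this

lemma nup_SN' (a : Fin r → ℤ) : NUp (SN a) := by
  intro g L hg
  refine ⟨?_, fun i => ?_⟩
  · show 0 ≤ g.2 + 1
    have := hg.1
    omega
  · have h := hg.2 i
    show 0 ≤ g.1 i + (if i ∈ L then 1 else 0) ∧ g.1 i + (if i ∈ L then 1 else 0) ≤ a i + (g.2 + 1)
    split_ifs <;> omega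

lemma nup_SNge (a : Fin r → ℤ) (c : ℤ) : NUp (SN a ∩ {g | c ≤ g.2}) := by
  intro g L hg
  refine ⟨nup_SN' a g L hg.1, ?_⟩
  show c ≤ g.2 + 1
  have : c ≤ g.2 := hg.2
  omega

lemma nmon_mono {E E' : Set (Gx r)} (h : E ⊆ E') : NMon κ E ≤ NMon κ E' :=
  fun _ hf q g hg => h (hf q g hg)

end NMod

open NMod

variable {κ : Type*} [Field κ] {r : ℕ}

/-- TASK M7: monotonicity and finite generation of the modules `N_a`. -/
theorem NMon_mono {a a' : Fin r → ℤ} (h : ∀ i, a i ≤ a' i) :
    NMon κ (SN a) ≤ NMon κ (SN a') := by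
  refine nmon_mono fun g hg => ⟨hg.1, fun i => ⟨(hg.2 i).1, ?_⟩⟩
  have := (hg.2 i).2
  have := h i
  omega

namespace NMod

/-- multiplication by `τ^c` -/
noncomputable def tauMul (κ : Type*) [Field κ] (r : ℕ) (c : ℤ) : Lau κ r →ₗ[PP κ r] Lau κ r :=
  LinearMap.mulLeft (PP κ r) (mono ((0, c) : Gx r) 1)

lemma tauMul_apply (c : ℤ) (f : Lau κ r) : tauMul κ r c f = mono ((0, c) : Gx r) 1 * f := rfl

lemma cf_tauMul (c : ℤ) (f : Lau κ r) (k : Gx r) :
    cf (tauMul κ r c f) k = cf f (k - (0, c)) := cf_mono_mul _ _ _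

lemma tauMul_tauMul (c : ℤ) (f : Lau κ r) : tauMul κ r c (tauMul κ r (-c) f) = f := by
  apply ext_cf
  intro k
  rw [cf_tauMul, cf_tauMul]
  congr 1
  ext i
  · simp
  · simp

lemma tauMul_tauMul' (c : ℤ) (f : Lau κ r) : tauMul κ r (-c) (tauMul κ r c f) = f := by
  have := tauMul_tauMul (-c) f
  rwa [neg_neg] at this

lemma tauMul_mem {E E' : Set (Gx r)} {c : ℤ} (h : ∀ g, g - (0, c) ∈ E → g ∈ E') {f : Lau κ r}
    (hf : f ∈ NMon κ E) : tauMul κ r c f ∈ NMon κ E' := by
  intro q g hg
  rw [← map_smul, cf_tauMul] at hg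
  exact h g (hf q _ hg)

lemma mX_smul_le (a : Fin r → ℤ) (c : ℤ) :
    mX κ r • NMon κ (SN a ∩ {g | c ≤ g.2}) ≤ NMon κ (SN a ∩ {g | c + 1 ≤ g.2}) := by
  rw [mX, Submodule.span_smul_eq]
  refine Submodule.set_smul_le _ _ _ ?_
  rintro _ f ⟨l, rfl⟩ hf
  refine mem_of_supp (nup_SNge a (c + 1)) fun g hg => ?_
  rw [cf_X_smul] at hg
  obtain ⟨L, _, hL⟩ := Finset.exists_ne_zero_of_sum_ne_zero hg
  have h1 := supp_of_mem hf hL
  have h2 := nup_SN' a _ L h1.1
  rw [sub_add_cancel] at h2
  refine ⟨h2, ?_⟩
  have h3 : c ≤ (g - ex L).2 := h1.2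
  have h4 : (g - ex L).2 = g.2 - 1 := rfl
  show c + 1 ≤ g.2
  omega

lemma mX_pow_smul_le (a : Fin r → ℤ) (c : ℕ) :
    (mX κ r) ^ c • NMon κ (SN a) ≤ NMon κ (SN a ∩ {g | (c : ℤ) ≤ g.2}) := by
  induction c with
  | zero =>
    rw [pow_zero, Ideal.one_eq_top, Submodule.top_smul]
    exact nmon_mono fun g hg => ⟨hg, by simpa using hg.1⟩
  | succ c ih =>
    rw [pow_succ', Submodule.mul_smul]
    refine (Submodule.smul_mono le_rfl ih).trans ?_
    push_cast
    exact mX_smul_le a c

/-- the finite set of monomials of `N_a` in `τ`-degree below `c` -/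
lemma finite_low (a : Fin r → ℤ) (c : ℤ) : (SN a ∩ {g : Gx r | g.2 < c}).Finite := by
  have h1 : (Set.univ.pi (fun i : Fin r => Set.Icc (0 : ℤ) (a i + c)) ×ˢ Set.Icc (0 : ℤ) c).Finite :=
    (Set.Finite.pi fun i => Set.finite_Icc _ _).prod (Set.finite_Icc _ _)
  refine h1.subset ?_
  rintro g ⟨hg, hg'⟩
  have hg'' : g.2 < c := hg'
  refine ⟨fun i _ => ?_, hg.1, hg''.le⟩
  have := hg.2 i
  exact ⟨this.1, by omega⟩

end NMod

/-- TASK M9: shifting a twist vector. -/
theorem NMon_shift (a : Fin r → ℤ) (c : ℕ) :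
    ∃ ψ : ↥(NMon κ (SN fun i => a i + c)) →ₗ[PP κ r] ↥(NMon κ (SN a)),
      Function.Injective ψ ∧ (mX κ r) ^ c • (⊤ : Submodule (PP κ r) ↥(NMon κ (SN a))) ≤
        LinearMap.range ψ ∧
      Module.length (PP κ r) (↥(NMon κ (SN a)) ⧸ LinearMap.range ψ) ≠ ⊤ := by
  classical
  let ψ : ↥(NMon κ (SN fun i => a i + c)) →ₗ[PP κ r] ↥(NMon κ (SN a)) :=
    (tauMul κ r c).restrict (fun f hf => tauMul_mem (c := (c : ℤ)) (fun g hg => by
      refine ⟨?_, fun i => ?_⟩
      · have h1 : 0 ≤ g.2 - c := hg.1
        omega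
      · have h1 : 0 ≤ g.1 i - 0 ∧ g.1 i - 0 ≤ a i + c + (g.2 - c) := hg.2 i
        omega) hf)
  have hψ : ∀ f, ((ψ f : ↥(NMon κ (SN a))) : Lau κ r) = tauMul κ r c f := fun f => rfl
  have hrange : ∀ f : ↥(NMon κ (SN a)), (∀ g, cf (f : Lau κ r) g ≠ 0 → (c : ℤ) ≤ g.2) →
      f ∈ LinearMap.range ψ := by
    intro f hf
    refine ⟨⟨tauMul κ r (-c) f, ?_⟩, ?_⟩
    · refine mem_of_supp (nup_SN' _) fun g hg => ?_
      rw [cf_tauMul] at hg
      have h1 := supp_of_mem f.2 hg
      have h2 := hf _ hg
      have h3 : (c : ℤ) ≤ g.2 - -c := h2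
      have h4 : ∀ i, 0 ≤ g.1 i - 0 ∧ g.1 i - 0 ≤ a i + (g.2 - -c) := h1.2
      refine ⟨by omega, fun i => ?_⟩
      have := h4 i
      show 0 ≤ g.1 i ∧ g.1 i ≤ a i + c + g.2
      omega
    · apply Subtype.ext
      rw [hψ]
      exact tauMul_tauMul _ _
  refine ⟨ψ, ?_, ?_, ?_⟩
  · intro f f' h
    have h1 : tauMul κ r c f = tauMul κ r c f' := congrArg Subtype.val h
    have h2 := congrArg (tauMul κ r (-c)) h1
    rw [tauMul_tauMul', tauMul_tauMul'] at h2
    exact Subtype.ext h2
  · intro f hf
    apply hrange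
    have h1 : (f : Lau κ r) ∈ (mX κ r) ^ c • NMon κ (SN a) := by
      have h2 := Submodule.mem_map_of_mem (f := (NMon κ (SN a)).subtype) hf
      rw [Submodule.map_smul'', Submodule.map_top, Submodule.range_subtype] at h2
      exact h2
    intro g hg
    exact (supp_of_mem (mX_pow_smul_le a c h1) hg).2
  · -- the quotient is finite dimensional over the field
    have hfin := finite_low a (c : ℤ)
    have : Fintype ↥(SN a ∩ {g : Gx r | g.2 < c}) := hfin.fintype
    let Q := ↥(NMon κ (SN a)) ⧸ LinearMap.range ψ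
    have : IsScalarTower κ (PP κ r) Q := inferInstance
    have hfd : Module.Finite κ Q := by
      let T := ↥(SN a ∩ {g : Gx r | g.2 < c})
      let sec : (T → κ) →ₗ[κ] ↥(NMon κ (SN a)) :=
        { toFun := fun v => ⟨∑ t : T, mono t.1 (v t), mem_of_supp (nup_SN' _) fun g hg => by
            rw [cf_sum] at hg
            obtain ⟨t, _, ht⟩ := Finset.exists_ne_zero_of_sum_ne_zero hg
            rw [cf_mono] at ht
            split_ifs at ht with h
            · rw [← h]
              exact t.2.1
            · exact absurd rfl ht⟩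
          map_add' := fun v v' => by
            apply Subtype.ext
            apply ext_cf
            intro k
            show cf (∑ t : T, mono t.1 ((v + v') t)) k =
              cf (∑ t : T, mono t.1 (v t) + ∑ t : T, mono t.1 (v' t)) k
            rw [cf_add, cf_sum, cf_sum, cf_sum, ← Finset.sum_add_distrib]
            refine Finset.sum_congr rfl fun t _ => ?_
            rw [cf_mono, cf_mono, cf_mono]
            split_ifs
            · rfl
            · rw [add_zero]
          map_smul' := fun x v => by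
            apply Subtype.ext
            apply ext_cf
            intro k
            show cf (∑ t : T, mono t.1 ((x • v) t)) k = cf (x • ∑ t : T, mono t.1 (v t)) k
            rw [cf_smul, cf_sum, cf_sum, Finset.mul_sum]
            refine Finset.sum_congr rfl fun t _ => ?_
            rw [cf_mono, cf_mono]
            split_ifs
            · rfl
            · rw [mul_zero] }
      let pr : ↥(NMon κ (SN a)) →ₗ[κ] Q := ((LinearMap.range ψ).mkQ).restrictScalars κ
      refine Module.Finite.of_surjective (pr.comp sec) ?_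
      intro x
      obtain ⟨f, rfl⟩ := Submodule.mkQ_surjective _ x
      refine ⟨fun t => cf (f : Lau κ r) t.1, ?_⟩
      show (LinearMap.range ψ).mkQ (sec fun t => cf (f : Lau κ r) t.1) = (LinearMap.range ψ).mkQ f
      rw [← sub_eq_zero, ← map_sub, Submodule.mkQ_apply, Submodule.Quotient.mk_eq_zero]
      apply hrange
      intro g hg
      by_contra hlt
      push Not at hlt
      apply hg
      show cf ((∑ t : T, mono t.1 (cf (f : Lau κ r) t.1)) - (f : Lau κ r)) g = 0
      rw [cf_sub, cf_sum]
      simp only [cf_mono]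
      by_cases hf : cf (f : Lau κ r) g = 0
      · rw [hf, sub_zero]
        refine Finset.sum_eq_zero fun t _ => ?_
        split_ifs with h
        · rw [h, hf]
        · rfl
      · have hgT : g ∈ SN a ∩ {g : Gx r | g.2 < c} := ⟨supp_of_mem f.2 hf, hlt⟩
        rw [Finset.sum_eq_single (⟨g, hgT⟩ : T)]
        · simp
        · intro t _ ht
          rw [if_neg]
          intro h
          exact ht (Subtype.ext h)
        · intro h
          exact absurd (Finset.mem_univ _) h
    have : IsNoetherian (PP κ r) Q := isNoetherian_of_tower κ inferInstance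
    have : IsArtinian (PP κ r) Q := isArtinian_of_tower κ inferInstance
    rw [Module.length_ne_top_iff, isFiniteLength_iff_isNoetherian_isArtinian]
    exact ⟨inferInstance, inferInstance⟩


namespace NMod

/-! ### generation -/

section gen

variable {R : Type*} [CommRing R]

/-- elementary symmetric polynomials of the elements `z 0, .., z (n - 1)` -/
def es (R : Type*) [CommRing R] (n : ℕ) (z : Fin n → R) (l : ℕ) : R :=
  ((List.ofFn z : Multiset R)).esymm l

lemma esymm_cons (x : R) (s : Multiset R) (l : ℕ) :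
    (x ::ₘ s).esymm (l + 1) = s.esymm (l + 1) + x * s.esymm l := by
  unfold Multiset.esymm
  rw [Multiset.powersetCard_cons, Multiset.map_add, Multiset.sum_add, Multiset.map_map]
  congr 1
  simp only [Function.comp_def, Multiset.prod_cons]
  rw [Multiset.sum_map_mul_left]

lemma es_succ (n : ℕ) (z : Fin (n + 1) → R) (l : ℕ) :
    es R (n + 1) z (l + 1) = es R n (fun i => z i.succ) (l + 1) + z 0 * es R n (fun i => z i.succ) l := by
  unfold es
  rw [List.ofFn_succ, ← Multiset.cons_coe, esymm_cons]

lemma es_zero (n : ℕ) (z : Fin n → R) : es R n z 0 = 1 := by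
  unfold es
  simp [Multiset.esymm]

lemma es_big (n : ℕ) (z : Fin n → R) (l : ℕ) (h : n < l) : es R n z l = 0 := by
  unfold es Multiset.esymm
  rw [Multiset.powersetCard_eq_empty]
  · simp
  · simpa using h

lemma es_eq (n : ℕ) (z : Fin n → R) (l : ℕ) :
    es R n z l = ∑ L ∈ (Finset.univ : Finset (Fin n)).powersetCard l, ∏ i ∈ L, z i := by
  unfold es
  rw [← Finset.esymm_map_val, Fin.univ_val_map]

variable {κ : Type*} [Field κ] [Algebra κ R]

/-- span of the monomials with bounded exponents -/
def Sp (κ : Type*) [Field κ] [Algebra κ R] {n : ℕ} (z : Fin n → R) (b : Fin n → ℕ) :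
    Submodule κ R :=
  Submodule.span κ {x | ∃ s : Fin n → ℕ, (∀ i, s i ≤ b i) ∧ x = ∏ i, z i ^ s i}

/-- the right hand side of the generation statement -/
def Om (κ : Type*) [Field κ] [Algebra κ R] {n : ℕ} (z : Fin n → R) (b : Fin n → ℕ) :
    Submodule κ R :=
  Submodule.span κ {x | ∃ l ≤ n, ∃ f ∈ Sp κ z b, x = es R n z l * f}

lemma Sp_cons {n : ℕ} (z : Fin (n + 1) → R) (b : Fin (n + 1) → ℕ) {t : ℕ} (ht : t ≤ b 0) {f : R}
    (hf : f ∈ Sp κ (fun i => z i.succ) (fun i => b i.succ)) : z 0 ^ t * f ∈ Sp κ z b := by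
  unfold Sp at hf
  induction hf using Submodule.span_induction with
  | mem x hx =>
    obtain ⟨s, hs, rfl⟩ := hx
    refine Submodule.subset_span ⟨Fin.cons t s, ?_, ?_⟩
    · intro i
      refine Fin.cases ?_ (fun j => ?_) i
      · simpa using ht
      · simpa using hs j
    · rw [Fin.prod_univ_succ]
      simp
  | zero => rw [mul_zero]; exact Submodule.zero_mem _
  | add x y _ _ hx hy => rw [mul_add]; exact Submodule.add_mem _ hx hy
  | smul c x _ hx => rw [mul_smul_comm]; exact Submodule.smul_mem _ _ hx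

lemma Om_es {n : ℕ} (z : Fin n → R) (b : Fin n → ℕ) (l : ℕ) {f : R} (hf : f ∈ Sp κ z b) :
    es R n z l * f ∈ Om κ z b := by
  by_cases h : l ≤ n
  · exact Submodule.subset_span ⟨l, h, f, hf, rfl⟩
  · rw [es_big n z l (by omega), zero_mul]
    exact Submodule.zero_mem _

/-- the main generation lemma -/
theorem Sp_le_Om : ∀ (n : ℕ) (z : Fin n → R) (b : Fin n → ℕ), (∀ i : Fin n, n ≤ b i + 1 + i) →
    Sp κ z (fun i => b i + 1) ≤ Om κ z b := by
  intro n
  induction n with
  | zero =>
    intro z b _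
    refine Submodule.span_le.2 ?_
    rintro x ⟨s, _, rfl⟩
    have h : (∏ i, z i ^ s i) ∈ Sp κ z b :=
      Submodule.subset_span ⟨s, fun i => i.elim0, rfl⟩
    have h2 := Om_es z b 0 h
    rwa [es_zero, one_mul] at h2
  | succ n ih =>
    intro z b hb
    have hb0 : n ≤ b 0 := by
      have := hb 0
      simp at this
      omega
    have ih' := ih (fun i => z i.succ) (fun i => b i.succ) (fun i => by
      have := hb i.succ
      simp only [Fin.val_succ] at this
      omega)
    set e' : ℕ → R := es R n (fun i => z i.succ) with he'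
    -- the elements below the diagonal
    have hlow : ∀ l t, t + l ≤ b 0 → ∀ f ∈ Sp κ (fun i => z i.succ) (fun i => b i.succ),
        e' l * f * z 0 ^ t ∈ Om κ z b := by
      intro l
      induction l with
      | zero =>
        intro t ht f hf
        have h1 := Om_es z b 0 (Sp_cons z b (t := t) (by omega) hf)
        rw [es_zero, one_mul] at h1
        rw [he', es_zero, one_mul, mul_comm]
        exact h1
      | succ l ihl =>
        intro t ht f hf
        have h1 := Om_es z b (l + 1) (Sp_cons z b (t := t) (by omega) hf)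
        have h2 := ihl (t + 1) (by omega) f hf
        have h3 := Submodule.sub_mem _ h1 h2
        have h4 : es R (n + 1) z (l + 1) * (z 0 ^ t * f) - e' l * f * z 0 ^ (t + 1) =
            e' (l + 1) * f * z 0 ^ t := by
          rw [es_succ]
          simp only [he']
          ring
        rwa [h4] at h3
    -- the elements above the diagonal
    have hhigh : ∀ m l t, l + m = n → n + 1 ≤ t + l → t ≤ b 0 + 1 →
        ∀ f ∈ Sp κ (fun i => z i.succ) (fun i => b i.succ), e' l * f * z 0 ^ t ∈ Om κ z b := by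
      intro m
      induction m with
      | zero =>
        intro l t hl ht htb f hf
        obtain ⟨t, rfl⟩ : ∃ t', t = t' + 1 := ⟨t - 1, by omega⟩
        have h1 := Om_es z b (l + 1) (Sp_cons z b (t := t) (by omega) hf)
        have h4 : es R (n + 1) z (l + 1) * (z 0 ^ t * f) = e' l * f * z 0 ^ (t + 1) := by
          rw [es_succ, es_big n _ (l + 1) (by omega)]
          simp only [he']
          ring
        rwa [h4] at h1
      | succ m ihm =>
        intro l t hl ht htb f hf
        obtain ⟨t, rfl⟩ : ∃ t', t = t' + 1 := ⟨t - 1, by omega⟩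
        have h1 := Om_es z b (l + 1) (Sp_cons z b (t := t) (by omega) hf)
        have h2 := ihm (l + 1) t (by omega) (by omega) (by omega) f hf
        have h3 := Submodule.sub_mem _ h1 h2
        have h4 : es R (n + 1) z (l + 1) * (z 0 ^ t * f) - e' (l + 1) * f * z 0 ^ t =
            e' l * f * z 0 ^ (t + 1) := by
          rw [es_succ]
          simp only [he']
          ring
        rwa [h4] at h3
    have hall : ∀ l t, l ≤ n → t ≤ b 0 + 1 →
        ∀ f ∈ Sp κ (fun i => z i.succ) (fun i => b i.succ), e' l * f * z 0 ^ t ∈ Om κ z b := by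
      intro l t hl ht f hf
      by_cases h : t + l ≤ b 0
      · exact hlow l t h f hf
      · exact hhigh (n - l) l t (by omega) (by omega) ht f hf
    -- all elements of `Om' z_0^t`
    have hOm : ∀ t, t ≤ b 0 + 1 → ∀ x ∈ Om κ (fun i => z i.succ) (fun i => b i.succ),
        x * z 0 ^ t ∈ Om κ z b := by
      intro t ht x hx
      unfold Om at hx
      induction hx using Submodule.span_induction with
      | mem x hx =>
        obtain ⟨l, hl, f, hf, rfl⟩ := hx
        exact hall l t hl ht f hf
      | zero => rw [zero_mul]; exact Submodule.zero_mem _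
      | add x y _ _ hx hy => rw [add_mul]; exact Submodule.add_mem _ hx hy
      | smul c x _ hx => rw [smul_mul_assoc]; exact Submodule.smul_mem _ _ hx
    refine Submodule.span_le.2 ?_
    rintro x ⟨s, hs, rfl⟩
    rw [Fin.prod_univ_succ, mul_comm]
    refine hOm (s 0) (hs 0) _ (ih' ?_)
    exact Submodule.subset_span ⟨fun i => s i.succ, fun i => hs i.succ, rfl⟩

end gen

variable {κ : Type*} [Field κ] {r : ℕ}

/-- the variables `Z_i` -/
noncomputable def zv (κ : Type*) [Field κ] (r : ℕ) (i : Fin r) : Lau κ r :=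
  mono (Pi.single i 1, 0) 1

lemma prod_zv (L : Finset (Fin r)) :
    ∏ i ∈ L, zv κ r i = mono ((fun i => if i ∈ L then 1 else 0, 0) : Gx r) 1 := by
  classical
  induction L using Finset.induction_on with
  | empty =>
    rw [Finset.prod_empty]
    simp only [Finset.notMem_empty, if_false]
    rfl
  | insert i L hi ih =>
    rw [Finset.prod_insert hi, ih, zv, mono_mul, one_mul]
    congr 1
    ext j
    · show (Pi.single i 1 : Fin r → ℤ) j + (if j ∈ L then 1 else 0) =
        if j ∈ insert i L then 1 else 0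
      rcases eq_or_ne j i with rfl | h
      · simp [hi]
      · simp [h]
    · rfl

lemma zv_pow (i : Fin r) (m : ℕ) : zv κ r i ^ m = mono ((m : ℤ) • (Pi.single i 1, 0)) 1 := by
  induction m with
  | zero => rw [pow_zero, Nat.cast_zero, zero_smul]; rfl
  | succ m ih =>
    rw [pow_succ, ih, zv, mono_mul, one_mul]
    congr 1
    rw [Nat.cast_succ, add_smul, one_smul]

lemma prod_zv_pow (s : Fin r → ℕ) :
    ∏ i, zv κ r i ^ s i = mono ((fun i => (s i : ℤ), 0) : Gx r) 1 := by
  classical
  have h : ∀ L : Finset (Fin r), ∏ i ∈ L, zv κ r i ^ s i =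
      mono ((fun i => if i ∈ L then (s i : ℤ) else 0, 0) : Gx r) 1 := by
    intro L
    induction L using Finset.induction_on with
    | empty =>
      rw [Finset.prod_empty]
      simp only [Finset.notMem_empty, if_false]
      rfl
    | insert i L hi ih =>
      rw [Finset.prod_insert hi, ih, zv_pow, mono_mul, one_mul]
      congr 1
      ext j
      · show (s i : ℤ) • (Pi.single i 1 : Fin r → ℤ) j + (if j ∈ L then (s j : ℤ) else 0) =
          if j ∈ insert i L then (s j : ℤ) else 0
        rcases eq_or_ne j i with rfl | h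
        · simp [hi]
        · simp [h]
      · show (s i : ℤ) • (0 : ℤ) + 0 = 0
        simp
  rw [h]
  simp

lemma xl_eq (l : Fin (r + 1)) :
    xl κ l = es (Lau κ r) r (zv κ r) l * mono ((0, 1) : Gx r) 1 := by
  rw [es_eq, Finset.sum_mul]
  unfold xl
  refine Finset.sum_congr rfl fun L _ => ?_
  rw [prod_zv, mono_mul, one_mul]
  congr 1
  ext j
  · show (if j ∈ L then (1 : ℤ) else 0) = (if j ∈ L then (1 : ℤ) else 0) + 0
    rw [add_zero]
  · rfl

/-- the twist vector of the Ulrich module -/
def ul (r : ℕ) (i : Fin r) : ℤ := (r : ℤ) - 1 - (i : ℕ)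

/-- exponents of the generators -/
abbrev GI (r : ℕ) : Type := ∀ i : Fin r, Fin (r - i)

lemma card_GI (r : ℕ) : Fintype.card (GI r) = r.factorial := by
  rw [Fintype.card_pi]
  simp only [Fintype.card_fin]
  rw [Fin.prod_univ_eq_prod_range (fun i => r - i) r, ← Nat.descFactorial_self,
    Nat.descFactorial_eq_prod_range]

/-- the generators -/
noncomputable def gn (κ : Type*) [Field κ] (r : ℕ) (s : GI r) : Lau κ r :=
  mono ((fun i => ((s i : ℕ) : ℤ), 0) : Gx r) 1

lemma gn_mem (s : GI r) : gn κ r s ∈ NMon κ (SN (ul r)) := by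
  refine mem_of_supp (nup_SN' _) fun g hg => ?_
  rw [gn, cf_mono] at hg
  split_ifs at hg with h
  · rw [← h]
    refine ⟨le_rfl, fun i => ?_⟩
    show (0 : ℤ) ≤ ((s i : ℕ) : ℤ) ∧ ((s i : ℕ) : ℤ) ≤ ul r i + 0
    have h1 := (s i).isLt
    have h2 := i.isLt
    unfold ul
    omega
  · exact absurd rfl hg

/-- the submodule generated by the generators -/
noncomputable def GG (κ : Type*) [Field κ] (r : ℕ) : Submodule (PP κ r) (Lau κ r) :=
  Submodule.span (PP κ r) (Set.range (gn κ r))

lemma mono_smul (g : Gx r) (c : κ) : (mono g c : Lau κ r) = (MvPolynomial.C c : PP κ r) • mono g 1 := by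
  rw [C_smul]
  apply ext_cf
  intro k
  rw [cf_smul, cf_mono, cf_mono]
  split_ifs
  · rw [mul_one]
  · rw [mul_zero]

lemma mono_mem_GG (j : ℕ) : ∀ s : Fin r → ℕ, (∀ i, (s i : ℤ) ≤ ul r i + j) →
    (mono ((fun i => (s i : ℤ), (j : ℤ)) : Gx r) 1 : Lau κ r) ∈ GG κ r := by
  induction j with
  | zero =>
    intro s hs
    refine Submodule.subset_span ⟨fun i => ⟨s i, ?_⟩, ?_⟩
    · have h1 := hs i
      have h2 := i.isLt
      unfold ul at h1
      omega
    · rfl
  | succ j ih =>
    intro s hs
    -- the bounds of the previous level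
    set b : Fin r → ℕ := fun i => (ul r i + j).toNat with hb
    have hbz : ∀ i, (b i : ℤ) = ul r i + j := by
      intro i
      have h2 := i.isLt
      simp only [hb]
      unfold ul
      omega
    have h1 : (∏ i, zv κ r i ^ s i) ∈ Sp κ (zv κ r) (fun i => b i + 1) := by
      refine Submodule.subset_span ⟨s, fun i => ?_, rfl⟩
      have h3 := hs i
      have h4 := hbz i
      push_cast at h3
      show s i ≤ b i + 1
      omega
    have h2 := Sp_le_Om (κ := κ) r (zv κ r) b (fun i => by
      have h4 := hbz i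
      unfold ul at h4
      omega) h1
    -- elements of the previous level times `τ^j`
    have h3 : ∀ f ∈ Sp κ (zv κ r) b, f * mono ((0, (j : ℤ)) : Gx r) 1 ∈ GG κ r := by
      intro f hf
      unfold Sp at hf
      induction hf using Submodule.span_induction with
      | mem x hx =>
        obtain ⟨s', hs', rfl⟩ := hx
        rw [prod_zv_pow, mono_mul, one_mul]
        have h5 := ih s' (fun i => by
          have := hs' i
          have := hbz i
          omega)
        have h6 : (((fun i => (s' i : ℤ), 0) : Gx r) + ((0, (j : ℤ)) : Gx r)) =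
            (fun i => (s' i : ℤ), (j : ℤ)) := by
          ext i
          · show (s' i : ℤ) + 0 = s' i
            rw [add_zero]
          · show (0 : ℤ) + j = j
            rw [zero_add]
        rw [h6]
        exact h5
      | zero => rw [zero_mul]; exact Submodule.zero_mem _
      | add x y _ _ hx hy => rw [add_mul]; exact Submodule.add_mem _ hx hy
      | smul c x _ hx =>
        rw [smul_mul_assoc, ← C_smul]
        exact Submodule.smul_mem _ _ hx
    have h4 : ∀ x ∈ Om κ (zv κ r) b, x * mono ((0, (j : ℤ) + 1) : Gx r) 1 ∈ GG κ r := by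
      intro x hx
      unfold Om at hx
      induction hx using Submodule.span_induction with
      | mem x hx =>
        obtain ⟨l, hl, f, hf, rfl⟩ := hx
        have h5 := Submodule.smul_mem (GG κ r)
          (MvPolynomial.X (⟨l, by omega⟩ : Fin (r + 1)) : PP κ r) (h3 f hf)
        rw [X_smul, xl_eq] at h5
        have h6 : es (Lau κ r) r (zv κ r) ((⟨l, by omega⟩ : Fin (r + 1)) : ℕ) *
            mono ((0, 1) : Gx r) 1 * (f * mono ((0, (j : ℤ)) : Gx r) 1) =
            es (Lau κ r) r (zv κ r) l * f * mono ((0, (j : ℤ) + 1) : Gx r) 1 := by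
          have h7 : (mono ((0, (j : ℤ) + 1) : Gx r) 1 : Lau κ r) =
              mono ((0, 1) : Gx r) 1 * mono ((0, (j : ℤ)) : Gx r) 1 := by
            rw [mono_mul, one_mul]
            congr 1
            ext i
            · rfl
            · show (j : ℤ) + 1 = 1 + j
              ring
          rw [h7]
          ring
        rw [h6] at h5
        exact h5
      | zero => rw [zero_mul]; exact Submodule.zero_mem _
      | add x y _ _ hx hy => rw [add_mul]; exact Submodule.add_mem _ hx hy
      | smul c x _ hx =>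
        rw [smul_mul_assoc, ← C_smul]
        exact Submodule.smul_mem _ _ hx
    have h5 := h4 _ h2
    rw [prod_zv_pow, mono_mul, one_mul] at h5
    have h6 : (((fun i => (s i : ℤ), 0) : Gx r) + ((0, (j : ℤ) + 1) : Gx r)) =
        (fun i => (s i : ℤ), ((j + 1 : ℕ) : ℤ)) := by
      ext i
      · show (s i : ℤ) + 0 = s i
        rw [add_zero]
      · show (0 : ℤ) + (j + 1) = ((j + 1 : ℕ) : ℤ)
        push_cast
        ring
    rw [h6] at h5
    exact h5

lemma NMon_ul_le : NMon κ (SN (ul r)) ≤ GG κ r := by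
  intro f hf
  rw [exists_sum_mono f]
  refine Submodule.sum_mem _ fun g hg => ?_
  rw [mono_smul]
  refine Submodule.smul_mem _ _ ?_
  have h1 := supp_of_mem hf (Finsupp.mem_support_iff.1 hg)
  have h2 := mono_mem_GG (κ := κ) g.2.toNat (fun i => (g.1 i).toNat) (fun i => by
    have h3 := h1.2 i
    have h4 := h1.1
    omega)
  have h5 : ((fun i => (((g.1 i).toNat : ℕ) : ℤ), ((g.2.toNat : ℕ) : ℤ)) : Gx r) = g := by
    ext i
    · show (((g.1 i).toNat : ℕ) : ℤ) = g.1 i
      have h3 := h1.2 i
      omega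
    · show ((g.2.toNat : ℕ) : ℤ) = g.2
      have h4 := h1.1
      omega
  rw [h5] at h2
  exact h2

lemma gen_ul (κ : Type*) [Field κ] (r : ℕ) : ∃ φ : (Fin r.factorial → PP κ r) →ₗ[PP κ r]
    ↥(NMon κ (SN (ul r))), Function.Surjective φ := by
  classical
  let e : Fin r.factorial ≃ GI r := (Fintype.equivFinOfCardEq (card_GI r)).symm
  let v : Fin r.factorial → ↥(NMon κ (SN (ul r))) := fun k => ⟨gn κ r (e k), gn_mem _⟩
  refine ⟨Fintype.linearCombination (PP κ r) v, ?_⟩
  rw [← LinearMap.range_eq_top, Fintype.range_linearCombination]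
  rw [eq_top_iff]
  intro f _
  have h1 : (f : Lau κ r) ∈ (Submodule.span (PP κ r) (Set.range v)).map
      (NMon κ (SN (ul r))).subtype := by
    rw [Submodule.map_span, ← Set.range_comp]
    have h2 : Set.range ((NMon κ (SN (ul r))).subtype ∘ v) = Set.range (gn κ r) := by
      have : ((NMon κ (SN (ul r))).subtype ∘ v) = gn κ r ∘ e := rfl
      rw [this, e.surjective.range_comp]
    rw [h2]
    exact NMon_ul_le f.2
  obtain ⟨f', hf', h⟩ := h1
  have : f' = f := Subtype.ext h
  rw [← this]
  exact hf'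

end NMod

/-- TASK M8: the Ulrich module is generated by `r!` elements. -/
theorem NMon_ul_gen : ∃ φ : (Fin r.factorial → PP κ r) →ₗ[PP κ r]
    ↥(NMon κ (SN (fun i : Fin r => (r : ℤ) - 1 - (i : ℕ)))), Function.Surjective φ :=
  gen_ul κ r

/-- TASK M7. -/
theorem NMon_fg (a : Fin r → ℤ) : Module.Finite (PP κ r) ↥(NMon κ (SN a)) := by
  obtain ⟨φ, hφ⟩ := NMon_ul_gen (κ := κ) (r := r)
  have hfin : Module.Finite (PP κ r)
      ↥(NMon κ (SN (fun i : Fin r => (r : ℤ) - 1 - (i : ℕ)))) := Module.Finite.of_surjective φ hφ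
  have hN : IsNoetherian (PP κ r)
      ↥(NMon κ (SN (fun i : Fin r => (r : ℤ) - 1 - (i : ℕ)))) := inferInstance
  obtain ⟨c, hc⟩ : ∃ c : ℕ, ∀ i, a i ≤ (r : ℤ) - 1 - (i : ℕ) + c := by
    refine ⟨∑ i, (a i).natAbs, fun i => ?_⟩
    have h1 : (a i).natAbs ≤ ∑ i, (a i).natAbs :=
      Finset.single_le_sum (f := fun i => (a i).natAbs) (fun _ _ => Nat.zero_le _)
        (Finset.mem_univ i)
    have h2 := i.isLt
    omega
  obtain ⟨ψ, hψ, -, -⟩ := NMon_shift (κ := κ) (fun i : Fin r => (r : ℤ) - 1 - (i : ℕ)) c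
  have hN' : IsNoetherian (PP κ r)
      ↥(NMon κ (SN (fun i : Fin r => (r : ℤ) - 1 - (i : ℕ) + c))) :=
    isNoetherian_of_injective ψ hψ
  have hN'' : IsNoetherian (PP κ r) ↥(NMon κ (SN a)) :=
    isNoetherian_of_injective (Submodule.inclusion (NMon_mono hc)) (Submodule.inclusion_injective _)
  infer_instance

end Vale.Agent.P202.CharP
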