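import Vale.Agent.P202.CharP.DefsF
import Vale.Agent.P202.CharP.KBasic
import Vale.Agent.P202.CharP.KChi
import Vale.Agent.P202.CharP.NMod
import Vale.Agent.P202.ChiLemmas
import Vale.Agent.P202.FinLen

/-!
P202-CHARP, task N: normalization of the Euler characteristics of the modules `N_a`.
-/

namespace Vale.Agent.P202.CharP

open Submodule TensorProduct IsLocalRing

section gen

/-- a module of finite length over a local ring is killed by a power of the maximal ideal. -/
lemma nm_exists_pow {A : Type*} [CommRing A] [IsLocalRing A] {V : Type*} [AddCommGroup V]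
    [Module A V] (hV : Module.length A V ≠ ⊤) :
    ∃ k : ℕ, maximalIdeal A ^ k • (⊤ : Submodule A V) = ⊥ := by
  obtain ⟨hNo, hAr⟩ := isFiniteLength_iff_isNoetherian_isArtinian.mp
    (Module.length_ne_top_iff.mp hV)
  let f : ℕ →o (Submodule A V)ᵒᵈ :=
    ⟨fun k => OrderDual.toDual (maximalIdeal A ^ k • ⊤), fun a b hab =>
      Submodule.smul_mono_left (Ideal.pow_le_pow_right hab)⟩
  obtain ⟨k, hk⟩ := IsArtinian.monotone_stabilizes f
  refine ⟨k, ?_⟩
  have h1 : maximalIdeal A ^ k • (⊤ : Submodule A V)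
      = maximalIdeal A ^ (k + 1) • ⊤ := hk (k + 1) (Nat.le_succ k)
  refine Submodule.eq_bot_of_le_smul_of_le_jacobson_bot (maximalIdeal A) _
    (IsNoetherian.noetherian _) ?_ (IsLocalRing.maximalIdeal_le_jacobson _)
  rw [← mul_smul, ← pow_succ']
  exact h1.le

lemma nm_quot_ne_top {S : Type*} [CommRing S] (I : Ideal S) (hI : Module.length S (S ⧸ I) ≠ ⊤)
    (M : Type*) [AddCommGroup M] [Module S M] [Module.Finite S M] :
    Module.length S (M ⧸ (I • (⊤ : Submodule S M))) ≠ ⊤ := by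
  apply length_ne_top_of_killed hI
  intro r hr m
  obtain ⟨m, rfl⟩ := Submodule.Quotient.mk_surjective _ m
  rw [← Submodule.Quotient.mk_smul, Submodule.Quotient.mk_eq_zero]
  exact Submodule.smul_mem_smul hr trivial

/-- a module killed by a power of the maximal ideal has support of dimension at most zero. -/
lemma nm_dim_lt {S : Type*} [CommRing S] [IsLocalRing S] [IsNoetherianRing S] (M : Type*)
    [AddCommGroup M] [Module S M] (k : ℕ) (hk : maximalIdeal S ^ k ≤ Module.annihilator S M)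
    (n : ℕ) (hn : 0 < n) : ringKrullDim (S ⧸ Module.annihilator S M) < n := by
  have := isArtinianRing_quot hk
  have h : ringKrullDim (S ⧸ Module.annihilator S M) ≤ (0 : ℕ) :=
    (Ring.krullDimLE_iff (n := 0)).mp inferInstance
  refine lt_of_le_of_lt h ?_
  exact_mod_cast hn

end gen

section F

variable {κ : Type*} [Field κ] {r : ℕ} {A A' S : Type*} [CommRing A] [CommRing A'] [CommRing S]
  [Algebra (PP κ r) A'] [Algebra A A'] [Algebra A S]

variable (A A' S) in
/-- the functor `S ⊗ (A' ⊗ -)` on linear maps -/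
noncomputable def nmF {M N : Type*} [AddCommGroup M] [Module (PP κ r) M] [AddCommGroup N]
    [Module (PP κ r) N] (f : M →ₗ[PP κ r] N) :
    (S ⊗[A] (A' ⊗[PP κ r] M)) →ₗ[S] (S ⊗[A] (A' ⊗[PP κ r] N)) :=
  ((f.baseChange A').restrictScalars A).baseChange S

lemma nmF_inj [Module.Flat (PP κ r) A'] [Module.Flat A S] {M N : Type*} [AddCommGroup M]
    [Module (PP κ r) M] [AddCommGroup N] [Module (PP κ r) N] (f : M →ₗ[PP κ r] N)
    (hf : Function.Injective f) : Function.Injective (nmF A A' S f) := by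
  have h1 : Function.Injective ((f.baseChange A').restrictScalars A) :=
    Module.Flat.lTensor_preserves_injective_linearMap (M := A') f hf
  exact Module.Flat.lTensor_preserves_injective_linearMap (M := S) _ h1

lemma nmF_surj {M N : Type*} [AddCommGroup M]
    [Module (PP κ r) M] [AddCommGroup N] [Module (PP κ r) N] (f : M →ₗ[PP κ r] N)
    (hf : Function.Surjective f) : Function.Surjective (nmF A A' S f) := by
  have h1 : Function.Surjective ((f.baseChange A').restrictScalars A) :=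
    LinearMap.lTensor_surjective A' hf
  exact LinearMap.lTensor_surjective S h1

lemma nmF_exact {M N K : Type*} [AddCommGroup M] [Module (PP κ r) M] [AddCommGroup N]
    [Module (PP κ r) N] [AddCommGroup K] [Module (PP κ r) K] (f : M →ₗ[PP κ r] N)
    (g : N →ₗ[PP κ r] K) (hfg : Function.Exact f g) (hg : Function.Surjective g) :
    Function.Exact (nmF A A' S f) (nmF A A' S g) := by
  have h1 : Function.Exact ((f.baseChange A').restrictScalars A)
      ((g.baseChange A').restrictScalars A) := lTensor_exact A' hfg hg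
  have h2 : Function.Surjective ((g.baseChange A').restrictScalars A) :=
    LinearMap.lTensor_surjective A' hg
  exact lTensor_exact S h1 h2

/-- killing: if `J ^ c` kills `Q` and `𝔞` maps into `J A'` then `𝔞 ^ c` kills `A' ⊗ Q`. -/
lemma nm_kill {Q : Type*} [AddCommGroup Q] [Module (PP κ r) Q] (J : Ideal (PP κ r)) (c : ℕ)
    (hQ : ∀ q : Q, ∀ b ∈ J ^ c, b • q = 0) (𝔞 : Ideal A)
    (h𝔞 : 𝔞.map (algebraMap A A') ≤ J.map (algebraMap (PP κ r) A')) (w : A' ⊗[PP κ r] Q)
    (z : A) (hz : z ∈ 𝔞 ^ c) : z • w = 0 := by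
  have hz' : algebraMap A A' z ∈ (J ^ c).map (algebraMap (PP κ r) A') := by
    rw [Ideal.map_pow]
    refine Ideal.pow_right_mono h𝔞 c ?_
    rw [← Ideal.map_pow]
    exact Ideal.mem_map_of_mem _ hz
  have key : ∀ v : A', v ∈ (J ^ c).map (algebraMap (PP κ r) A') → ∀ w : A' ⊗[PP κ r] Q,
      v • w = 0 := by
    intro v hv
    refine Submodule.span_induction ?_ ?_ ?_ ?_ hv
    · rintro _ ⟨b, hb, rfl⟩ w
      induction w with
      | zero => rw [smul_zero]
      | add x y hx hy => rw [smul_add, hx, hy, add_zero]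
      | tmul u q =>
        rw [algebraMap_smul, TensorProduct.smul_tmul', TensorProduct.smul_tmul, hQ q b hb,
          TensorProduct.tmul_zero]
    · intro w; rw [zero_smul]
    · intro x y _ _ hx hy w; rw [add_smul, hx, hy, add_zero]
    · intro a x _ hx w; rw [smul_assoc, hx, smul_zero]
  have h1 := key _ hz' w
  rw [algebraMap_smul] at h1
  exact h1

lemma nm_ann [IsLocalRing A] [IsLocalRing S] [IsNoetherianRing S]
    (hT : Module.length S (S ⧸ (maximalIdeal A).map (algebraMap A S)) ≠ ⊤)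
    (hlam : Module.length A (A' ⧸ (mX κ r).map (algebraMap (PP κ r) A')) ≠ ⊤)
    {Q : Type*} [AddCommGroup Q] [Module (PP κ r) Q] (c : ℕ)
    (hQ : ∀ q : Q, ∀ b ∈ mX κ r ^ c, b • q = 0) :
    ∃ k, maximalIdeal S ^ k ≤ Module.annihilator S (S ⊗[A] (A' ⊗[PP κ r] Q)) := by
  obtain ⟨L, hL⟩ := nm_exists_pow hlam
  obtain ⟨N, hN⟩ := exists_pow_le_of_ell_ne_top hT
  have hL' : (maximalIdeal A ^ L).map (algebraMap A A') ≤
      (mX κ r).map (algebraMap (PP κ r) A') := by
    rw [Ideal.map_le_iff_le_comap]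
    intro a ha
    rw [Ideal.mem_comap]
    have h1 : a • (Submodule.Quotient.mk (1 : A') :
        A' ⧸ (mX κ r).map (algebraMap (PP κ r) A')) = 0 := by
      have : a • (Submodule.Quotient.mk (1 : A') :
        A' ⧸ (mX κ r).map (algebraMap (PP κ r) A')) ∈
          maximalIdeal A ^ L • (⊤ : Submodule A (A' ⧸ (mX κ r).map (algebraMap (PP κ r) A'))) :=
        Submodule.smul_mem_smul ha trivial
      rw [hL] at this
      exact this
    rw [← Submodule.Quotient.mk_smul, Submodule.Quotient.mk_eq_zero] at h1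
    rwa [Algebra.algebraMap_eq_smul_one]
  refine ⟨N * (L * c), ?_⟩
  have h2 : maximalIdeal S ^ (N * (L * c)) ≤
      ((maximalIdeal A ^ (L * c))).map (algebraMap A S) := by
    rw [pow_mul, Ideal.map_pow]
    exact Ideal.pow_right_mono hN _
  refine h2.trans ?_
  rw [Ideal.map_le_iff_le_comap]
  intro a ha
  rw [Ideal.mem_comap, Module.mem_annihilator]
  rw [pow_mul] at ha
  intro m
  rw [algebraMap_smul]
  induction m with
  | zero => rw [smul_zero]
  | add x y hx hy => rw [smul_add, hx, hy, add_zero]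
  | tmul s w =>
    rw [TensorProduct.smul_tmul', TensorProduct.smul_tmul,
      nm_kill (mX κ r) c hQ (maximalIdeal A ^ L) hL' w a ha, TensorProduct.tmul_zero]

variable [IsLocalRing A] [IsNoetherianRing A] [IsLocalRing S] [IsNoetherianRing S]
    [IsLocalHom (algebraMap A S)]
    [Module.Finite A A'] [Module.Flat (PP κ r) A'] [Module.Flat A S]

omit [IsLocalRing A] [IsNoetherianRing A] [IsLocalRing S] [IsNoetherianRing S]
  [IsLocalHom (algebraMap A S)] [Module.Flat (PP κ r) A'] [Module.Flat A S] in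
variable (κ r) in
lemma nm_finite (M : Type*) [AddCommGroup M] [Module (PP κ r) M] [Module.Finite (PP κ r) M] :
    Module.Finite S (S ⊗[A] (A' ⊗[PP κ r] M)) := by
  have h1 : Module.Finite A (A' ⊗[PP κ r] M) := Module.Finite.trans A' _
  infer_instance

omit [IsLocalRing A] [IsNoetherianRing A] [IsLocalRing S]
  [IsLocalHom (algebraMap A S)] [Module.Flat (PP κ r) A'] [Module.Flat A S] in
variable (κ A A') in
lemma nm_kk (y : Fin (r + 1) → S)
    (hyl : Module.length S (S ⧸ Ideal.span (Set.range y)) ≠ ⊤) (M : Type*) [AddCommGroup M]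
    [Module (PP κ r) M] [Module.Finite (PP κ r) M] (i : ℤ) :
    kk y (S ⊗[A] (A' ⊗[PP κ r] M)) i ≠ ⊤ := by
  have := nm_finite κ r (A := A) (A' := A') (S := S) M
  exact kk_ne_top y _ (nm_quot_ne_top _ hyl _) i

omit [IsLocalRing A] [IsNoetherianRing A] [IsLocalRing S] [IsLocalHom (algebraMap A S)] in
variable (A A') in
lemma nm_add (y : Fin (r + 1) → S)
    (hyl : Module.length S (S ⧸ Ideal.span (Set.range y)) ≠ ⊤) {M₁ M₂ M₃ : Type*}
    [AddCommGroup M₁] [Module (PP κ r) M₁] [Module.Finite (PP κ r) M₁]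
    [AddCommGroup M₂] [Module (PP κ r) M₂] [Module.Finite (PP κ r) M₂]
    [AddCommGroup M₃] [Module (PP κ r) M₃] [Module.Finite (PP κ r) M₃]
    (f : M₁ →ₗ[PP κ r] M₂) (g : M₂ →ₗ[PP κ r] M₃) (hf : Function.Injective f)
    (hg : Function.Surjective g) (hfg : Function.Exact f g) :
    kchi y (S ⊗[A] (A' ⊗[PP κ r] M₂)) =
      kchi y (S ⊗[A] (A' ⊗[PP κ r] M₁)) + kchi y (S ⊗[A] (A' ⊗[PP κ r] M₃)) :=
  kchi_add y (nmF A A' S f) (nmF A A' S g) (nmF_inj f hf) (nmF_surj g hg)
    (nmF_exact f g hfg hg) (nm_kk κ A A' y hyl M₁) (nm_kk κ A A' y hyl M₂) (nm_kk κ A A' y hyl M₃)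

omit [IsLocalRing A] [IsNoetherianRing A]
  [IsLocalHom (algebraMap A S)] [Module.Flat (PP κ r) A'] [Module.Flat A S] in
variable (κ A A') in
lemma nm_nonneg (y : Fin (r + 1) → S) (hy : ∀ i, y i ∈ maximalIdeal S)
    (hyl : Module.length S (S ⧸ Ideal.span (Set.range y)) ≠ ⊤) (M : Type*) [AddCommGroup M]
    [Module (PP κ r) M] [Module.Finite (PP κ r) M] :
    0 ≤ kchi y (S ⊗[A] (A' ⊗[PP κ r] M)) := by
  have := nm_finite κ r (A := A) (A' := A') (S := S) M
  exact kchi_nonneg y hy _ (nm_quot_ne_top _ hyl _)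

omit [IsLocalRing A] [IsNoetherianRing A] [IsLocalRing S] [IsLocalHom (algebraMap A S)] in
variable (A A') in
lemma nm_inj_eq (y : Fin (r + 1) → S)
    (hyl : Module.length S (S ⧸ Ideal.span (Set.range y)) ≠ ⊤) {M N : Type*}
    [AddCommGroup M] [Module (PP κ r) M] [Module.Finite (PP κ r) M]
    [AddCommGroup N] [Module (PP κ r) N] [Module.Finite (PP κ r) N]
    (f : M →ₗ[PP κ r] N) (hf : Function.Injective f) :
    kchi y (S ⊗[A] (A' ⊗[PP κ r] N)) = kchi y (S ⊗[A] (A' ⊗[PP κ r] M)) +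
      kchi y (S ⊗[A] (A' ⊗[PP κ r] (N ⧸ LinearMap.range f))) :=
  nm_add A A' y hyl f (LinearMap.range f).mkQ hf (Submodule.mkQ_surjective _)
    (LinearMap.exact_map_mkQ_range f)

omit [IsLocalRing A] [IsNoetherianRing A] [IsLocalHom (algebraMap A S)] in
variable (A A') in
lemma nm_inj_le (y : Fin (r + 1) → S) (hy : ∀ i, y i ∈ maximalIdeal S)
    (hyl : Module.length S (S ⧸ Ideal.span (Set.range y)) ≠ ⊤) {M N : Type*}
    [AddCommGroup M] [Module (PP κ r) M] [Module.Finite (PP κ r) M]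
    [AddCommGroup N] [Module (PP κ r) N] [Module.Finite (PP κ r) N]
    (f : M →ₗ[PP κ r] N) (hf : Function.Injective f) :
    kchi y (S ⊗[A] (A' ⊗[PP κ r] M)) ≤ kchi y (S ⊗[A] (A' ⊗[PP κ r] N)) := by
  rw [nm_inj_eq A A' y hyl f hf]
  have := nm_nonneg κ A A' y hy hyl (N ⧸ LinearMap.range f)
  omega

omit [IsLocalRing A] [IsNoetherianRing A] [IsLocalHom (algebraMap A S)] in
variable (A A') in
lemma nm_surj_le (y : Fin (r + 1) → S) (hy : ∀ i, y i ∈ maximalIdeal S)
    (hyl : Module.length S (S ⧸ Ideal.span (Set.range y)) ≠ ⊤) {M N : Type*}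
    [AddCommGroup M] [Module (PP κ r) M] [Module.Finite (PP κ r) M]
    [AddCommGroup N] [Module (PP κ r) N] [Module.Finite (PP κ r) N]
    (g : M →ₗ[PP κ r] N) (hg : Function.Surjective g) :
    kchi y (S ⊗[A] (A' ⊗[PP κ r] N)) ≤ kchi y (S ⊗[A] (A' ⊗[PP κ r] M)) := by
  have h := nm_add A A' y hyl (LinearMap.ker g).subtype g (Submodule.subtype_injective _) hg
    (LinearMap.exact_subtype_ker_map g)
  have := nm_nonneg κ A A' y hy hyl (LinearMap.ker g)
  omega

omit [IsNoetherianRing A] [IsLocalHom (algebraMap A S)] in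
variable (A A') in
lemma nm_shift_eq (hT : Module.length S (S ⧸ (maximalIdeal A).map (algebraMap A S)) ≠ ⊤)
    (hlam : Module.length A (A' ⧸ (mX κ r).map (algebraMap (PP κ r) A')) ≠ ⊤)
    (y : Fin (r + 1) → S) (hy : ∀ i, y i ∈ maximalIdeal S)
    (hyl : Module.length S (S ⧸ Ideal.span (Set.range y)) ≠ ⊤) {M N : Type*}
    [AddCommGroup M] [Module (PP κ r) M] [Module.Finite (PP κ r) M]
    [AddCommGroup N] [Module (PP κ r) N] [Module.Finite (PP κ r) N]
    (f : M →ₗ[PP κ r] N) (hf : Function.Injective f) (c : ℕ)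
    (hc : mX κ r ^ c • (⊤ : Submodule (PP κ r) N) ≤ LinearMap.range f) :
    kchi y (S ⊗[A] (A' ⊗[PP κ r] N)) = kchi y (S ⊗[A] (A' ⊗[PP κ r] M)) := by
  rw [nm_inj_eq A A' y hyl f hf]
  have hQ : ∀ q : N ⧸ LinearMap.range f, ∀ b ∈ mX κ r ^ c, b • q = 0 := by
    intro q b hb
    obtain ⟨q, rfl⟩ := Submodule.Quotient.mk_surjective _ q
    rw [← Submodule.Quotient.mk_smul, Submodule.Quotient.mk_eq_zero]
    exact hc (Submodule.smul_mem_smul hb trivial)
  obtain ⟨k, hk⟩ := nm_ann hT hlam c hQ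
  have := nm_finite κ r (A := A) (A' := A') (S := S) (N ⧸ LinearMap.range f)
  rw [kchi_eq_zero y hy (S ⊗[A] (A' ⊗[PP κ r] (N ⧸ LinearMap.range f)))
    (nm_quot_ne_top _ hyl _) (nm_dim_lt _ k hk _ (Nat.succ_pos r)), add_zero]

omit [IsLocalRing A] [IsNoetherianRing A] [IsLocalRing S] [IsLocalHom (algebraMap A S)] in
variable (κ A A') in
lemma nm_free (y : Fin (r + 1) → S)
    (hyl : Module.length S (S ⧸ Ideal.span (Set.range y)) ≠ ⊤) (k : ℕ) :
    kchi y (S ⊗[A] (A' ⊗[PP κ r] (Fin k → PP κ r))) =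
      k * kchi y (S ⊗[A] (A' ⊗[PP κ r] PP κ r)) := by
  induction k with
  | zero =>
    have h := nm_add A A' y hyl (LinearMap.id : (Fin 0 → PP κ r) →ₗ[PP κ r] (Fin 0 → PP κ r))
      (LinearMap.id : (Fin 0 → PP κ r) →ₗ[PP κ r] (Fin 0 → PP κ r)) (fun _ _ h => h)
      (fun x => ⟨x, rfl⟩) (fun x => ⟨fun _ => ⟨x, rfl⟩, fun _ => Subsingleton.elim _ _⟩)
    have : kchi y (S ⊗[A] (A' ⊗[PP κ r] (Fin 0 → PP κ r))) = 0 := by omega
    rw [this]
    simp
  | succ k ih =>
    let f : PP κ r →ₗ[PP κ r] (Fin (k + 1) → PP κ r) := 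
      LinearMap.single (PP κ r) (fun _ : Fin (k + 1) => PP κ r) 0
    let g : (Fin (k + 1) → PP κ r) →ₗ[PP κ r] (Fin k → PP κ r) :=
      LinearMap.funLeft (PP κ r) (PP κ r) Fin.succ
    have h := nm_add A A' y hyl f g (by
        intro a b hab
        have := congrFun hab 0
        simpa [f] using this)
      (by
        intro v
        refine ⟨Fin.cons 0 v, ?_⟩
        funext i
        simp [g, LinearMap.funLeft])
      (by
        intro v
        constructor
        · intro hv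
          refine ⟨v 0, ?_⟩
          funext i
          refine Fin.cases ?_ (fun j => ?_) i
          · simp [f]
          · have := congrFun hv j
            simp [g, LinearMap.funLeft] at this
            simp [f, this]
        · rintro ⟨a, rfl⟩
          funext j
          simp [f, g, LinearMap.funLeft])
    rw [h, ih]
    push_cast
    ring

omit [IsLocalRing A] [IsNoetherianRing A] [IsLocalRing S] [IsNoetherianRing S]
  [IsLocalHom (algebraMap A S)] [Module.Finite A A'] [Module.Flat (PP κ r) A']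
  [Module.Flat A S] in
variable (κ A A') in
lemma nm_unit [IsNoetherianRing S] (y : Fin (r + 1) → S) :
    kchi y (S ⊗[A] (A' ⊗[PP κ r] PP κ r)) = kchi y (S ⊗[A] A') := by
  let e : (A' ⊗[PP κ r] PP κ r) ≃ₗ[A] A' :=
    (TensorProduct.AlgebraTensorModule.rid (PP κ r) A' A').restrictScalars A
  exact kchi_congr y (e.baseChange A S _ _)

end F

/-- TASK N: normalization. -/
theorem kchi_NMon_le {κ : Type*} [Field κ] {r : ℕ} {A A' S : Type*} [CommRing A] [CommRing A']
    [CommRing S] [Algebra (PP κ r) A'] [Algebra A A'] [Algebra A S]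
    [IsLocalRing A] [IsLocalRing S] [IsNoetherianRing S]
    [Module.Finite A A'] [Module.Flat (PP κ r) A'] [Module.Flat A S]
    (hT : Module.length S (S ⧸ (maximalIdeal A).map (algebraMap A S)) ≠ ⊤)
    (hlam : Module.length A (A' ⧸ (mX κ r).map (algebraMap (PP κ r) A')) ≠ ⊤)
    (y : Fin (r + 1) → S) (hy : ∀ i, y i ∈ maximalIdeal S)
    (hyl : Module.length S (S ⧸ Ideal.span (Set.range y)) ≠ ⊤) (a : Fin r → ℤ) :
    kk y (S ⊗[A] (A' ⊗[PP κ r] ↥(NMon κ (SN a)))) 0 ≠ ⊤ ∧
    kchi y (S ⊗[A] (A' ⊗[PP κ r] ↥(NMon κ (SN a)))) ≤ (r.factorial : ℤ) * kchi y (S ⊗[A] A') := by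
  have := fun a : Fin r → ℤ => NMon_fg (κ := κ) a
  refine ⟨nm_kk κ A A' y hyl _ 0, ?_⟩
  let c : ℕ := ∑ i, (a i).natAbs
  have hc : ∀ i, a i ≤ ((r : ℤ) - 1 - (i : ℕ)) + c := by
    intro i
    have h1 : (a i).natAbs ≤ c := Finset.single_le_sum (f := fun i => (a i).natAbs)
      (fun _ _ => Nat.zero_le _) (Finset.mem_univ i)
    have h2 := i.isLt
    omega
  let ul : Fin r → ℤ := fun i => (r : ℤ) - 1 - (i : ℕ)
  have h1 : kchi y (S ⊗[A] (A' ⊗[PP κ r] ↥(NMon κ (SN a)))) ≤
      kchi y (S ⊗[A] (A' ⊗[PP κ r] ↥(NMon κ (SN fun i => ul i + c)))) :=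
    nm_inj_le A A' y hy hyl
      (Submodule.inclusion (NMon_mono (κ := κ) (a := a) (a' := fun i => ul i + c) hc))
      (Submodule.inclusion_injective _)
  obtain ⟨ψ, hψ, hψc, _⟩ := NMon_shift (κ := κ) ul c
  have h2 : kchi y (S ⊗[A] (A' ⊗[PP κ r] ↥(NMon κ (SN ul)))) =
      kchi y (S ⊗[A] (A' ⊗[PP κ r] ↥(NMon κ (SN fun i => ul i + c)))) :=
    nm_shift_eq A A' hT hlam y hy hyl ψ hψ c hψc
  obtain ⟨φ, hφ⟩ := NMon_ul_gen (κ := κ) (r := r)
  have h3 : kchi y (S ⊗[A] (A' ⊗[PP κ r] ↥(NMon κ (SN ul)))) ≤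
      kchi y (S ⊗[A] (A' ⊗[PP κ r] (Fin r.factorial → PP κ r))) :=
    nm_surj_le A A' y hy hyl φ hφ
  rw [nm_free κ A A' y hyl, nm_unit κ A A' y] at h3
  rw [← h2] at h1
  exact h1.trans h3

end Vale.Agent.P202.CharP
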