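import Vale.Agent.P202.CharP.DefsM

/-!
P202-CHARP, task Z1: numerics of the windows.
-/

namespace Vale.Agent.P202.CharP

open Finset

section Numerics

variable {r : ℕ}

/-- the mixed product: shifted below `m`. -/
def mixp (a : Fin (r + 1) → ℤ) (m : Fin (r + 1)) (i : Fin (r + 1)) : ℤ :=
  if i < m then a i - 1 else a i

lemma prod_tele (a : Fin (r + 1) → ℤ) :
    ∏ i, a i - ∏ i, (a i - 1) = ∑ m : Fin (r + 1), ∏ i : Fin r, mixp a m (m.succAbove i) := by
  rw [prod_sub_ordered]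
  simp only [sub_sub_cancel, one_mul]
  apply sum_congr rfl
  intro m _
  have h1 : ∏ i : Fin (r + 1), (if i = m then 1 else mixp a m i) =
      ∏ i : Fin r, mixp a m (m.succAbove i) := by
    rw [Fin.prod_univ_succAbove _ m, if_pos rfl, one_mul]
    apply prod_congr rfl
    intro i _
    rw [if_neg (Fin.succAbove_ne m i)]
  rw [← h1, ← prod_filter_mul_prod_filter_not univ (fun j : Fin (r + 1) => j < m)
    (fun i => if i = m then 1 else mixp a m i)]
  congr 1
  · apply prod_congr rfl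
    intro i hi
    have h2 : i < m := (mem_filter.mp hi).2
    rw [if_neg h2.ne, mixp, if_pos h2]
  · symm
    rw [← prod_subset (s₁ := univ.filter (fun j : Fin (r + 1) => m < j))]
    · apply prod_congr rfl
      intro i hi
      have h2 : m < i := (mem_filter.mp hi).2
      rw [if_neg h2.ne', mixp, if_neg (not_lt.mpr h2.le)]
    · intro i hi
      have h2 : m < i := (mem_filter.mp hi).2
      exact mem_filter.mpr ⟨mem_univ _, not_lt.mpr h2.le⟩
    · intro i hi hi'
      have h2 : ¬ i < m := (mem_filter.mp hi).2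
      have h3 : ¬ m < i := fun h => hi' (mem_filter.mpr ⟨mem_univ _, h⟩)
      have h4 : i = m := le_antisymm (not_lt.mp h3) (not_lt.mp h2)
      rw [if_pos h4]

lemma abs_prod_sub_prod_le {ι : Type*} [DecidableEq ι] (s : Finset ι) (a b : ι → ℤ) (M : ℤ)
    (hM : 1 ≤ M) (ha : ∀ i ∈ s, |a i| ≤ M) (hb : ∀ i ∈ s, |b i| ≤ M)
    (hab : ∀ i ∈ s, |a i - b i| ≤ 1) :
    |∏ i ∈ s, a i - ∏ i ∈ s, b i| ≤ s.card * M ^ (s.card - 1) := by
  induction s using Finset.induction_on with
  | empty => simp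
  | insert i s hi ih =>
    have ih' := ih (fun j hj => ha j (mem_insert_of_mem hj)) (fun j hj => hb j (mem_insert_of_mem hj))
      (fun j hj => hab j (mem_insert_of_mem hj))
    rw [prod_insert hi, prod_insert hi, card_insert_of_notMem hi]
    have h1 : a i * ∏ j ∈ s, a j - b i * ∏ j ∈ s, b j =
        (a i - b i) * ∏ j ∈ s, a j + b i * (∏ j ∈ s, a j - ∏ j ∈ s, b j) := by ring
    have h2 : |∏ j ∈ s, a j| ≤ M ^ s.card := by
      rw [abs_prod]
      calc ∏ j ∈ s, |a j| ≤ ∏ _j ∈ s, M :=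
            prod_le_prod (fun j _ => abs_nonneg _) fun j hj => ha j (mem_insert_of_mem hj)
        _ = M ^ s.card := by rw [prod_const]
    have h3 : |(a i - b i) * ∏ j ∈ s, a j| ≤ M ^ s.card := by
      rw [abs_mul]
      calc |a i - b i| * |∏ j ∈ s, a j| ≤ 1 * M ^ s.card :=
            mul_le_mul (hab i (mem_insert_self i s)) h2 (abs_nonneg _) (by norm_num)
        _ = _ := one_mul _
    have h4 : |b i * (∏ j ∈ s, a j - ∏ j ∈ s, b j)| ≤ s.card * M ^ s.card := by
      rw [abs_mul]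
      rcases Nat.eq_zero_or_pos s.card with h0 | h0
      · have hs : s = ∅ := card_eq_zero.mp h0
        subst hs
        simp
      · calc |b i| * |∏ j ∈ s, a j - ∏ j ∈ s, b j| ≤ M * (s.card * M ^ (s.card - 1)) :=
              mul_le_mul (hb i (mem_insert_self i s)) ih' (abs_nonneg _) (by linarith)
          _ = s.card * M ^ s.card := by
            rw [show M ^ s.card = M * M ^ (s.card - 1) by
              rw [← pow_succ', Nat.sub_add_cancel h0]]
            ring
    rw [h1, Nat.add_sub_cancel]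
    refine (abs_add_le _ _).trans ?_
    push_cast
    linarith

/-- the arithmetic progression of the factors -/
def ap (r Q j u : ℕ) (i : Fin (r + 1)) : ℤ := ((i : ℕ) : ℤ) * Q - (j : ℤ) * Q + u + 1

lemma wc_eq (m : Fin (r + 1)) (Q j : ℕ) :
    (wc m Q j : ℤ) = ∑ u ∈ range Q, ∏ i : Fin r, |ap r Q j u (m.succAbove i)| := by
  unfold wc am ap
  push_cast
  rfl

/-- TASK Z1a -/
theorem wc_zero (r Q : ℕ) : (r + 1).factorial * Q ^ (r + 1) ≤ ∑ m : Fin (r + 1), wc m Q 0 := by
  have key : (((r + 1).factorial * Q ^ (r + 1) : ℕ) : ℤ) ≤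
      ((∑ m : Fin (r + 1), wc m Q 0 : ℕ) : ℤ) := by
    push_cast
    have hP : ∀ n : ℕ, ∑ u ∈ range n, (∏ i, ap r Q 0 u i - ∏ i, (ap r Q 0 u i - 1)) =
        ∏ i : Fin (r + 1), (((i : ℕ) : ℤ) * Q + n) - ∏ i : Fin (r + 1), (((i : ℕ) : ℤ) * Q) := by
      intro n
      induction n with
      | zero => simp
      | succ n ih =>
        rw [sum_range_succ, ih]
        have h1 : ∏ i, ap r Q 0 n i = ∏ i : Fin (r + 1), (((i : ℕ) : ℤ) * Q + (n + 1 : ℕ)) := by
          apply prod_congr rfl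
          intro i _
          unfold ap
          push_cast
          ring
        have h2 : ∏ i, (ap r Q 0 n i - 1) = ∏ i : Fin (r + 1), (((i : ℕ) : ℤ) * Q + n) := by
          apply prod_congr rfl
          intro i _
          unfold ap
          push_cast
          ring
        rw [h1, h2]
        ring
    have h0 : ∏ i : Fin (r + 1), (((i : ℕ) : ℤ) * Q) = 0 :=
      prod_eq_zero (mem_univ (0 : Fin (r + 1))) (by simp)
    have h1 : ∏ i : Fin (r + 1), (((i : ℕ) : ℤ) * Q + Q) = (r + 1).factorial * Q ^ (r + 1) := by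
      have h2 : ∀ i : Fin (r + 1), (((i : ℕ) : ℤ) * Q + Q) = (((i : ℕ) + 1 : ℕ) : ℤ) * Q := by
        intro i; push_cast; ring
      rw [prod_congr rfl fun i _ => h2 i, prod_mul_distrib, prod_const, card_univ, Fintype.card_fin]
      congr 1
      rw [← Nat.cast_prod]
      congr 1
      rw [Fin.prod_univ_eq_prod_range (fun i => i + 1) (r + 1), prod_range_add_one_eq_factorial]
    have h2 := hP Q
    rw [h0, h1, sub_zero] at h2
    rw [← h2, sum_congr rfl fun m _ => wc_eq m Q 0, sum_comm]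
    apply sum_le_sum
    intro u _
    rw [prod_tele]
    apply sum_le_sum
    intro m _
    have hap : ∀ i : Fin (r + 1), 1 ≤ ap r Q 0 u i := by
      intro i
      unfold ap
      have h3 : (0 : ℤ) ≤ ((i : ℕ) : ℤ) * Q := by positivity
      have h4 : (0 : ℤ) ≤ (u : ℤ) := by positivity
      push_cast
      linarith
    apply prod_le_prod
    · intro i _
      unfold mixp
      have := hap (m.succAbove i)
      split_ifs <;> linarith
    · intro i _
      unfold mixp
      have := hap (m.succAbove i)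
      have h5 := le_abs_self (ap r Q 0 u (m.succAbove i))
      split_ifs <;> linarith
  exact_mod_cast key

/-- the sign of a factor -/
def sgf (j : ℕ) (k : Fin (r + 1)) : ℤ := if (k : ℕ) < j then -1 else 1

lemma sgf_sq (j : ℕ) (k : Fin (r + 1)) : sgf j k * sgf j k = 1 := by
  unfold sgf
  split_ifs <;> norm_num

lemma prod_sgf (j : ℕ) (hj : j ≤ r + 1) : ∏ k : Fin (r + 1), sgf j k = (-1) ^ j := by
  unfold sgf
  rw [Fin.prod_univ_eq_prod_range (fun k => if k < j then (-1 : ℤ) else 1) (r + 1),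
    ← prod_subset (range_subset_range.mpr hj)]
  · rw [prod_congr rfl fun k hk => if_pos (mem_range.mp hk), prod_const, card_range]
  · intro k _ hk
    rw [if_neg]
    rwa [mem_range] at hk

lemma prod_sgf_succAbove (j : ℕ) (hj : j ≤ r + 1) (m : Fin (r + 1)) :
    ∏ i : Fin r, sgf j (m.succAbove i) = sgf j m * (-1) ^ j := by
  have h1 := prod_sgf (r := r) j hj
  rw [Fin.prod_univ_succAbove _ m] at h1
  rw [← h1, ← mul_assoc, sgf_sq, one_mul]

lemma abs_ap {Q j u : ℕ} (hu : u < Q) (k : Fin (r + 1)) :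
    |ap r Q j u k| = sgf j k * ap r Q j u k := by
  have hu' : (u : ℤ) + 1 ≤ Q := by exact_mod_cast hu
  unfold sgf
  split_ifs with h
  · have h1 : ap r Q j u k ≤ 0 := by
      unfold ap
      have h2 : ((k : ℕ) : ℤ) + 1 ≤ j := by exact_mod_cast h
      have h3 : (0 : ℤ) ≤ (Q : ℤ) := by positivity
      nlinarith
    rw [abs_of_nonpos h1]
    ring
  · have h1 : 0 ≤ ap r Q j u k := by
      unfold ap
      have h2 : (j : ℤ) ≤ ((k : ℕ) : ℤ) := by exact_mod_cast not_lt.mp h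
      have h3 : (0 : ℤ) ≤ (Q : ℤ) := by positivity
      have h4 : (0 : ℤ) ≤ (u : ℤ) := by positivity
      nlinarith
    rw [abs_of_nonneg h1]
    ring

lemma wc_sign {Q j : ℕ} (hj : j ≤ r + 1) (m : Fin (r + 1)) :
    (if j ≤ (m : ℕ) then (wc m Q j : ℤ) else -(wc m Q j : ℤ)) =
      (-1) ^ j * ∑ u ∈ range Q, ∏ i : Fin r, ap r Q j u (m.succAbove i) := by
  have h1 : (wc m Q j : ℤ) = sgf j m * (-1) ^ j *
      ∑ u ∈ range Q, ∏ i : Fin r, ap r Q j u (m.succAbove i) := by
    rw [wc_eq, mul_sum]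
    apply sum_congr rfl
    intro u hu
    rw [prod_congr rfl fun i _ => abs_ap (mem_range.mp hu) (m.succAbove i), prod_mul_distrib,
      prod_sgf_succAbove j hj m]
  have h2 : (if j ≤ (m : ℕ) then (wc m Q j : ℤ) else -(wc m Q j : ℤ)) =
      sgf j m * (wc m Q j : ℤ) := by
    unfold sgf
    by_cases h : j ≤ (m : ℕ)
    · rw [if_pos h, if_neg (not_lt.mpr h), one_mul]
    · rw [if_neg h, if_pos (not_le.mp h)]
      ring
  rw [h2, h1, ← mul_assoc, ← mul_assoc, sgf_sq, one_mul]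

/-- TASK Z1b -/
theorem wc_cancel (r : ℕ) : ∃ C : ℕ, ∀ Q : ℕ, 1 ≤ Q → ∀ j : ℕ, 1 ≤ j → j ≤ r →
    |(∑ m : Fin (r + 1), if j ≤ (m : ℕ) then (wc m Q j : ℤ) else -(wc m Q j : ℤ))| ≤
      (C : ℤ) * (Q : ℤ) ^ r := by
  refine ⟨(r + 1) * (r * (r + 1) ^ (r - 1)), ?_⟩
  intro Q hQ j hj1 hjr
  have hQ' : (1 : ℤ) ≤ Q := by exact_mod_cast hQ
  rw [sum_congr rfl fun m _ => wc_sign (Q := Q) (by omega : j ≤ r + 1) m, ← mul_sum, abs_mul,
    abs_pow, abs_neg, abs_one, one_pow, one_mul, sum_comm]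
  -- the telescoping sum vanishes
  have hP : ∀ n : ℕ, ∑ u ∈ range n, (∏ i, ap r Q j u i - ∏ i, (ap r Q j u i - 1)) =
      ∏ i : Fin (r + 1), (((i : ℕ) : ℤ) * Q - j * Q + n) -
        ∏ i : Fin (r + 1), (((i : ℕ) : ℤ) * Q - j * Q) := by
    intro n
    induction n with
    | zero => simp
    | succ n ih =>
      rw [sum_range_succ, ih]
      have h1 : ∏ i, ap r Q j n i =
          ∏ i : Fin (r + 1), (((i : ℕ) : ℤ) * Q - j * Q + (n + 1 : ℕ)) := by
        apply prod_congr rfl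
        intro i _
        unfold ap
        push_cast
        ring
      have h2 : ∏ i, (ap r Q j n i - 1) =
          ∏ i : Fin (r + 1), (((i : ℕ) : ℤ) * Q - j * Q + n) := by
        apply prod_congr rfl
        intro i _
        unfold ap
        ring
      rw [h1, h2]
      ring
  have h0 : ∏ i : Fin (r + 1), (((i : ℕ) : ℤ) * Q - j * Q) = 0 :=
    prod_eq_zero (mem_univ (⟨j, by omega⟩ : Fin (r + 1))) (by simp)
  have h1 : ∏ i : Fin (r + 1), (((i : ℕ) : ℤ) * Q - j * Q + Q) = 0 := by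
    apply prod_eq_zero (mem_univ (⟨j - 1, by omega⟩ : Fin (r + 1)))
    have h2 : (((j - 1 : ℕ)) : ℤ) = (j : ℤ) - 1 := by
      rw [Nat.cast_sub hj1]; simp
    simp only [h2]
    ring
  have h2 := hP Q
  rw [h0, h1, sub_zero, sum_congr rfl fun u _ => prod_tele (ap r Q j u)] at h2
  have h3 : ∑ u ∈ range Q, ∑ m : Fin (r + 1), ∏ i : Fin r, ap r Q j u (m.succAbove i) =
      ∑ u ∈ range Q, ∑ m : Fin (r + 1), (∏ i : Fin r, ap r Q j u (m.succAbove i) -
        ∏ i : Fin r, mixp (ap r Q j u) m (m.succAbove i)) := by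
    simp only [sum_sub_distrib]
    rw [h2, sub_zero]
  rw [h3]
  have hb : ∀ u ∈ range Q, ∀ m : Fin (r + 1),
      |∏ i : Fin r, ap r Q j u (m.succAbove i) -
        ∏ i : Fin r, mixp (ap r Q j u) m (m.succAbove i)| ≤
      (r : ℤ) * (((r : ℤ) + 1) * Q) ^ (r - 1) := by
    intro u hu m
    have hu' : (u : ℤ) + 1 ≤ Q := by exact_mod_cast mem_range.mp hu
    have hu0 : (0 : ℤ) ≤ u := by positivity
    have hap : ∀ k : Fin (r + 1), |ap r Q j u k| ≤ r * Q := by
      intro k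
      have hk : ((k : ℕ) : ℤ) ≤ r := by exact_mod_cast Nat.lt_succ_iff.mp k.2
      have hk0 : (0 : ℤ) ≤ ((k : ℕ) : ℤ) := by positivity
      have hj' : (j : ℤ) ≤ r := by exact_mod_cast hjr
      have hj0 : (1 : ℤ) ≤ j := by exact_mod_cast hj1
      unfold ap
      rw [abs_le]
      constructor
      · nlinarith
      · nlinarith
    have h4 := abs_prod_sub_prod_le (univ : Finset (Fin r)) (fun i => ap r Q j u (m.succAbove i))
      (fun i => mixp (ap r Q j u) m (m.succAbove i)) (((r : ℤ) + 1) * Q) (by nlinarith) ?_ ?_ ?_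
    · rw [card_univ, Fintype.card_fin] at h4
      exact h4
    · intro i _
      have := hap (m.succAbove i)
      linarith
    · intro i _
      have h5 := hap (m.succAbove i)
      unfold mixp
      split_ifs
      · have h6 := abs_sub (ap r Q j u (m.succAbove i)) 1
        rw [abs_one] at h6
        linarith
      · linarith
    · intro i _
      unfold mixp
      split_ifs <;> simp
  calc |∑ u ∈ range Q, ∑ m : Fin (r + 1), (∏ i : Fin r, ap r Q j u (m.succAbove i) -
        ∏ i : Fin r, mixp (ap r Q j u) m (m.succAbove i))| ≤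
      ∑ u ∈ range Q, ∑ m : Fin (r + 1), |∏ i : Fin r, ap r Q j u (m.succAbove i) -
        ∏ i : Fin r, mixp (ap r Q j u) m (m.succAbove i)| := by
        refine (abs_sum_le_sum_abs _ _).trans ?_
        apply sum_le_sum
        intro u _
        exact abs_sum_le_sum_abs _ _
    _ ≤ ∑ u ∈ range Q, ∑ m : Fin (r + 1), (r : ℤ) * (((r : ℤ) + 1) * Q) ^ (r - 1) := by
        apply sum_le_sum
        intro u hu
        exact sum_le_sum fun m _ => hb u hu m
    _ = (((r + 1) * (r * (r + 1) ^ (r - 1)) : ℕ) : ℤ) * (Q : ℤ) ^ r := by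
        rw [sum_const, sum_const, card_range, card_univ, Fintype.card_fin]
        have h5 : (Q : ℤ) ^ r = Q * Q ^ (r - 1) := by
          rw [← pow_succ', Nat.sub_add_cancel (by omega)]
        rw [h5, mul_pow]
        simp only [nsmul_eq_mul]
        push_cast
        ring

/-- TASK Z1: numerics. -/
theorem numerics (r : ℕ) (t0 : ℕ) (rr : ℤ → ℤ) : ∃ C : ℕ, ∀ Q : ℕ, 1 ≤ Q →
    ((r + 1).factorial : ℤ) * (Q : ℤ) ^ (r + 1) * t0 - (C : ℤ) * (Q : ℤ) ^ r ≤
      ∑ m : Fin (r + 1), ((wc m Q 0 : ℤ) * t0 +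
        ∑ j ∈ Finset.Icc 1 (m : ℕ), (wc m Q j : ℤ) * rr (j + 1) -
        ∑ j ∈ Finset.Icc ((m : ℕ) + 1) r, (wc m Q j : ℤ) * rr (j + 1)) := by
  obtain ⟨C, hC⟩ := wc_cancel r
  refine ⟨∑ j ∈ Icc 1 r, (rr (j + 1)).natAbs * C, ?_⟩
  intro Q hQ
  have h1 : ∑ m : Fin (r + 1), ((wc m Q 0 : ℤ) * t0 +
        ∑ j ∈ Finset.Icc 1 (m : ℕ), (wc m Q j : ℤ) * rr (j + 1) -
        ∑ j ∈ Finset.Icc ((m : ℕ) + 1) r, (wc m Q j : ℤ) * rr (j + 1)) =
      (∑ m : Fin (r + 1), (wc m Q 0 : ℤ)) * t0 + ∑ j ∈ Icc 1 r, rr (j + 1) *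
        ∑ m : Fin (r + 1), (if j ≤ (m : ℕ) then (wc m Q j : ℤ) else -(wc m Q j : ℤ)) := by
    have h2 : ∀ m : Fin (r + 1), ((wc m Q 0 : ℤ) * t0 +
        ∑ j ∈ Finset.Icc 1 (m : ℕ), (wc m Q j : ℤ) * rr (j + 1) -
        ∑ j ∈ Finset.Icc ((m : ℕ) + 1) r, (wc m Q j : ℤ) * rr (j + 1)) =
        (wc m Q 0 : ℤ) * t0 + ∑ j ∈ Icc 1 r, rr (j + 1) *
          (if j ≤ (m : ℕ) then (wc m Q j : ℤ) else -(wc m Q j : ℤ)) := by
      intro m
      have hm : (m : ℕ) ≤ r := Nat.lt_succ_iff.mp m.2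
      rw [add_sub_assoc]
      congr 1
      have h3 : Icc 1 r = Icc 1 (m : ℕ) ∪ Icc ((m : ℕ) + 1) r := by
        ext j
        simp only [mem_union, mem_Icc]
        omega
      have h4 : Disjoint (Icc 1 (m : ℕ)) (Icc ((m : ℕ) + 1) r) := by
        rw [disjoint_left]
        intro j h5 h6
        simp only [mem_Icc] at h5 h6
        omega
      rw [h3, sum_union h4, sub_eq_add_neg, ← sum_neg_distrib]
      congr 1
      · apply sum_congr rfl
        intro j hj
        rw [if_pos (mem_Icc.mp hj).2]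
        ring
      · apply sum_congr rfl
        intro j hj
        rw [if_neg (by have := (mem_Icc.mp hj).1; omega)]
        ring
    rw [sum_congr rfl fun m _ => h2 m, sum_add_distrib, ← sum_mul, sum_comm]
    congr 1
    apply sum_congr rfl
    intro j _
    rw [mul_sum]
  rw [h1]
  have h2 : ((r + 1).factorial : ℤ) * (Q : ℤ) ^ (r + 1) ≤ ∑ m : Fin (r + 1), (wc m Q 0 : ℤ) := by
    exact_mod_cast wc_zero r Q
  have h3 : ((r + 1).factorial : ℤ) * (Q : ℤ) ^ (r + 1) * t0 ≤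
      (∑ m : Fin (r + 1), (wc m Q 0 : ℤ)) * t0 :=
    mul_le_mul_of_nonneg_right h2 (by positivity)
  have h4 : -(((∑ j ∈ Icc 1 r, (rr (j + 1)).natAbs * C : ℕ) : ℤ) * (Q : ℤ) ^ r) ≤
      ∑ j ∈ Icc 1 r, rr (j + 1) *
        ∑ m : Fin (r + 1), (if j ≤ (m : ℕ) then (wc m Q j : ℤ) else -(wc m Q j : ℤ)) := by
    have h5 : |∑ j ∈ Icc 1 r, rr (j + 1) *
        ∑ m : Fin (r + 1), (if j ≤ (m : ℕ) then (wc m Q j : ℤ) else -(wc m Q j : ℤ))| ≤
        ((∑ j ∈ Icc 1 r, (rr (j + 1)).natAbs * C : ℕ) : ℤ) * (Q : ℤ) ^ r := by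
      refine (abs_sum_le_sum_abs _ _).trans ?_
      rw [Nat.cast_sum, sum_mul]
      apply sum_le_sum
      intro j hj
      rw [abs_mul, Nat.cast_mul, Int.natCast_natAbs, mul_assoc]
      exact mul_le_mul_of_nonneg_left (hC Q hQ j (mem_Icc.mp hj).1 (mem_Icc.mp hj).2)
        (abs_nonneg _)
    exact (abs_le.mp h5).1
  linarith

end Numerics

end Vale.Agent.P202.CharP
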