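import Vale.Agent.P202.CharP.Real
import Vale.Agent.P202.CharP.Normal
import Vale.Agent.P202.CharP.KFr
import Vale.Agent.P202.CharP.FlatX
import Vale.Agent.P202.CharP.Numerics
import Vale.Agent.P202.MultExists
import Vale.Agent.P202.LechOne

namespace Vale.Agent.P202.CharP

open Submodule TensorProduct IsLocalRing Filter Topology

/-- ranks attached to the Betti-type numbers `t`. -/
lemma exists_ranks (n : ℕ) (t : ℤ → ℕ) (ht : ∀ i, (n : ℤ) < i → t i = 0) :
    ∃ rr : ℤ → ℤ, (∀ i, (t i : ℤ) = rr i + rr (i + 1)) ∧ ∀ i, (n : ℤ) < i → rr i = 0 := by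
  refine ⟨fun i => ∑ k ∈ Finset.range ((n + 1 - i : ℤ)).toNat, (-1) ^ k * (t (i + k) : ℤ),
    fun i => ?_, fun i hi => ?_⟩
  · by_cases h : i ≤ n
    · obtain ⟨K, hK⟩ : ∃ K : ℕ, ((n + 1 - i : ℤ)).toNat = K + 1 :=
        ⟨((n - i : ℤ)).toNat, by omega⟩
      have hK' : ((n + 1 - (i + 1) : ℤ)).toNat = K := by omega
      simp only [hK, hK']
      rw [Finset.sum_range_succ', add_right_comm, ← Finset.sum_add_distrib,
        Finset.sum_eq_zero, zero_add]
      · simp
      · intro k _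
        have : i + ((k + 1 : ℕ) : ℤ) = i + 1 + k := by push_cast; ring
        rw [this, pow_succ]
        ring
    · have h1 : ((n + 1 - i : ℤ)).toNat = 0 := by omega
      have h2 : ((n + 1 - (i + 1) : ℤ)).toNat = 0 := by omega
      simp only [h1, h2, ht i (by omega), Finset.range_zero, Finset.sum_empty, Nat.cast_zero,
        add_zero]
  · have : ((n + 1 - i : ℤ)).toNat = 0 := by omega
    simp [this]

/-- the final limit argument. -/
lemma le_of_frobenius_growth (p : ℕ) (hp : 2 ≤ p) (n s : ℕ) (hn : 0 < n) (f : ℤ) (hf : 0 < f)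
    (t0 lam C K : ℤ) (hC : 0 ≤ lam * C)
    (h : ∀ e Q : ℕ, 1 ≤ Q → p ^ e = Q + s →
      lam * (f * (Q : ℤ) ^ n * t0 - C * (Q : ℤ) ^ (n - 1)) ≤ f * ((p ^ e : ℕ) : ℤ) ^ n * K) :
    t0 * lam ≤ K := by
  have hN : Tendsto (fun e : ℕ => p ^ e) atTop atTop :=
    tendsto_pow_atTop_atTop_of_one_lt (by omega)
  have h1 : Tendsto (fun N : ℕ => (lam * f * t0 : ℝ) * (((N - s : ℕ) : ℝ) ^ n / (N : ℝ) ^ n) -
      (lam * C : ℝ) * (((N + 0 : ℕ) : ℝ) ^ (n - 1) / (N : ℝ) ^ n)) atTop
      (𝓝 ((lam * f * t0 : ℝ) * 1 - (lam * C : ℝ) * 0)) :=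
    ((tendsto_shift_down s n).const_mul _).sub ((tendsto_lower_ratio 0 n hn).const_mul _)
  have h2 := h1.comp hN
  have h3 : (lam * f * t0 : ℝ) * 1 - (lam * C : ℝ) * 0 ≤ f * K := by
    refine le_of_tendsto h2 ?_
    filter_upwards [hN.eventually_gt_atTop s] with e he
    simp only [Function.comp_apply]
    have hq : (0 : ℝ) < ((p ^ e : ℕ) : ℝ) ^ n := by
      have : 0 < p ^ e := by positivity
      positivity
    have h4 := h e (p ^ e - s) (by omega) (by omega)
    have h5 : (lam : ℝ) * (f * ((p ^ e - s : ℕ) : ℝ) ^ n * t0 -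
        C * ((p ^ e - s : ℕ) : ℝ) ^ (n - 1)) ≤ f * ((p ^ e : ℕ) : ℝ) ^ n * K := by
      exact_mod_cast h4
    have h6 : (lam * C : ℝ) * ((p ^ e - s : ℕ) : ℝ) ^ (n - 1) ≤
        (lam * C : ℝ) * ((p ^ e + 0 : ℕ) : ℝ) ^ (n - 1) := by
      have hC' : (0 : ℝ) ≤ lam * C := by exact_mod_cast hC
      refine mul_le_mul_of_nonneg_left ?_ hC'
      refine pow_le_pow_left₀ (by positivity) ?_ _
      exact_mod_cast (by omega : p ^ e - s ≤ p ^ e + 0)
    rw [mul_div_assoc', mul_div_assoc', ← sub_div, div_le_iff₀ hq]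
    nlinarith
  have h7 : (f : ℝ) * (t0 * lam) ≤ f * K := by linarith
  have hf' : (0 : ℝ) < f := by exact_mod_cast hf
  have h8 := le_of_mul_le_mul_left h7 hf'
  exact_mod_cast h8

section

variable (p : ℕ) [Fact p.Prime] {A : Type*} [CommRing A] [CharP A p] {r : ℕ}

/-- the `P`-algebra structure on `A` given by a sequence `x`. -/
@[reducible] noncomputable def algX (e : ℕ) (x : Fin (r + 1) → A) :
    Algebra (PP (ZMod p) r) (Fr p A e) :=
  letI := ZMod.algebra (Fr p A e) p
  (MvPolynomial.aeval (fun l => toFr p A e (x l))).toRingHom.toAlgebra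

lemma algX_X (e : ℕ) (x : Fin (r + 1) → A) (l : Fin (r + 1)) :
    letI := algX p e x
    algebraMap (PP (ZMod p) r) (Fr p A e) (MvPolynomial.X l) = toFr p A e (x l) := by
  let := ZMod.algebra (Fr p A e) p
  change MvPolynomial.aeval (fun l => toFr p A e (x l)) (MvPolynomial.X l) = _
  simp

lemma algX_map (e : ℕ) (x : Fin (r + 1) → A) :
    letI := algX p e x
    (mX (ZMod p) r).map (algebraMap (PP (ZMod p) r) (Fr p A e)) =
      (Ideal.span (Set.range x)).map (toFr p A e) := by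
  let := algX p e x
  change (Ideal.span _).map _ = _
  rw [Ideal.map_span, Ideal.map_span, ← Set.range_comp, ← Set.range_comp]
  congr 2
  funext l
  exact algX_X p e x l

end

lemma ringKrullDim_le_of_length {S : Type*} [CommRing S] [IsLocalRing S] [IsNoetherianRing S]
    {n : ℕ} (y : Fin n → S) (hy : ∀ i, y i ∈ maximalIdeal S)
    (hyl : Module.length S (S ⧸ Ideal.span (Set.range y)) ≠ ⊤) : ringKrullDim S ≤ n := by
  classical
  obtain ⟨s, hs⟩ := exists_pow_le_of_ell_ne_top (I := Ideal.span (Set.range y)) hyl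
  have h1 : maximalIdeal S ∈
      (Ideal.span ((Finset.univ.image y : Finset S) : Set S)).minimalPrimes := by
    rw [Finset.coe_image, Finset.coe_univ, Set.image_univ]
    refine ⟨⟨inferInstance, ?_⟩, ?_⟩
    · rw [Ideal.span_le]
      rintro _ ⟨i, rfl⟩
      exact hy i
    · rintro P ⟨hP, hIP⟩ _
      exact hP.le_of_pow_le (hs.trans hIP)
  have h2 := Ideal.height_le_card_of_mem_minimalPrimes_span_finset h1
  have h3 : (Finset.univ.image y).card ≤ n := by
    simpa using Finset.card_image_le (s := Finset.univ) (f := y)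
  rw [← IsLocalRing.maximalIdeal_height_eq_ringKrullDim]
  have h4 : (maximalIdeal S).height ≤ (n : ℕ∞) := h2.trans (by exact_mod_cast h3)
  exact_mod_cast h4

lemma ringKrullDim_le_of_flat {A S : Type*} [CommRing A] [IsLocalRing A]
    [IsNoetherianRing A] [CommRing S] [IsLocalRing S] [IsNoetherianRing S] [Algebra A S]
    [IsLocalHom (algebraMap A S)] [Module.Flat A S] : ringKrullDim A ≤ ringKrullDim S := by
  have h1 := Ideal.height_eq_height_add_of_liesOver_of_hasGoingDown (maximalIdeal A)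
      (maximalIdeal S)
  have h2 : (maximalIdeal A).height ≤ (maximalIdeal S).height := by
    rw [h1]; exact le_self_add
  rw [← IsLocalRing.maximalIdeal_height_eq_ringKrullDim,
    ← IsLocalRing.maximalIdeal_height_eq_ringKrullDim]
  exact_mod_cast h2

lemma length_fibre_quot {B : Type*} [CommRing B] (I J : Ideal B) :
    Module.length B ((B ⧸ I) ⧸ (J • (⊤ : Submodule B (B ⧸ I)))) =
      Module.length B (B ⧸ (I ⊔ J)) := by
  let f : B →ₗ[B] ((B ⧸ I) ⧸ (J • (⊤ : Submodule B (B ⧸ I)))) :=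
    (Submodule.mkQ _).comp (Submodule.mkQ I)
  have hf : Function.Surjective f :=
    (Submodule.mkQ_surjective _).comp (Submodule.mkQ_surjective _)
  have hk : LinearMap.ker f = I ⊔ J := by
    ext a
    rw [LinearMap.mem_ker]
    change Submodule.Quotient.mk (Submodule.Quotient.mk a : B ⧸ I) = _ ↔ _
    rw [Submodule.Quotient.mk_eq_zero]
    have h1 : J • (⊤ : Submodule B (B ⧸ I)) = (J • (⊤ : Submodule B B)).map (Submodule.mkQ I) := by
      rw [Submodule.map_smul'', Submodule.map_top, Submodule.range_mkQ]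
    rw [h1]
    change a ∈ ((J • (⊤ : Submodule B B)).map (Submodule.mkQ I)).comap (Submodule.mkQ I) ↔ _
    rw [Submodule.comap_map_eq, Submodule.ker_mkQ, smul_eq_mul, Ideal.mul_top, sup_comm]
  rw [← hk]
  exact (LinearEquiv.length_eq (f.quotKerEquivOfSurjective hf)).symm

lemma length_toFr (p : ℕ) [Fact p.Prime] {A : Type*} [CommRing A] (e : ℕ) (I : Ideal A) :
    Module.length (Fr p A e) (Fr p A e ⧸ I.map (toFr p A e)) = Module.length A (A ⧸ I) := by
  have : I.map (toFr p A e) = I := Ideal.map_id I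
  rw [this]
  rfl

/-- Theorem A. -/
theorem theoremA (p : ℕ) [Fact p.Prime] {A S : Type*} [CommRing A] [IsLocalRing A]
    [IsNoetherianRing A] [CharP A p] [CharP (ResidueField A) p]
    [IsAdicComplete (maximalIdeal A) A] (hF : fdeg p (ResidueField A) 1 ≠ ⊤)
    [CommRing S] [IsLocalRing S] [IsNoetherianRing S] [Algebra A S]
    [IsLocalHom (algebraMap A S)] [Module.Flat A S] {r : ℕ} (hdim : ringKrullDim A = (r + 1 : ℕ))
    (x : Fin (r + 1) → A) (hx : ∀ i, x i ∈ maximalIdeal A)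
    (hreg : RingTheory.Sequence.IsWeaklyRegular A (List.ofFn x)) (s : ℕ)
    (hs : ∀ j, maximalIdeal A ^ (j + s) ≤ Ideal.span (Set.range x) ^ j)
    (y : Fin (r + 1) → S) (hy : ∀ i, y i ∈ maximalIdeal S)
    (hyl : Module.length S (S ⧸ Ideal.span (Set.range y)) ≠ ⊤) (t0 lam : ℕ)
    (ht0 : Module.length S (S ⧸ ((maximalIdeal A).map (algebraMap A S) ⊔
      Ideal.span (Set.range y))) = t0)
    (hlam : Module.length A (A ⧸ Ideal.span (Set.range x)) = lam) :
    (t0 : ℤ) * lam ≤ kchi y S := by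
  -- the fibre
  have hT : Module.length S (S ⧸ (maximalIdeal A).map (algebraMap A S)) ≠ ⊤ := by
    refine ell_fibre_ne_top (R := A) (S := S) (le_antisymm ?_ ringKrullDim_le_of_flat)
    rw [hdim]
    exact ringKrullDim_le_of_length y hy hyl
  have hTy : ∀ i, kk y (S ⧸ (maximalIdeal A).map (algebraMap A S)) i ≠ ⊤ := by
    intro i
    refine kk_ne_top y _ ?_ i
    rw [length_fibre_quot, ht0]
    exact ENat.natCast_ne_top _
  obtain ⟨t, ht⟩ : ∃ t : ℤ → ℕ, ∀ i, kk y (S ⧸ (maximalIdeal A).map (algebraMap A S)) i = t i :=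
    ⟨fun i => (kk y (S ⧸ (maximalIdeal A).map (algebraMap A S)) i).toNat, fun i =>
      (ENat.natCast_toNat (hTy i)).symm⟩
  have ht00 : t 0 = t0 := by
    have h1 := kk_zero y (S ⧸ (maximalIdeal A).map (algebraMap A S))
    rw [length_fibre_quot, ht0, ht] at h1
    exact_mod_cast h1
  have hbig : ∀ i, ((r + 1 : ℕ) : ℤ) < i → t i = 0 := by
    intro i hi
    have := kk_out y (S ⧸ (maximalIdeal A).map (algebraMap A S)) i (Or.inr hi)
    rw [ht] at this
    exact_mod_cast this
  obtain ⟨rr, hr, hr'⟩ := exists_ranks (r + 1) t hbig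
  obtain ⟨C, hC⟩ := numerics r t0 rr
  obtain ⟨L, hL⟩ : ∃ L : ℕ, ((maximalIdeal A) ^ L).map (algebraMap A S) ≤
      Ideal.span (Set.range y) := by
    obtain ⟨L, hL⟩ := exists_pow_le_of_ell_ne_top (I := Ideal.span (Set.range y)) hyl
    refine ⟨L, ?_⟩
    rw [Ideal.map_pow]
    refine (Ideal.pow_right_mono ?_ L).trans hL
    rw [Ideal.map_le_iff_le_comap]
    intro a ha
    exact (IsLocalRing.mem_maximalIdeal _).mpr fun h =>
      (IsLocalRing.mem_maximalIdeal _).mp ha (isUnit_of_map_unit (algebraMap A S) a h)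
  have hxl : Module.length A (A ⧸ Ideal.span (Set.range x)) ≠ ⊤ := by
    rw [hlam]; exact ENat.natCast_ne_top lam
  refine le_of_frobenius_growth p (Fact.out : p.Prime).two_le (r + 1) s (Nat.succ_pos r)
    ((r + 1).factorial : ℤ) (by exact_mod_cast Nat.factorial_pos _) t0 lam C (kchi y S)
    (by positivity) fun e Q hQ he => ?_
  let := algX p e x
  have hfin := finite_Fr p A hF e
  have hflat : Module.Flat (PP (ZMod p) r) (Fr p A e) := by
    refine flat_of_regular (fun l => ?_) ?_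
    · rw [algX_X]
      exact hx l
    · have : (fun l : Fin (r + 1) => algebraMap (PP (ZMod p) r) (Fr p A e) (MvPolynomial.X l)) =
        fun l => toFr p A e (x l) := funext fun l => algX_X p e x l
      rw [this]
      exact hreg
  have hpush : ∀ a ∈ maximalIdeal A, algebraMap A (Fr p A e) a ∈
      ((mX (ZMod p) r) ^ Q).map (algebraMap (PP (ZMod p) r) (Fr p A e)) := by
    intro a ha
    rw [Ideal.map_pow, algX_map, ← Ideal.map_pow, algebraMap_Fr, he]
    exact Ideal.mem_map_of_mem _ (hs Q (Ideal.pow_mem_pow ha _))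
  obtain ⟨de, hde⟩ : ∃ de : ℕ, fdeg p (ResidueField A) e = de := by
    have : fdeg p (ResidueField A) e ≠ ⊤ := by
      rw [fdeg_eq_pow]
      obtain ⟨d1, hd1⟩ := ENat.ne_top_iff_exists.mp hF
      rw [← hd1]
      exact_mod_cast ENat.natCast_ne_top (d1 ^ e)
    exact ⟨_, (ENat.natCast_toNat this).symm⟩
  have hde0 : 0 < de := by
    rw [Nat.pos_iff_ne_zero]
    rintro rfl
    have h1 : Module.length (ResidueField A) (Fr p (ResidueField A) e) = 0 := hde
    rw [Module.length_eq_zero_iff] at h1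
    exact not_subsingleton (ResidueField A) h1
  have hlam' : Module.length A (Fr p A e ⧸ (mX (ZMod p) r).map
      (algebraMap (PP (ZMod p) r) (Fr p A e))) = ((lam * de : ℕ) : ℕ∞) := by
    have h1 := length_Fr p A e (Fr p A e ⧸ (mX (ZMod p) r).map
      (algebraMap (PP (ZMod p) r) (Fr p A e)))
    rw [h1, hde, algX_map]
    have h2 : Module.length (Fr p A e) (Fr p A e ⧸ (Ideal.span (Set.range x)).map (toFr p A e)) =
      lam := by
      rw [length_toFr, hlam]
    rw [h2]
    push_cast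
    rfl
  have hback : ∃ N : ℕ, ∀ l : Fin (r + 1),
      (algebraMap (PP (ZMod p) r) (Fr p A e) (MvPolynomial.X l)) ^ N ∈
      (maximalIdeal A).map (algebraMap A (Fr p A e)) := by
    refine ⟨p ^ e, fun l => ?_⟩
    rw [algX_X, ← map_pow, ← algebraMap_Fr]
    exact Ideal.mem_map_of_mem _ (hx l)
  have hN := fun a : Fin r → ℤ => kchi_NMon_le (κ := ZMod p) (r := r) (A := A) (A' := Fr p A e)
    (S := S) hT (by rw [hlam']; exact ENat.natCast_ne_top _) y hy hyl a
  have hreal := fun m : Fin (r + 1) => real_ineq (κ := ZMod p) (r := r) (A := A)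
    (A' := Fr p A e) (S := S) m Q hQ hpush (lam * de) hlam' hback y ⟨L, hL⟩ t ht rr hr hr'
    (hN (am m Q)).1
  have hsum : ((lam * de : ℕ) : ℤ) * (((r + 1).factorial : ℤ) * (Q : ℤ) ^ (r + 1) * t0 -
      (C : ℤ) * (Q : ℤ) ^ r) ≤ ((r + 1).factorial : ℤ) * kchi y (S ⊗[A] (Fr p A e)) := by
    calc ((lam * de : ℕ) : ℤ) * (((r + 1).factorial : ℤ) * (Q : ℤ) ^ (r + 1) * t0 -
        (C : ℤ) * (Q : ℤ) ^ r) ≤ ((lam * de : ℕ) : ℤ) * ∑ m : Fin (r + 1), ((wc m Q 0 : ℤ) * t0 +
        ∑ j ∈ Finset.Icc 1 (m : ℕ), (wc m Q j : ℤ) * rr (j + 1) -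
        ∑ j ∈ Finset.Icc ((m : ℕ) + 1) r, (wc m Q j : ℤ) * rr (j + 1)) :=
          mul_le_mul_of_nonneg_left (hC Q hQ) (by positivity)
      _ ≤ ∑ m : Fin (r + 1), (r.factorial : ℤ) * kchi y (S ⊗[A] (Fr p A e)) := by
          rw [Finset.mul_sum]
          refine Finset.sum_le_sum fun m _ => ?_
          have h1 := hreal m
          rw [ht00] at h1
          exact h1.trans (hN (am m Q)).2
      _ = ((r + 1).factorial : ℤ) * kchi y (S ⊗[A] (Fr p A e)) := by
          rw [Finset.sum_const, Finset.card_univ, Fintype.card_fin, Nat.factorial_succ]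
          push_cast
          simp only [nsmul_eq_mul]
          push_cast
          ring
  rw [kchi_Fr p hF hdim x hx hxl y hy hyl e, hde, ENat.toNat_natCast] at hsum
  have hde0' : (0 : ℤ) < de := by exact_mod_cast hde0
  refine le_of_mul_le_mul_left ?_ hde0'
  rw [Nat.add_sub_cancel]
  calc (de : ℤ) * ((lam : ℤ) * (((r + 1).factorial : ℤ) * (Q : ℤ) ^ (r + 1) * t0 -
      (C : ℤ) * (Q : ℤ) ^ r)) = ((lam * de : ℕ) : ℤ) * (((r + 1).factorial : ℤ) *
        (Q : ℤ) ^ (r + 1) * t0 - (C : ℤ) * (Q : ℤ) ^ r) := by push_cast; ring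
    _ ≤ _ := hsum
    _ = _ := by ring

end Vale.Agent.P202.CharP
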