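import Vale.Agent.P202.CharP.DefsM

/-!
P202-CHARP, task M6: `X_p` is bijective on `F^p / G^p`; exhaustion.
-/

namespace Vale.Agent.P202.CharP

open Submodule TensorProduct

namespace BijX

variable {κ : Type*} [Field κ] {r : ℕ}

lemma cf_sum {ι : Type*} (s : Finset ι) (f : ι → Lau κ r) (g : Gx r) :
    cf (∑ i ∈ s, f i) g = ∑ i ∈ s, cf (f i) g := by
  classical
  induction s using Finset.induction_on with
  | empty => simp [cf_zero]
  | insert a s ha ih => rw [Finset.sum_insert ha, Finset.sum_insert ha, cf_add, ih]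

lemma cf_neg (f : Lau κ r) (g : Gx r) : cf (-f) g = - cf f g := rfl

lemma cf_sub (f f' : Lau κ r) (g : Gx r) : cf (f - f') g = cf f g - cf f' g := by
  rw [sub_eq_add_neg, cf_add, cf_neg, sub_eq_add_neg]

lemma cf_smul (c : κ) (f : Lau κ r) (g : Gx r) : cf (c • f) g = c * cf f g := rfl

lemma cf_mono (m : Gx r) (c : κ) (g : Gx r) [Decidable (m = g)] :
    cf (mono m c) g = if m = g then c else 0 := by
  unfold cf mono
  exact Finsupp.single_apply

lemma cf_mono_mul (m : Gx r) (c : κ) (f : Lau κ r) (g : Gx r) :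
    cf (mono m c * f) g = c * cf f (g - m) := by
  have := AddMonoidAlgebra.coeff_single_mul_eq_mul_coeff (x := (f : AddMonoidAlgebra κ (Gx r)))
    (r := c) (m := m) (m₁ := g) (g - m) (by
      intro m' _
      constructor
      · rintro rfl; abel
      · rintro rfl; abel)
  exact this

lemma cf_xl_mul (l : Fin (r + 1)) (f : Lau κ r) (g : Gx r) :
    cf (xl κ l * f) g = ∑ L ∈ (Finset.univ : Finset (Fin r)).powersetCard l, cf f (g - ex L) := by
  unfold xl
  rw [Finset.sum_mul, cf_sum]
  refine Finset.sum_congr rfl fun L _ => ?_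
  rw [cf_mono_mul, one_mul]

lemma X_smul (l : Fin (r + 1)) (f : Lau κ r) :
    (MvPolynomial.X l : PP κ r) • f = xl κ l * f := by
  rw [Algebra.smul_def, algebraMap_X]

lemma C_smul (c : κ) (f : Lau κ r) : (MvPolynomial.C c : PP κ r) • f = c • f := by
  rw [Algebra.smul_def, Algebra.smul_def]
  congr 1
  exact MvPolynomial.aeval_C _ _

lemma mem_Mon' {E : Set (Finset (Fin r) × Gx r)} (hE : Up E) (f : Lam κ r) :
    f ∈ Mon κ E ↔ ∀ I g, cf (f I) g ≠ 0 → (I, g) ∈ E := by
  constructor
  · intro h I g hg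
    refine h 1 I g ?_
    rwa [one_smul]
  · intro h q
    induction q using MvPolynomial.induction_on with
    | C c =>
      intro I g hg
      rw [C_smul, cf_smul] at hg
      exact h I g (right_ne_zero_of_mul hg)
    | add p q hp hq =>
      intro I g hg
      rw [add_smul, cf_add] at hg
      by_cases h1 : cf (p • f I) g = 0
      · rw [h1, zero_add] at hg
        exact hq I g hg
      · exact hp I g h1
    | mul_X p l hp =>
      intro I g hg
      rw [mul_comm, mul_smul, X_smul, cf_xl_mul] at hg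
      obtain ⟨L, _, hL⟩ := Finset.exists_ne_zero_of_sum_ne_zero hg
      have := hE I _ L (hp I _ hL)
      rwa [sub_add_cancel] at this

lemma up_SF' : Up (SF r) := by
  intro I g L h i hi
  have := h i hi
  simp only [ex, Prod.fst_add, Pi.add_apply] at this ⊢
  split_ifs
  · exact add_nonneg this zero_le_one
  · simpa using this

lemma up_SG' (a : Fin r → ℤ) : Up (SG a) := by
  intro I g L h
  refine ⟨up_SF' I g L h.1, ?_⟩
  obtain ⟨i, hi, hi'⟩ := h.2
  refine ⟨i, hi, ?_⟩
  simp only [ex, Prod.fst_add, Pi.add_apply, Prod.snd_add] at hi' ⊢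
  split_ifs <;> omega

lemma up_SW' (a : Fin r → ℤ) (Q k : ℕ) : Up (SW a Q k) := by
  rintro I g L (h | h)
  · exact Or.inl (up_SG' a I g L h)
  · refine Or.inr ⟨up_SF' I g L h.1, ?_⟩
    have := h.2
    simp only [ex, Prod.snd_add] at this ⊢
    omega

lemma up_grd' {E : Set (Finset (Fin r) × Gx r)} (hE : Up E) (p : ℤ) : Up (grd E p) :=
  fun I g L h => ⟨hE I g L h.1, h.2⟩

lemma mem_MF {E : Set (Finset (Fin r) × Gx r)} (hE : Up E) (p : ℤ) (f : Lam κ r) :
    f ∈ MF κ E p ↔ ∀ I g, cf (f I) g ≠ 0 → (I, g) ∈ E ∧ (I.card : ℤ) = p :=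
  mem_Mon' (up_grd' hE p) f

/-- the measure. -/
def mu (a : Fin r → ℤ) (I : Finset (Fin r)) (g : Gx r) : ℤ := ∑ i ∈ I, (g.1 i - a i - g.2)

lemma mu_shift (a : Fin r → ℤ) (I L : Finset (Fin r)) (g : Gx r) :
    mu a I (g + ex I - ex L) = mu a I g + (I \ L).card := by
  unfold mu
  have h1 : ((I \ L).card : ℤ) = ∑ i ∈ I, (if i ∈ L then (0 : ℤ) else 1) := by
    rw [Finset.card_eq_sum_ones, Finset.sdiff_eq_filter, Finset.sum_filter]
    push_cast
    refine Finset.sum_congr rfl fun i _ => ?_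
    by_cases h : i ∈ L <;> simp [h]
  rw [h1, ← Finset.sum_add_distrib]
  refine Finset.sum_congr rfl fun i hi => ?_
  simp only [ex, Prod.fst_sub, Prod.fst_add, Pi.sub_apply, Pi.add_apply, Prod.snd_sub,
    Prod.snd_add, if_pos hi]
  split_ifs <;> ring

lemma mu_shift' (a : Fin r → ℤ) (I L : Finset (Fin r)) (g : Gx r) :
    mu a I (g - ex I + ex L) = mu a I g - (I \ L).card := by
  have := mu_shift a I L (g - ex I + ex L)
  have h : g - ex I + ex L + ex I - ex L = g := by abel
  rw [h] at this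
  omega

lemma card_sdiff_pos {I L : Finset (Fin r)} (hc : L.card = I.card) (hne : L ≠ I) :
    0 < (I \ L).card := by
  rw [Finset.card_pos, Finset.sdiff_nonempty]
  intro h
  exact hne (Finset.eq_of_subset_of_card_le h hc.le).symm

/-- good monomials for the slot `I`. -/
def EE (a : Fin r → ℤ) (I : Finset (Fin r)) : Set (Gx r) :=
  {g | (∀ i ∉ I, 0 ≤ g.1 i) ∧ ∀ i ∈ I, a i + g.2 < g.1 i}

lemma mem_EE_iff {a : Fin r → ℤ} {I : Finset (Fin r)} {g : Gx r} :
    g ∈ EE a I ↔ (I, g) ∈ SF r ∧ (I, g) ∉ SG a := by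
  constructor
  · intro h
    refine ⟨h.1, fun h' => ?_⟩
    obtain ⟨i, hi, hi'⟩ := h'.2
    exact absurd (h.2 i hi) (not_lt.mpr hi')
  · rintro ⟨h1, h2⟩
    refine ⟨h1, fun i hi => ?_⟩
    by_contra h3
    exact h2 ⟨h1, i, hi, not_lt.mp h3⟩

lemma EE_shift {a : Fin r → ℤ} {I : Finset (Fin r)} {g : Gx r} (L : Finset (Fin r))
    (hg : g ∈ EE a I) (h : (I, g + ex I - ex L) ∈ SF r) : g + ex I - ex L ∈ EE a I := by
  refine ⟨h, fun i hi => ?_⟩
  have := hg.2 i hi
  simp only [ex, Prod.fst_sub, Prod.fst_add, Pi.sub_apply, Pi.add_apply, Prod.snd_sub,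
    Prod.snd_add, if_pos hi]
  split_ifs <;> omega

lemma EE_add {a : Fin r → ℤ} {I : Finset (Fin r)} {g : Gx r} (hg : g ∈ EE a I) :
    g + ex I ∈ EE a I := by
  refine ⟨fun i hi => ?_, fun i hi => ?_⟩
  · have := hg.1 i hi
    simpa [ex, hi] using this
  · have := hg.2 i hi
    simp only [ex, Prod.fst_add, Pi.add_apply, Prod.snd_add, if_pos hi]
    omega

lemma EE_sub {a : Fin r → ℤ} {I : Finset (Fin r)} {g : Gx r} (hg : g ∈ EE a I) :
    g - ex I ∈ EE a I := by
  refine ⟨fun i hi => ?_, fun i hi => ?_⟩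
  · have := hg.1 i hi
    simpa [ex, hi] using this
  · have := hg.2 i hi
    simp only [ex, Prod.fst_sub, Pi.sub_apply, Prod.snd_sub, if_pos hi]
    omega

/-- injectivity for one slot. -/
lemma inj_slot (a : Fin r → ℤ) (p : Fin (r + 1)) (I : Finset (Fin r)) (hI : I.card = p)
    (v : Lau κ r) (hv : ∀ g, cf v g ≠ 0 → (I, g) ∈ SF r)
    (h : ∀ g, cf (xl κ p * v) g ≠ 0 → (I, g) ∈ SG a) :
    ∀ g, cf v g ≠ 0 → (I, g) ∈ SG a := by
  classical
  by_contra hcon
  push Not at hcon
  obtain ⟨g₀, hg₀, hg₀'⟩ := hcon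
  -- the finite set of bad monomials
  let B : Finset (Gx r) := (AddMonoidAlgebra.coeff v).support.filter fun g => g ∈ EE a I
  have hB : ∀ g, g ∈ B ↔ cf v g ≠ 0 ∧ g ∈ EE a I := by
    intro g
    simp only [B, Finset.mem_filter, Finsupp.mem_support_iff]
    rfl
  have hne : B.Nonempty := ⟨g₀, (hB g₀).2 ⟨hg₀, mem_EE_iff.2 ⟨hv g₀ hg₀, hg₀'⟩⟩⟩
  obtain ⟨g, hgB, hmax⟩ := B.exists_max_image (mu a I) hne
  obtain ⟨hg1, hg2⟩ := (hB g).1 hgB
  have hmem : I ∈ (Finset.univ : Finset (Fin r)).powersetCard p := by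
    simp [hI]
  have key : cf (xl κ p * v) (g + ex I) = cf v g := by
    rw [cf_xl_mul, Finset.sum_eq_single I]
    · rw [add_sub_cancel_right]
    · intro L hL hLI
      by_contra hne0
      have hLc : L.card = I.card := by
        rw [Finset.mem_powersetCard] at hL
        rw [hL.2, hI]
      have hin : g + ex I - ex L ∈ B := by
        rw [hB]
        exact ⟨hne0, EE_shift L hg2 (hv _ hne0)⟩
      have h1 := hmax _ hin
      rw [mu_shift] at h1
      have h2 := card_sdiff_pos hLc hLI
      omega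
    · intro h'
      exact absurd hmem h'
  have h3 := h (g + ex I) (by rw [key]; exact hg1)
  exact (mem_EE_iff.1 (EE_add hg2)).2 h3

/-- surjectivity for one slot, monomials. -/
lemma surj_mono (a : Fin r → ℤ) (p : Fin (r + 1)) (I : Finset (Fin r)) (hI : I.card = p) (n : ℕ) :
    ∀ (g : Gx r) (c : κ), (I, g) ∈ SF r → mu a I g < n → ∃ v' : Lau κ r,
      (∀ g', cf v' g' ≠ 0 → (I, g') ∈ SF r) ∧
      ∀ g', cf (mono g c - xl κ p * v') g' ≠ 0 → (I, g') ∈ SG a := by
  classical
  induction n with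
  | zero =>
    intro g c hg hmu
    refine ⟨0, fun g' h => absurd (cf_zero g') h, fun g' h => ?_⟩
    rw [mul_zero, sub_zero, cf_mono] at h
    split_ifs at h with h1
    · subst h1
      by_contra h2
      have h3 := mem_EE_iff.2 ⟨hg, h2⟩
      have h4 : 0 ≤ mu a I g := Finset.sum_nonneg fun i hi => by
        have := h3.2 i hi
        omega
      simp only [Nat.cast_zero] at hmu
      omega
    · exact absurd rfl h
  | succ n ih =>
    intro g c hg hmu
    by_cases hgG : (I, g) ∈ SG a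
    · refine ⟨0, fun g' h => absurd (cf_zero g') h, fun g' h => ?_⟩
      rw [mul_zero, sub_zero, cf_mono] at h
      split_ifs at h with h1
      · subst h1
        exact hgG
      · exact absurd rfl h
    · have hgE := mem_EE_iff.2 ⟨hg, hgG⟩
      have hg0 := EE_sub hgE
      -- the other monomials
      have hstep : ∀ L ∈ ((Finset.univ : Finset (Fin r)).powersetCard p).erase I, ∃ v' : Lau κ r,
          (∀ g', cf v' g' ≠ 0 → (I, g') ∈ SF r) ∧
          ∀ g', cf (mono (g - ex I + ex L) c - xl κ p * v') g' ≠ 0 → (I, g') ∈ SG a := by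
        intro L hL
        rw [Finset.mem_erase, Finset.mem_powersetCard] at hL
        have hLc : L.card = I.card := by rw [hL.2.2, hI]
        refine ih _ c (up_SF' I _ L hg0.1) ?_
        rw [mu_shift']
        have := card_sdiff_pos hLc hL.1
        push_cast at hmu
        omega
      choose! V hV1 hV2 using hstep
      refine ⟨mono (g - ex I) c - ∑ L ∈ ((Finset.univ : Finset (Fin r)).powersetCard p).erase I,
        V L, ?_, ?_⟩
      · intro g' h
        rw [cf_sub, cf_sum] at h
        by_cases h1 : cf (mono (g - ex I) c) g' = 0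
        · rw [h1, zero_sub, neg_ne_zero] at h
          obtain ⟨L, hL, hL'⟩ := Finset.exists_ne_zero_of_sum_ne_zero h
          exact hV1 L hL g' hL'
        · rw [cf_mono] at h1
          split_ifs at h1 with h2
          · rw [← h2]
            exact hg0.1
          · exact absurd rfl h1
      · intro g' h
        have hI' : I ∈ (Finset.univ : Finset (Fin r)).powersetCard p := by simp [hI]
        have hmm : ∀ m m' : Gx r, (mono m 1 : Lau κ r) * mono m' c = mono (m' + m) c := by
          intro m m'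
          apply AddMonoidAlgebra.coeff_injective
          ext g''
          have := cf_mono_mul m 1 (mono m' c) g''
          unfold cf at this
          change AddMonoidAlgebra.coeff ((mono m 1 : Lau κ r) * mono m' c) g'' = _
          rw [this, one_mul]
          change cf (mono m' c) (g'' - m) = cf (mono (m' + m) c) g''
          rw [cf_mono, cf_mono]
          have : (m' = g'' - m) ↔ (m' + m = g'') := eq_sub_iff_add_eq
          simp only [this]
        have hx : xl κ p * mono (g - ex I) c = mono g c +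
            ∑ L ∈ ((Finset.univ : Finset (Fin r)).powersetCard p).erase I,
              mono (g - ex I + ex L) c := by
          unfold xl
          rw [Finset.sum_mul, ← Finset.add_sum_erase _ _ hI', hmm, sub_add_cancel]
          congr 1
          exact Finset.sum_congr rfl fun L _ => hmm _ _
        have hy : mono g c - xl κ p * (mono (g - ex I) c -
            ∑ L ∈ ((Finset.univ : Finset (Fin r)).powersetCard p).erase I, V L) =
            - ∑ L ∈ ((Finset.univ : Finset (Fin r)).powersetCard p).erase I,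
              (mono (g - ex I + ex L) c - xl κ p * V L) := by
          rw [mul_sub, hx, Finset.mul_sum, Finset.sum_sub_distrib]
          abel
        rw [hy, cf_neg, neg_ne_zero, cf_sum] at h
        obtain ⟨L, hL, hL'⟩ := Finset.exists_ne_zero_of_sum_ne_zero h
        exact hV2 L hL g' hL'

/-- surjectivity for one slot. -/
lemma surj_slot (a : Fin r → ℤ) (p : Fin (r + 1)) (I : Finset (Fin r)) (hI : I.card = p)
    (v : Lau κ r) (hv : ∀ g, cf v g ≠ 0 → (I, g) ∈ SF r) :
    ∃ v' : Lau κ r, (∀ g, cf v' g ≠ 0 → (I, g) ∈ SF r) ∧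
      ∀ g, cf (v - xl κ p * v') g ≠ 0 → (I, g) ∈ SG a := by
  classical
  have hstep : ∀ g ∈ (AddMonoidAlgebra.coeff v).support, ∃ v' : Lau κ r,
      (∀ g', cf v' g' ≠ 0 → (I, g') ∈ SF r) ∧
      ∀ g', cf (mono g (cf v g) - xl κ p * v') g' ≠ 0 → (I, g') ∈ SG a := by
    intro g hg
    rw [Finsupp.mem_support_iff] at hg
    refine surj_mono a p I hI ((mu a I g).toNat + 1) g (cf v g) (hv g hg) ?_
    have := Int.self_le_toNat (mu a I g)
    push_cast
    omega
  choose! V hV1 hV2 using hstep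
  refine ⟨∑ g ∈ (AddMonoidAlgebra.coeff v).support, V g, ?_, ?_⟩
  · intro g' h
    rw [cf_sum] at h
    obtain ⟨g, hg, hg'⟩ := Finset.exists_ne_zero_of_sum_ne_zero h
    exact hV1 g hg g' hg'
  · intro g' h
    have hsum : v = ∑ g ∈ (AddMonoidAlgebra.coeff v).support, mono g (cf v g) := by
      apply AddMonoidAlgebra.coeff_injective
      ext g''
      change cf v g'' = cf (∑ g ∈ (AddMonoidAlgebra.coeff v).support, mono g (cf v g)) g''
      rw [cf_sum]
      simp only [cf_mono]
      rw [Finset.sum_ite_eq']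
      split_ifs with h1
      · rfl
      · rw [Finsupp.mem_support_iff, not_not] at h1
        exact h1
    have hy : v - xl κ p * ∑ g ∈ (AddMonoidAlgebra.coeff v).support, V g =
        ∑ g ∈ (AddMonoidAlgebra.coeff v).support, (mono g (cf v g) - xl κ p * V g) := by
      rw [Finset.mul_sum, Finset.sum_sub_distrib, ← hsum]
    rw [hy, cf_sum] at h
    obtain ⟨g, hg, hg'⟩ := Finset.exists_ne_zero_of_sum_ne_zero h
    exact hV2 g hg g' hg'

end BijX

variable {κ : Type*} [Field κ] {r : ℕ}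

open BijX in
/-- TASK M6: `X_p` is bijective on `F^p / G^p`. -/
theorem bij_X (a : Fin r → ℤ) (p : Fin (r + 1)) :
    (∀ v ∈ MF κ (SF r) (p : ℕ), (MvPolynomial.X p : PP κ r) • v ∈ MF κ (SG a) (p : ℕ) →
      v ∈ MF κ (SG a) (p : ℕ)) ∧
    (∀ v ∈ MF κ (SF r) (p : ℕ), ∃ v' ∈ MF κ (SF r) (p : ℕ),
      v - (MvPolynomial.X p : PP κ r) • v' ∈ MF κ (SG a) (p : ℕ)) := by
  classical
  constructor
  · intro v hv hXv
    rw [mem_MF up_SF'] at hv
    rw [mem_MF (up_SG' a)] at hXv ⊢
    intro I g hg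
    have hc := (hv I g hg).2
    refine ⟨?_, hc⟩
    refine inj_slot a p I (by exact_mod_cast hc) (v I) (fun g' hg' => (hv I g' hg').1) ?_ g hg
    intro g' hg'
    refine (hXv I g' ?_).1
    rwa [Pi.smul_apply, X_smul]
  · intro v hv
    rw [mem_MF up_SF'] at hv
    have hstep : ∀ I : Finset (Fin r), ∃ v' : Lau κ r, (∀ g, cf v' g ≠ 0 → (I, g) ∈ SF r ∧
        (I.card : ℤ) = ((p : ℕ) : ℤ)) ∧
        ∀ g, cf (v I - xl κ p * v') g ≠ 0 → (I, g) ∈ SG a ∧ (I.card : ℤ) = ((p : ℕ) : ℤ) := by
      intro I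
      by_cases hI : I.card = p
      · obtain ⟨v', h1, h2⟩ := surj_slot a p I hI (v I) (fun g hg => (hv I g hg).1)
        exact ⟨v', fun g hg => ⟨h1 g hg, by exact_mod_cast hI⟩,
          fun g hg => ⟨h2 g hg, by exact_mod_cast hI⟩⟩
      · refine ⟨0, fun g hg => absurd (cf_zero g) hg, fun g hg => ?_⟩
        rw [mul_zero, sub_zero] at hg
        exact absurd (by exact_mod_cast (hv I g hg).2) hI
    choose V hV1 hV2 using hstep
    refine ⟨V, ?_, ?_⟩
    · rw [mem_MF up_SF']
      intro I g hg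
      exact hV1 I g hg
    · rw [mem_MF (up_SG' a)]
      intro I g hg
      rw [Pi.sub_apply, Pi.smul_apply, X_smul] at hg
      exact hV2 I g hg

open BijX in
/-- TASK M6: exhaustion. -/
theorem exists_level (a : Fin r → ℤ) (Q : ℕ) (hQ : 1 ≤ Q) (p : ℤ) (f : Lam κ r) :
    f ∈ MF κ (SF r) p ↔ ∃ k, f ∈ MF κ (SW a Q k) p := by
  classical
  constructor
  · intro hf
    rw [mem_MF up_SF'] at hf
    -- a bound for the `τ`-degrees
    have hb : ∃ k : ℕ, ∀ I g, cf (f I) g ≠ 0 → -(k : ℤ) ≤ g.2 := by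
      let S : Finset (Gx r) := Finset.univ.biUnion fun I : Finset (Fin r) =>
        (AddMonoidAlgebra.coeff (f I)).support
      refine ⟨∑ g ∈ S, g.2.natAbs, fun I g hg => ?_⟩
      have hgS : g ∈ S := by
        simp only [S, Finset.mem_biUnion, Finset.mem_univ, true_and]
        exact ⟨I, by rw [Finsupp.mem_support_iff]; exact hg⟩
      have h1 : g.2.natAbs ≤ ∑ g ∈ S, g.2.natAbs :=
        Finset.single_le_sum (f := fun g : Gx r => g.2.natAbs) (fun _ _ => Nat.zero_le _) hgS
      omega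
    obtain ⟨k, hk⟩ := hb
    refine ⟨k + 1, ?_⟩
    rw [mem_MF (up_SW' a Q (k + 1))]
    intro I g hg
    refine ⟨Or.inr ⟨(hf I g hg).1, ?_⟩, (hf I g hg).2⟩
    have h1 := hk I g hg
    push_cast
    have h2 : (1 : ℤ) ≤ Q := by exact_mod_cast hQ
    have h3 : (0 : ℤ) ≤ k := by positivity
    nlinarith
  · rintro ⟨k, hk⟩
    rw [mem_MF (up_SW' a Q k)] at hk
    rw [mem_MF up_SF']
    intro I g hg
    obtain ⟨h1, h2⟩ := hk I g hg
    refine ⟨?_, h2⟩
    rcases h1 with h1 | h1
    · exact h1.1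
    · exact h1.1

end Vale.Agent.P202.CharP
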