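import Vale.Agent.P202.CharP.DefsM

/-!
P202-CHARP, definitions: base change to `A'` followed by restriction of scalars to `A`, and the
Frobenius copy of a ring.
-/

namespace Vale.Agent.P202.CharP

open Submodule TensorProduct IsLocalRing

section

variable {B : Type*} [CommRing B] {Λ : Type*} [AddCommGroup Λ] [Module B Λ]

/-- base change of a submodule to the `B`-algebra `A'`, seen as an `A`-submodule. -/
noncomputable def bcA (A A' : Type*) [CommRing A] [CommRing A'] [Algebra A A'] [Algebra B A']
    (X : Submodule B Λ) : Submodule A (A' ⊗[B] Λ) := (X.baseChange A').restrictScalars A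

/-- base change of an endomorphism to the `B`-algebra `A'`, seen as an `A`-linear map. -/
noncomputable def bcE (A A' : Type*) [CommRing A] [CommRing A'] [Algebra A A'] [Algebra B A']
    (d : Λ →ₗ[B] Λ) : (A' ⊗[B] Λ) →ₗ[A] (A' ⊗[B] Λ) := (d.baseChange A').restrictScalars A

end

/-- the ring `A`, to be seen as an `A`-algebra through the `e`-th power of the Frobenius. -/
def Fr (p : ℕ) (A : Type*) (e : ℕ) : Type _ := (fun _ _ => A) p e

section

variable (p : ℕ) [Fact p.Prime] (A : Type*) [CommRing A] (e : ℕ)

instance : CommRing (Fr p A e) := inferInstanceAs (CommRing A)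

instance [CharP A p] : CharP (Fr p A e) p := inferInstanceAs (CharP A p)

instance [IsLocalRing A] : IsLocalRing (Fr p A e) := inferInstanceAs (IsLocalRing A)

instance [IsNoetherianRing A] : IsNoetherianRing (Fr p A e) :=
  inferInstanceAs (IsNoetherianRing A)

instance [CharP A p] : Algebra A (Fr p A e) := (iterateFrobenius A p e).toAlgebra

/-- the identity `A ≃ Fr p A e`. -/
def toFr : A ≃+* Fr p A e := RingEquiv.refl A

end

lemma algebraMap_Fr (p : ℕ) [Fact p.Prime] (A : Type*) [CommRing A] [CharP A p] (e : ℕ) (a : A) :
    algebraMap A (Fr p A e) a = toFr p A e (a ^ p ^ e) := rfl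

/-- degree of the `p^e`-th power Frobenius of a field. -/
noncomputable def fdeg (p : ℕ) [Fact p.Prime] (k : Type*) [Field k] [CharP k p] (e : ℕ) : ℕ∞ :=
  Module.length k (Fr p k e)

end Vale.Agent.P202.CharP
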