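import Vale.Agent.P202.ClsAssembly
import Vale.Agent.P202.CharP.DefsF

/-!
P202-CHARP, Z3: stability of the classes of rings of characteristic `p` with `F`-finite residue
field and of Cohen-Macaulay rings under completion and under enlarging the residue field.
-/

namespace Vale.Agent.P202.CharP

open IsLocalRing Polynomial

universe u

section FFin

variable (p : ℕ) [Fact p.Prime]

/-- `fdeg` is finite exactly for `F`-finite fields. -/
theorem fdeg_ne_top_iff (k : Type*) [Field k] [CharP k p] :
    fdeg p k 1 ≠ ⊤ ↔ (frobenius k p).Finite := by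
  have h1 : (frobenius k p).Finite ↔ Module.Finite k (Fr p k 1) := by
    rw [RingHom.Finite, ← iterateFrobenius_one]
    exact Iff.rfl
  rw [h1, fdeg, Module.length_ne_top_iff]
  constructor
  · intro h
    have := (isFiniteLength_iff_isNoetherian_isArtinian.mp h).1
    infer_instance
  · intro h
    exact isFiniteLength_iff_isNoetherian_isArtinian.mpr ⟨inferInstance, inferInstance⟩

/-- invariance under isomorphisms. -/
theorem finite_frobenius_of_bijective {k k' : Type*} [Field k] [CharP k p] [Field k'] [CharP k' p]
    (f : k →+* k') (hf : Function.Bijective f) (h : (frobenius k p).Finite) :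
    (frobenius k' p).Finite := by
  let e : k ≃+* k' := RingEquiv.ofBijective f hf
  have h1 : frobenius k' p = (e : k →+* k').comp ((frobenius k p).comp (e.symm : k' →+* k)) := by
    ext x
    simp only [RingHom.comp_apply, RingHom.coe_coe, frobenius_def, map_pow]
    rw [RingEquiv.apply_symm_apply]
  rw [h1]
  exact (RingHom.Finite.of_surjective _ e.surjective).comp
    (h.comp (RingHom.Finite.of_surjective _ e.symm.surjective))

/-- the fraction field of the polynomial ring over an `F`-finite field is `F`-finite. -/
theorem finite_frobenius_of_fraction {k K : Type*} [Field k] [CharP k p] [Field K] [CharP K p]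
    (φ : k[X] →+* K)
    (hφ : letI := φ.toAlgebra; IsFractionRing k[X] K) (h : (frobenius k p).Finite) :
    (frobenius K p).Finite := by
  have hk : Module.Finite k (Fr p k 1) := by
    have h1 := h
    rw [RingHom.Finite, ← iterateFrobenius_one] at h1
    exact h1
  have goal : Module.Finite K (Fr p K 1) := by
    obtain ⟨s, hs⟩ := hk.fg_top
    classical
    set T : Finset (Fr p K 1) := (s ×ˢ Finset.range p).image fun x =>
      toFr p K 1 (φ (C ((toFr p k 1).symm x.1) * X ^ x.2)) with hT
    set M : Submodule K (Fr p K 1) := Submodule.span K (T : Set (Fr p K 1)) with hM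
    have hpp : 0 < p := (Fact.out : p.Prime).pos
    have hsmul : ∀ (c : K) (u : K), toFr p K 1 u ∈ M → toFr p K 1 (c ^ p * u) ∈ M := by
      intro c u hu
      have h1 := M.smul_mem c hu
      rw [Algebra.smul_def, algebraMap_Fr, pow_one, ← map_mul] at h1
      exact h1
    have step1 : ∀ (n : ℕ) (a : Fr p k 1),
        toFr p K 1 (φ (C ((toFr p k 1).symm a) * X ^ n)) ∈ M := by
      intro n a
      have ha : a ∈ Submodule.span k (s : Set (Fr p k 1)) := by rw [hs]; trivial
      induction ha using Submodule.span_induction with
      | mem b hb =>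
        have h1 : toFr p K 1 (φ (C ((toFr p k 1).symm b) * X ^ (n % p))) ∈ M := by
          refine Submodule.subset_span ?_
          rw [hT, Finset.coe_image]
          exact ⟨(b, n % p), by
            rw [Finset.mem_coe, Finset.mem_product]
            exact ⟨hb, Finset.mem_range.mpr (Nat.mod_lt n hpp)⟩, rfl⟩
        have h2 := hsmul (φ (X ^ (n / p))) _ h1
        rw [← map_pow, ← map_mul] at h2
        have h3 : (X ^ (n / p) : k[X]) ^ p * (C ((toFr p k 1).symm b) * X ^ (n % p)) =
            C ((toFr p k 1).symm b) * X ^ n := by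
          conv_rhs => rw [← Nat.div_add_mod n p]
          ring
        rwa [h3] at h2
      | zero => simp
      | add x y _ _ hx hy =>
        have h1 := M.add_mem hx hy
        rw [← map_add, ← map_add, ← add_mul, ← C_add, ← map_add] at h1
        exact h1
      | smul c x _ hx =>
        have h1 := hsmul (φ (C c)) _ hx
        rw [← map_pow, ← map_mul] at h1
        have h2 : (C c : k[X]) ^ p * (C ((toFr p k 1).symm x) * X ^ n) =
            C ((toFr p k 1).symm (c • x)) * X ^ n := by
          have h3 : (toFr p k 1).symm (c • x) = c ^ p * (toFr p k 1).symm x := by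
            rw [Algebra.smul_def, algebraMap_Fr, pow_one, map_mul, RingEquiv.symm_apply_apply]
          rw [h3, C_mul, C_pow, mul_assoc]
        rwa [h2] at h1
    have step2 : ∀ f : k[X], toFr p K 1 (φ f) ∈ M := by
      intro f
      induction f using Polynomial.induction_on' with
      | add f g hf hg =>
        rw [map_add, map_add]
        exact M.add_mem hf hg
      | monomial n a =>
        have h1 := step1 n (toFr p k 1 a)
        rw [RingEquiv.symm_apply_apply, C_mul_X_pow_eq_monomial] at h1
        exact h1
    refine ⟨⟨T, ?_⟩⟩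
    rw [eq_top_iff]
    intro u _
    let a1 := φ.toAlgebra
    have hfr : IsFractionRing k[X] K := hφ
    obtain ⟨f, g, hg, hfg⟩ := IsFractionRing.div_surjective (A := k[X]) ((toFr p K 1).symm u)
    have hg0 : φ g ≠ 0 := by
      have h1 : algebraMap k[X] K g ≠ 0 :=
        IsFractionRing.to_map_ne_zero_of_mem_nonZeroDivisors hg
      exact h1
    have h1 := hsmul (φ g)⁻¹ _ (step2 (f * g ^ (p - 1)))
    have h2 : (φ g)⁻¹ ^ p * φ (f * g ^ (p - 1)) = (toFr p K 1).symm u := by
      rw [← hfg, map_mul, map_pow]
      change _ = φ f / φ g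
      obtain ⟨q, hq⟩ : ∃ q, p = q + 1 := ⟨p - 1, by omega⟩
      have key : ∀ G F : K, G ≠ 0 → G⁻¹ ^ (q + 1) * (F * G ^ q) = F / G := by
        intro G F hG
        rw [inv_pow, pow_succ]
        field_simp
      rw [hq, Nat.add_sub_cancel]
      exact key _ _ hg0
    rw [h2, RingEquiv.apply_symm_apply] at h1
    exact h1
  rw [RingHom.Finite, ← iterateFrobenius_one]
  exact goal

/-- Noetherian local rings of characteristic `p` with `F`-finite residue field. -/
def ClsF : RCls.{u} := fun R _ _ _ =>
  ∃ (_ : CharP R p) (_ : CharP (ResidueField R) p), (frobenius (ResidueField R) p).Finite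

omit [Fact p.Prime] in
lemma charP_of_algebra (hp : p.Prime) {R R' : Type*} [CommRing R] [CommRing R'] [Nontrivial R']
    [Algebra R R'] [CharP R p] : CharP R' p := by
  rw [CharP.charP_iff_prime_eq_zero hp]
  have h1 : ((p : ℕ) : R) = 0 := CharP.cast_eq_zero R p
  have h2 : algebraMap R R' ((p : ℕ) : R) = 0 := by rw [h1, map_zero]
  rwa [map_natCast] at h2

theorem stable_clsF : RStable (ClsF.{u} p) where
  compl := by
    rintro R _ _ _ _ ⟨h1, h2, h3⟩
    have c1 : CharP (AdicCompletion (maximalIdeal R) R) p :=
      charP_of_algebra p Fact.out (R := R)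
    have c2 : CharP (ResidueField (AdicCompletion (maximalIdeal R) R)) p :=
      charP_of_algebra p Fact.out (R := AdicCompletion (maximalIdeal R) R)
    exact ⟨c1, c2, finite_frobenius_of_bijective p _
      (AdicCompletion.residueField_map_bijective R) h3⟩
  nag := by
    rintro R _ _ _ ⟨h1, h2, h3⟩
    have c1 : CharP (Nag R) p := charP_of_algebra p Fact.out (R := R)
    have c2 : CharP (ResidueField (Nag R)) p := charP_of_algebra p Fact.out (R := Nag R)
    obtain ⟨φ, -, hφ⟩ := exists_fraction R
    exact ⟨c1, c2, finite_frobenius_of_fraction p φ hφ h3⟩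

end FFin

section CM

/-- Cohen-Macaulay local rings: a system of parameters which is a regular sequence. -/
def ClsCM : RCls.{u} := fun R _ _ _ =>
  ∃ (d : ℕ) (z : Fin d → R), ringKrullDim R = d ∧ (∀ i, z i ∈ maximalIdeal R) ∧
    RingTheory.Sequence.IsWeaklyRegular R (List.ofFn z) ∧ ell (Ideal.span (Set.range z)) ≠ ⊤

lemma clsCM_of_unram {R R' : Type u} [CommRing R] [IsLocalRing R] [IsNoetherianRing R]
    [CommRing R'] [IsLocalRing R'] [IsNoetherianRing R'] [Algebra R R']
    [IsLocalHom (algebraMap R R')] [Module.Flat R R']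
    (hm : maximalIdeal R' = (maximalIdeal R).map (algebraMap R R')) (h : ClsCM R) : ClsCM R' := by
  obtain ⟨d, z, hd, hz, hreg, hl⟩ := h
  refine ⟨d, fun i => algebraMap R R' (z i), (ringKrullDim_of_unram hm).trans hd, ?_, ?_, ?_⟩
  · intro i
    rw [hm]
    exact Ideal.mem_map_of_mem _ (hz i)
  · have h1 := RingTheory.Sequence.IsWeaklyRegular.of_flat (S := R') hreg
    rw [List.map_ofFn] at h1
    exact h1
  · have h1 : Ideal.span (Set.range fun i => algebraMap R R' (z i)) =
        (Ideal.span (Set.range z)).map (algebraMap R R') := by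
      rw [Ideal.map_span, ← Set.range_comp]
      rfl
    rw [h1, ell, length_quot_map_of_unram hm]
    exact hl

theorem stable_clsCM : RStable ClsCM.{u} where
  compl := by
    intro R _ _ _ _ h
    exact clsCM_of_unram AdicCompletion.maximalIdeal_eq_map h
  nag := by
    intro R _ _ _ h
    exact clsCM_of_unram (map_maximalIdeal_nag R).symm h

lemma rstable_inter {C C' : RCls.{u}} (h : RStable C) (h' : RStable C') :
    RStable (fun R _ _ _ => C R ∧ C' R) where
  compl := fun R _ _ _ _ hR => ⟨h.compl R hR.1, h'.compl R hR.2⟩
  nag := fun R _ _ _ hR => ⟨h.nag R hR.1, h'.nag R hR.2⟩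

end CM

end Vale.Agent.P202.CharP
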