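import Vale.Agent.P202.CharP.TotBasic
import Vale.Agent.P202.CharP.BaseCh

/-!
P202-CHARP, task S1: the staircase. Instead of a minimal model of the complex we use that, modulo
the maximal ideal, all inclusions of submodules of `V` split.
-/

namespace Vale.Agent.P202.CharP

open Submodule TensorProduct IsLocalRing

section Compl

variable {A : Type*} [CommRing A] {V : Type*} [AddCommGroup V] [Module A V]

/-- complements modulo a submodule, for modules killed by a maximal ideal modulo it -/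
theorem st_exists_compl (I : Ideal A) [hI : I.IsMaximal] {X G Y : Submodule A V} (hXG : X ≤ G)
    (hGY : G ≤ Y) (hIY : I • Y ≤ X) : ∃ H, X ≤ H ∧ H ≤ Y ∧ G ⊓ H = X ∧ G ⊔ H = Y := by
  let _ : Field (A ⧸ I) := Ideal.Quotient.field I
  have htor : Module.IsTorsionBySet A (↥Y ⧸ X.submoduleOf Y) I := by
    rintro x ⟨r, hr⟩
    obtain ⟨y, rfl⟩ := Submodule.mkQ_surjective _ x
    show r • (X.submoduleOf Y).mkQ y = 0
    rw [← map_smul, Submodule.mkQ_apply, Submodule.Quotient.mk_eq_zero]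
    exact hIY (Submodule.smul_mem_smul hr y.2)
  let _ : Module (A ⧸ I) (↥Y ⧸ X.submoduleOf Y) := htor.module
  have hss : IsSemisimpleModule A (↥Y ⧸ X.submoduleOf Y) :=
    htor.isSemisimpleModule_iff.1 inferInstance
  obtain ⟨C, hC⟩ := exists_isCompl ((G.submoduleOf Y).map (X.submoduleOf Y).mkQ)
  have hXY := hXG.trans hGY
  refine ⟨(C.comap (X.submoduleOf Y).mkQ).map Y.subtype, ?_, ?_, ?_, ?_⟩
  · intro x hx
    refine ⟨⟨x, hXY hx⟩, ?_, rfl⟩
    show (X.submoduleOf Y).mkQ ⟨x, hXY hx⟩ ∈ C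
    have h0 : (X.submoduleOf Y).mkQ ⟨x, hXY hx⟩ = 0 := by
      rw [Submodule.mkQ_apply, Submodule.Quotient.mk_eq_zero]
      exact hx
    rw [h0]
    exact zero_mem _
  · rintro _ ⟨y, _, rfl⟩
    exact y.2
  · apply le_antisymm
    · rintro _ ⟨hx, ⟨y, hy, rfl⟩⟩
      have h1 : (X.submoduleOf Y).mkQ y ∈ (G.submoduleOf Y).map (X.submoduleOf Y).mkQ :=
        ⟨y, hx, rfl⟩
      have h2 := (Submodule.mem_bot A).1 (hC.inf_eq_bot ▸ Submodule.mem_inf.2 ⟨h1, hy⟩)
      rw [Submodule.mkQ_apply, Submodule.Quotient.mk_eq_zero] at h2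
      exact h2
    · intro x hx
      refine ⟨hXG hx, ⟨x, hXY hx⟩, ?_, rfl⟩
      show (X.submoduleOf Y).mkQ ⟨x, hXY hx⟩ ∈ C
      have h0 : (X.submoduleOf Y).mkQ ⟨x, hXY hx⟩ = 0 := by
        rw [Submodule.mkQ_apply, Submodule.Quotient.mk_eq_zero]
        exact hx
      rw [h0]
      exact zero_mem _
  · apply le_antisymm
    · refine sup_le hGY ?_
      rintro _ ⟨y, _, rfl⟩
      exact y.2
    · intro y hy
      have h1 : (X.submoduleOf Y).mkQ ⟨y, hy⟩ ∈
          (G.submoduleOf Y).map (X.submoduleOf Y).mkQ ⊔ C := by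
        rw [hC.sup_eq_top]
        exact Submodule.mem_top
      obtain ⟨_, ⟨g, hg, rfl⟩, c, hc, hgc⟩ := Submodule.mem_sup.1 h1
      have h2 : (⟨y, hy⟩ : Y) - g ∈ C.comap (X.submoduleOf Y).mkQ := by
        show (X.submoduleOf Y).mkQ (⟨y, hy⟩ - g) ∈ C
        rw [map_sub, ← hgc, add_sub_cancel_left]
        exact hc
      refine Submodule.mem_sup.2 ⟨g.1, hg, y - g.1, ⟨_, h2, rfl⟩, by abel⟩

end Compl

section Elim

variable {S : Type*} [CommRing S] {ι : Type*} [Fintype ι] {M : Type*} [AddCommGroup M]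
  [Module S M]

/-- only neighbouring degrees matter -/
theorem st_act_mem {deg : ι → ℤ} {Q : Matrix ι ι S} (hQ : IsCx deg Q) {f : ι → M}
    {Z : Submodule S M} {a : ι} (h : ∀ b, deg b = deg a + 1 → f b ∈ Z) : act Q M f a ∈ Z := by
  rw [act_apply]
  refine Submodule.sum_mem _ fun b _ => ?_
  by_cases hb : Q a b = 0
  · rw [hb, zero_smul]
    exact zero_mem _
  · exact Z.smul_mem _ (h b (hQ.deg_eq a b hb))

theorem st_act_eq_zero {deg : ι → ℤ} {Q : Matrix ι ι S} (hQ : IsCx deg Q) {f : ι → M}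
    {a : ι} (h : ∀ b, deg b = deg a + 1 → f b = 0) : act Q M f a = 0 := by
  have := st_act_mem hQ (Z := (⊥ : Submodule S M)) (f := f) (a := a)
    (fun b hb => by rw [h b hb]; exact zero_mem _)
  exact (Submodule.mem_bot S).1 this

theorem st_sgn (n : ℤ) (x : M) :
    ((n.negOnePow : ℤˣ) : ℤ) • (((n.negOnePow : ℤˣ) : ℤ) • x) = x := by
  rw [smul_smul, negOnePow_mul_self, one_smul]

theorem st_elim_step {deg : ι → ℤ} {Q : Matrix ι ι S} (hQ : IsCx deg Q) (d : M →ₗ[S] M)
    {Y X : ℤ → Submodule S M} (P δ : ℤ) {f : ι → M}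
    (hX : ∀ a, P < deg a - δ → f a ∈ X (deg a - δ))
    (hP : ∀ a, deg a - δ = P → f a ∈ cb d Y X P) :
    ∃ g ∈ lift deg Y (δ + 1), ∀ a, P ≤ deg a - δ → (f - tot deg Q d g) a ∈ X (deg a - δ) := by
  classical
  have h1 : ∀ a, ∃ w : M, (deg a - δ = P → w ∈ Y (P - 1) ∧ f a - d w ∈ X P) ∧
      (deg a - δ ≠ P → w = 0) := by
    intro a
    by_cases ha : deg a - δ = P
    · obtain ⟨_, ⟨w, hw, rfl⟩, x, hx, hwx⟩ := Submodule.mem_sup.1 (hP a ha)
      refine ⟨w, fun _ => ⟨hw, ?_⟩, fun h => absurd ha h⟩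
      rw [← hwx, add_sub_cancel_left]
      exact hx
    · exact ⟨0, fun h => absurd h ha, fun _ => rfl⟩
  choose w hw1 hw2 using h1
  refine ⟨fun a => ((deg a).negOnePow : ℤ) • w a, ?_, ?_⟩
  · rw [mem_lift]
    intro a
    by_cases ha : deg a - δ = P
    · have := (hw1 a ha).1
      have e : deg a - (δ + 1) = P - 1 := by omega
      rw [e]
      exact zsmul_mem this _
    · show ((deg a).negOnePow : ℤ) • w a ∈ _
      rw [hw2 a ha, smul_zero]
      exact zero_mem _
  · intro a ha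
    have h0 : act Q M (fun a => ((deg a).negOnePow : ℤ) • w a) a = 0 := by
      refine st_act_eq_zero hQ fun b hb => ?_
      show ((deg b).negOnePow : ℤ) • w b = 0
      rw [hw2 b (by omega), smul_zero]
    rw [Pi.sub_apply, tot_eq, h0, zero_add, map_zsmul, st_sgn]
    rcases ha.eq_or_lt with h | h
    · rw [← h]
      exact (hw1 a h.symm).2
    · rw [hw2 a (by omega), map_zero, sub_zero]
      exact hX a h

theorem st_mem_cz {deg : ι → ℤ} {Q : Matrix ι ι S} (hQ : IsCx deg Q) (d : M →ₗ[S] M)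
    {Y X : ℤ → Submodule S M} (P δ : ℤ) {f : ι → M} (hf : f ∈ lift deg Y δ)
    (hDf : tot deg Q d f ∈ lift deg X (δ - 1))
    (hX : ∀ a, P < deg a - δ → f a ∈ X (deg a - δ)) (a : ι) (ha : deg a - δ = P) :
    f a ∈ cz d Y X P := by
  rw [mem_lift] at hf hDf
  have h1 := hf a
  rw [ha] at h1
  refine ⟨h1, ?_⟩
  show d (f a) ∈ X (P + 1)
  have h2 := hDf a
  rw [tot_eq, show deg a - (δ - 1) = P + 1 by omega] at h2
  have h3 : act Q M f a ∈ X (P + 1) := by
    refine st_act_mem hQ fun b hb => ?_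
    have h4 := hX b (by omega)
    rwa [show deg b - δ = P + 1 by omega] at h4
  have h5 := Submodule.sub_mem _ h2 h3
  rw [add_sub_cancel_left] at h5
  have h6 := zsmul_mem h5 ((deg a).negOnePow : ℤ)
  rwa [st_sgn] at h6

theorem st_elim_range {deg : ι → ℤ} {Q : Matrix ι ι S} (hQ : IsCx deg Q) (d : M →ₗ[S] M)
    (hd : ∀ x, d (d x) = 0) {Y X : ℤ → Submodule S M} (hY : CStab d Y) (δ lo : ℤ) :
    ∀ (k : ℕ) {f : ι → M}, f ∈ lift deg Y δ → tot deg Q d f ∈ lift deg X (δ - 1) →
    (∀ p, lo < p → p ≤ lo + k → Ex d Y X p) →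
    (∀ a, lo + k < deg a - δ → f a ∈ X (deg a - δ)) →
    ∃ g ∈ lift deg Y (δ + 1), ∀ a, lo < deg a - δ → (f - tot deg Q d g) a ∈ X (deg a - δ) := by
  intro k
  induction k with
  | zero =>
    intro f _ _ _ hX
    refine ⟨0, zero_mem _, fun a ha => ?_⟩
    rw [map_zero, sub_zero]
    exact hX a (by simpa using ha)
  | succ k ih =>
    intro f hf hDf hex hX
    obtain ⟨g₁, hg₁, h₁⟩ := st_elim_step hQ d (Y := Y) (X := X) (lo + (k + 1 : ℕ)) δ hX
      (fun a ha => hex _ (by push_cast; omega) le_rfl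
        (st_mem_cz hQ d (lo + (k + 1 : ℕ)) δ hf hDf hX a ha))
    have hg₁' : tot deg Q d g₁ ∈ lift deg Y δ := by
      have := lift_stab deg Q hQ d Y hY (δ + 1) g₁ hg₁
      rwa [add_sub_cancel_right] at this
    obtain ⟨g₂, hg₂, h₂⟩ := ih (f := f - tot deg Q d g₁) (Submodule.sub_mem _ hf hg₁')
      (by rw [map_sub, tot_tot deg Q hQ d hd, sub_zero]; exact hDf)
      (fun p hp1 hp2 => hex p hp1 (by push_cast; omega))
      (fun a ha => h₁ a (by push_cast; omega))
    refine ⟨g₁ + g₂, Submodule.add_mem _ hg₁ hg₂, fun a ha => ?_⟩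
    rw [map_add, ← sub_sub]
    exact h₂ a ha

end Elim

section Chain

variable {A : Type*} [CommRing A] {V : Type*} [AddCommGroup V] [Module A V]

theorem st_mono_le {W : ℕ → ℤ → Submodule A V} (mono : ∀ j p, W j p ≤ W (j + 1) p) {i j : ℕ}
    (h : i ≤ j) (p : ℤ) : W i p ≤ W j p := by
  induction h with
  | refl => exact le_rfl
  | step _ ih => exact ih.trans (mono _ p)

theorem st_ex_chain {d : V →ₗ[A] V} (dd : ∀ x, d (d x) = 0) {W : ℕ → ℤ → Submodule A V}
    (mono : ∀ j p, W j p ≤ W (j + 1) p) (p : ℤ) :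
    ∀ i : ℕ, (∀ q, q < i → Ex d (W (q + 1)) (W q) p) → Ex d (W i) (W 0) p := by
  intro i
  induction i with
  | zero =>
    intro _ x hx
    exact Submodule.mem_sup_right hx.1
  | succ i ih =>
    intro h x hx
    have h1 : x ∈ cz d (W (i + 1)) (W i) p := ⟨hx.1, st_mono_le mono (Nat.zero_le i) _ hx.2⟩
    obtain ⟨_, ⟨w, hw, rfl⟩, y, hy, hwy⟩ := Submodule.mem_sup.1 (h i (Nat.lt_succ_self i) h1)
    have h2 : y ∈ cz d (W i) (W 0) p := by
      refine ⟨hy, ?_⟩
      show d y ∈ W 0 (p + 1)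
      have h3 : d y = d x := by
        rw [← hwy, map_add, dd, zero_add]
      rw [h3]
      exact hx.2
    obtain ⟨_, ⟨w', hw', rfl⟩, y', hy', hwy'⟩ := Submodule.mem_sup.1
      (ih (fun q hq => h q (Nat.lt_succ_of_lt hq)) h2)
    refine Submodule.mem_sup.2 ⟨d (w + w'), ⟨w + w', ?_, rfl⟩, y', hy', ?_⟩
    · exact Submodule.add_mem _ hw (mono _ _ hw')
    · rw [map_add, add_assoc, hwy', hwy]

variable (S : Type*) [CommRing S] [Algebra A S] [Module.Flat A S]

theorem st_ex_bc {d : V →ₗ[A] V} {Y X : ℤ → Submodule A V} {p : ℤ} (h : Ex d Y X p) :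
    Ex (d.baseChange S) (bcf S Y) (bcf S X) p := by
  unfold Ex
  rw [cz_bcf, cb_bcf]
  exact Submodule.baseChange_mono S h

theorem st_cstab_bc {d : V →ₗ[A] V} {X : ℤ → Submodule A V} (h : CStab d X) :
    CStab (d.baseChange S) (bcf S X) := by
  intro p x hx
  have h1 : X p ≤ (X (p + 1)).comap d := fun y hy => h p y hy
  have h2 := Submodule.baseChange_mono S h1 hx
  rw [baseChange_comap] at h2
  exact h2

end Chain

section Climb

variable {A : Type*} [CommRing A] [IsLocalRing A] {V : Type*} [AddCommGroup V] [Module A V]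
  {S : Type*} [CommRing S] [Algebra A S] [Module.Flat A S] {ι : Type*} [Fintype ι]

/-- the splitting step: modify `c` by `g` with values in `{x ∈ Y, d x ∈ W}` -/
theorem st_split (Q : Matrix ι ι S) {X G Y : Submodule A V}
    (hmY : maximalIdeal A • Y ≤ X) (hGY : G ≤ Y) (hXY : X ≤ Y) (c : ι → S ⊗[A] V) (T : Set ι)
    (hc : ∀ a, c a ∈ Y.baseChange S) (hcT : ∀ a, a ∉ T → c a = 0)
    (hQc : ∀ a, act Q _ c a ∈ (G ⊔ X).baseChange S) :
    ∃ g h : ι → S ⊗[A] V, (∀ a, g a ∈ G.baseChange S) ∧ (∀ a, h a ∈ Y.baseChange S) ∧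
      (∀ a, a ∉ T → g a = 0 ∧ h a = 0) ∧ (∀ a, c a = g a + h a) ∧
      (∀ a, act Q _ h a ∈ X.baseChange S) := by
  classical
  obtain ⟨H, hXH, hHY, hGH, hGHs⟩ := st_exists_compl (maximalIdeal A) (X := X) (G := G ⊔ X)
    (Y := Y) le_sup_right (sup_le hGY hXY) hmY
  have h1 : ∀ a, ∃ g h : S ⊗[A] V, g ∈ G.baseChange S ∧ h ∈ H.baseChange S ∧ c a = g + h ∧
      (a ∉ T → g = 0 ∧ h = 0) := by
    intro a
    by_cases ha : a ∈ T
    · have h2 := hc a
      rw [← hGHs, baseChange_sup', baseChange_sup'] at h2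
      obtain ⟨_, hgx, h, hh, hgh⟩ := Submodule.mem_sup.1 h2
      obtain ⟨g, hg, x, hx, rfl⟩ := Submodule.mem_sup.1 hgx
      refine ⟨g, x + h, hg, Submodule.add_mem _ (Submodule.baseChange_mono S hXH hx) hh, ?_,
        fun h => absurd ha h⟩
      rw [← hgh, add_assoc]
    · exact ⟨0, 0, zero_mem _, zero_mem _, by rw [hcT a ha, add_zero], fun _ => ⟨rfl, rfl⟩⟩
  choose g h hg hh hgh hT using h1
  refine ⟨g, h, hg, fun a => Submodule.baseChange_mono S hHY (hh a), hT, hgh, fun a => ?_⟩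
  have h3 : act Q _ h a = act Q _ c a - act Q _ g a := by
    have : c = g + h := funext hgh
    rw [this, map_add, Pi.add_apply, add_sub_cancel_left]
  have h4 : act Q _ h a ∈ (G ⊔ X).baseChange S := by
    rw [h3]
    exact Submodule.sub_mem _ (hQc a) (act_mem Q (fun b => Submodule.baseChange_mono S
      le_sup_left (hg b)) a)
  have h5 : act Q _ h a ∈ H.baseChange S := act_mem Q hh a
  rw [← hGH, baseChange_inf]
  exact ⟨h4, h5⟩

theorem st_climb {deg : ι → ℤ} {Q : Matrix ι ι S} (hQ : IsCx deg Q) {d : V →ₗ[A] V}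
    {W : ℕ → ℤ → Submodule A V}
    (mono : ∀ j p, W j p ≤ W (j + 1) p) (push : ∀ j p, maximalIdeal A • W (j + 1) p ≤ W j p) :
    ∀ (i : ℕ), (∀ i' : ℕ, i' ≤ i → Ex d (W i') (W 0) i') → ∀ (y : ι → S ⊗[A] V),
    (∀ a, deg a ≠ i → y a = 0) → (∀ a, y a ∈ bcf S (W i) i) →
    (∀ a, d.baseChange S (y a) ∈ bcf S (W 0) (i + 1)) →
    (∀ a, act Q _ y a ∈ bcf S (W 0) i) →
    ∃ u ∈ lift deg (bcf S (W i)) 1,
      y - tot deg Q (d.baseChange S) u ∈ lift deg (bcf S (W 0)) 0 := by
  intro i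
  induction i with
  | zero =>
    intro _ y hy0 hy1 _ _
    refine ⟨0, zero_mem _, ?_⟩
    rw [map_zero, sub_zero, mem_lift]
    intro a
    by_cases ha : deg a = 0
    · rw [ha]
      exact hy1 a
    · rw [hy0 a (by simpa using ha)]
      exact zero_mem _
  | succ i ih =>
    intro hex y hy0 hy1 hy2 hy3
    have hE := st_ex_bc S (hex (i + 1) le_rfl)
    -- write `y` as `d c + e`
    have h1 : ∀ a, ∃ c e : S ⊗[A] V, c ∈ (W (i + 1) i).baseChange S ∧
        e ∈ (W 0 ((i + 1 : ℕ) : ℤ)).baseChange S ∧ y a = d.baseChange S c + e ∧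
        (deg a ≠ ((i + 1 : ℕ) : ℤ) → c = 0 ∧ e = 0) := by
      intro a
      by_cases ha : deg a = ((i + 1 : ℕ) : ℤ)
      · obtain ⟨_, ⟨c, hc, rfl⟩, e, he, hce⟩ := Submodule.mem_sup.1 (hE ⟨hy1 a, hy2 a⟩)
        refine ⟨c, e, ?_, he, hce.symm, fun h => absurd ha h⟩
        have e1 : ((i + 1 : ℕ) : ℤ) - 1 = i := by push_cast; ring
        rw [e1] at hc
        exact hc
      · refine ⟨0, 0, zero_mem _, zero_mem _, ?_, fun _ => ⟨rfl, rfl⟩⟩
        rw [hy0 a ha, map_zero, add_zero]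
    choose c e hc he hce hce0 using h1
    -- the splitting step
    have hdc : ∀ a, d.baseChange S (act Q _ c a) ∈ (W 0 (i + 1)).baseChange S := by
      intro a
      rw [← act_comp]
      have h2 : (fun b => d.baseChange S (c b)) = y - e := by
        funext b
        rw [Pi.sub_apply, hce b, add_sub_cancel_right]
      rw [h2, map_sub, Pi.sub_apply]
      refine Submodule.sub_mem _ ?_ ?_
      · exact hy3 a
      · exact act_mem Q he a
    have hQc : ∀ a, act Q _ c a ∈ (((W (i + 1) i) ⊓ (W 0 (i + 1)).comap d) ⊔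
        W i i).baseChange S := by
      intro a
      refine Submodule.baseChange_mono S le_sup_left ?_
      rw [baseChange_inf, baseChange_comap]
      exact ⟨act_mem Q hc a, hdc a⟩
    obtain ⟨g, h, hg, hh, hT, hgh, hQh⟩ := st_split Q (push i i) inf_le_left (mono i i) c
      {a | deg a = ((i + 1 : ℕ) : ℤ)} hc (fun a ha => (hce0 a ha).1) hQc
    have hdg : ∀ a, d.baseChange S (g a) ∈ (W 0 (i + 1)).baseChange S := by
      intro a
      have h2 := hg a
      rw [baseChange_inf, baseChange_comap] at h2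
      exact h2.2
    have hdh : ∀ a, d.baseChange S (h a) = y a - (e a + d.baseChange S (g a)) := by
      intro a
      rw [hce a, hgh a, map_add]
      abel
    obtain ⟨ε, hε⟩ : ∃ ε : ℤ, ε = (((i + 1 : ℕ) : ℤ).negOnePow : ℤ) := ⟨_, rfl⟩
    obtain ⟨y', hy'⟩ : ∃ y' : ι → S ⊗[A] V, y' = -(ε • act Q _ h) := ⟨_, rfl⟩
    have hQh0 : ∀ a, deg a ≠ i → act Q _ h a = 0 := by
      intro a ha
      refine st_act_eq_zero hQ fun b hb => (hT b ?_).2
      intro h2
      have h3 : deg b = ((i + 1 : ℕ) : ℤ) := h2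
      apply ha
      push_cast at h3
      omega
    obtain ⟨u, hu, hyu⟩ := ih (fun i' hi' => hex i' (Nat.le_succ_of_le hi')) y'
      (fun a ha => by
        rw [hy', Pi.neg_apply, Pi.smul_apply, hQh0 a ha, smul_zero, neg_zero])
      (fun a => by
        rw [hy', Pi.neg_apply, Pi.smul_apply]
        exact Submodule.neg_mem _ (zsmul_mem (hQh a) _))
      (fun a => by
        rw [hy', Pi.neg_apply, Pi.smul_apply, map_neg, map_zsmul, ← act_comp]
        refine Submodule.neg_mem _ (zsmul_mem ?_ _)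
        have h2 : (fun b => d.baseChange S (h b)) =
            y - (e + fun b => d.baseChange S (g b)) := funext hdh
        rw [h2, map_sub, map_add, Pi.sub_apply, Pi.add_apply]
        refine Submodule.sub_mem _ (hy3 a) (Submodule.add_mem _ ?_ ?_)
        · exact act_mem Q he a
        · exact act_mem Q hdg a)
      (fun a => by
        have h2 : act Q _ y' = 0 := by
          rw [hy', map_neg, map_zsmul, ← act_mul, hQ.sq, act_zero, smul_zero, neg_zero]
        rw [h2]
        exact zero_mem _)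
    refine ⟨ε • h + u, ?_, ?_⟩
    · refine Submodule.add_mem _ ?_ (lift_mono deg (fun p => Submodule.baseChange_mono S
        (mono i p)) 1 hu)
      rw [mem_lift]
      intro a
      rw [Pi.smul_apply]
      by_cases ha : deg a = ((i + 1 : ℕ) : ℤ)
      · have e1 : deg a - 1 = i := by rw [ha]; push_cast; ring
        rw [e1]
        exact zsmul_mem (hh a) _
      · rw [(hT a ha).2, smul_zero]
        exact zero_mem _
    · have h2 : y - tot deg Q (d.baseChange S) (ε • h + u) =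
          (y - tot deg Q (d.baseChange S) (ε • h) - y') + (y' - tot deg Q (d.baseChange S) u) := by
        rw [map_add]
        abel
      rw [h2]
      refine Submodule.add_mem _ ?_ hyu
      rw [mem_lift]
      intro a
      rw [Pi.sub_apply, Pi.sub_apply, map_zsmul, Pi.smul_apply, tot_eq, hy', Pi.neg_apply,
        Pi.smul_apply]
      by_cases ha : deg a = ((i + 1 : ℕ) : ℤ)
      · have e1 : y a - ε • (act Q _ h a + ((deg a).negOnePow : ℤ) • d.baseChange S (h a)) -
            -(ε • act Q _ h a) = e a + d.baseChange S (g a) := by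
          rw [smul_add, ha, ← hε, smul_smul]
          have h3 : ε * ε = 1 := by rw [hε]; exact negOnePow_mul_self _
          rw [h3, one_smul, hdh]
          abel
        rw [e1, ha, sub_zero]
        exact Submodule.add_mem _ (he a) (by
          have h4 := hdg a
          have e2 : ((i + 1 : ℕ) : ℤ) = (i : ℤ) + 1 := by push_cast; ring
          rw [e2]
          exact h4)
      · have e1 : y a - ε • (act Q _ h a + ((deg a).negOnePow : ℤ) • d.baseChange S (h a)) -
            -(ε • act Q _ h a) = 0 := by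
          rw [hy0 a ha, (hT a ha).2, map_zero, smul_zero, add_zero, zero_sub, sub_self]
        rw [e1]
        exact zero_mem _

end Climb

section Main

variable {A : Type*} [CommRing A] {V : Type*} [AddCommGroup V] [Module A V]
  (S : Type*) [CommRing S] [Algebra A S] {ι : Type*} [Fintype ι]
  [IsLocalRing A] [Module.Flat A S]

/-- TASK S1: the staircase. -/
theorem staircase (deg : ι → ℤ) (Q : Matrix ι ι S) (hQ : IsCx deg Q) (n m : ℕ) (hm : m < n)
    (d : V →ₗ[A] V) (W : ℕ → ℤ → Submodule A V) (Winf : ℤ → Submodule A V) (w : ℕ → ℕ∞)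
    (hW : Win (maximalIdeal A) n m d W Winf w) (j : ℕ) (hj1 : 1 ≤ j) (hjm : j ≤ m)
    (z : ι → S ⊗[A] V) (hz : z ∈ lift deg (bcf S (W (j + 1))) 1)
    (hDz : tot deg Q (d.baseChange S) z ∈ lift deg (bcf S (W j)) 0) :
    ∃ u ∈ lift deg (bcf S (W j)) 1,
      tot deg Q (d.baseChange S) (z - u) ∈ lift deg (bcf S (W 0)) 0 := by
  classical
  have hpd : ∀ q, q ≤ m → pdeg m q = q := fun q hq => if_pos hq
  have hdd : ∀ x, d.baseChange S (d.baseChange S x) = 0 := by
    intro x
    have h1 : (d.baseChange S) ∘ₗ (d.baseChange S) = 0 := by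
      rw [← LinearMap.baseChange_comp]
      have h2 : d ∘ₗ d = 0 := LinearMap.ext hW.dd
      rw [h2, LinearMap.baseChange_zero]
    exact LinearMap.congr_fun h1 x
  have hYst := st_cstab_bc S (hW.stab (j + 1))
  have hXY : ∀ p, bcf S (W j) p ≤ bcf S (W (j + 1)) p := fun p =>
    Submodule.baseChange_mono S (hW.mono j p)
  have hW0j : ∀ p, bcf S (W 0) p ≤ bcf S (W j) p := fun p =>
    Submodule.baseChange_mono S (st_mono_le hW.mono (Nat.zero_le j) p)
  have hstab : ∀ f ∈ lift deg (bcf S (W (j + 1))) 2,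
      tot deg Q (d.baseChange S) f ∈ lift deg (bcf S (W (j + 1))) 1 := by
    intro f hf
    have := lift_stab deg Q hQ _ _ hYst 2 f hf
    rwa [show (2 : ℤ) - 1 = 1 by norm_num] at this
  have htt := tot_tot deg Q hQ (d.baseChange S) hdd
  -- Step 1: remove the components above `j`
  obtain ⟨k, hk⟩ : ∃ k : ℕ, ∀ a, deg a - 1 ≤ j + k := by
    obtain ⟨B, hB⟩ := Finite.exists_le deg
    refine ⟨B.toNat, fun a => ?_⟩
    have h1 := hB a
    have h2 := Int.self_le_toNat B
    omega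
  obtain ⟨g₁, hg₁, hz₁⟩ := st_elim_range hQ (d.baseChange S) hdd (Y := bcf S (W (j + 1)))
    (X := bcf S (W j)) hYst 1 j k hz (by rwa [show (1 : ℤ) - 1 = 0 by norm_num])
    (fun p hp _ => st_ex_bc S (hW.ex j (by omega) p (by rw [hpd j hjm]; omega)))
    (fun a ha => absurd (hk a) (by omega))
  rw [show (1 : ℤ) + 1 = 2 by norm_num] at hg₁
  obtain ⟨z₁, hz₁d⟩ : ∃ z₁, z₁ = z - tot deg Q (d.baseChange S) g₁ := ⟨_, rfl⟩
  rw [← hz₁d] at hz₁
  have hz₁Y : z₁ ∈ lift deg (bcf S (W (j + 1))) 1 := by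
    rw [hz₁d]
    exact Submodule.sub_mem _ hz (hstab _ hg₁)
  have hDz₁ : tot deg Q (d.baseChange S) z₁ ∈ lift deg (bcf S (W j)) 0 := by
    rw [hz₁d, map_sub, htt, sub_zero]
    exact hDz
  -- Step 2: split the component in degree `j`
  obtain ⟨L, hL⟩ : ∃ L : Submodule A V, L = W (j + 1) j ⊓ (Winf (j + 1)).comap d := ⟨_, rfl⟩
  obtain ⟨B, hB⟩ : ∃ B : Submodule A V, B = cb d (W (j + 1)) (W j) j := ⟨_, rfl⟩
  have hXB : W j j ≤ B := by rw [hB]; exact le_sup_right
  have hLift : cz d (W (j + 1)) (W j) j ≤ L ⊔ B := by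
    have := hW.lift j hjm
    rw [hpd j hjm] at this
    rw [hL, hB]
    exact this
  have hTY : L ⊔ W j j ≤ W (j + 1) j := sup_le (by rw [hL]; exact inf_le_left) (hW.mono j j)
  obtain ⟨H, hXH, hHT, hGH, hGHs⟩ := st_exists_compl (maximalIdeal A) (X := W j j)
    (G := (L ⊔ W j j) ⊓ B) (Y := L ⊔ W j j) (le_inf le_sup_right hXB) inf_le_left
    ((Submodule.smul_mono le_rfl hTY).trans (hW.push j j))
  have hBH : B ⊓ H = W j j := by
    rw [← hGH]
    apply le_antisymm
    · exact fun x hx => ⟨⟨hHT hx.2, hx.1⟩, hx.2⟩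
    · exact fun x hx => ⟨hx.1.2, hx.2⟩
  have hHB : L ⊔ B ≤ H ⊔ B := by
    refine sup_le ?_ le_sup_right
    refine le_trans (le_trans le_sup_left hGHs.ge) ?_
    exact sup_le (inf_le_right.trans le_sup_right) le_sup_left
  have hcz : ∀ a, deg a - 1 = j → z₁ a ∈ (H ⊔ B).baseChange S := by
    intro a ha
    have h1 := st_mem_cz hQ (d.baseChange S) (j : ℤ) 1 hz₁Y
      (by rwa [show (1 : ℤ) - 1 = 0 by norm_num]) hz₁ a ha
    rw [cz_bcf] at h1
    exact Submodule.baseChange_mono S (hLift.trans hHB) h1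
  have h1 : ∀ a, ∃ h b : S ⊗[A] V, h ∈ H.baseChange S ∧ b ∈ B.baseChange S ∧
      (deg a - 1 = j → z₁ a = h + b) ∧ (deg a - 1 ≠ j → h = 0 ∧ b = 0) := by
    intro a
    by_cases ha : deg a - 1 = j
    · have h2 := hcz a ha
      rw [baseChange_sup'] at h2
      obtain ⟨h, hh, b, hb, hhb⟩ := Submodule.mem_sup.1 h2
      exact ⟨h, b, hh, hb, fun _ => hhb.symm, fun h => absurd ha h⟩
    · exact ⟨0, 0, zero_mem _, zero_mem _, fun h => absurd h ha, fun _ => ⟨rfl, rfl⟩⟩
  choose h b hh hb hhb hhb0 using h1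
  have hQh : ∀ a, act Q _ h a ∈ (W j j).baseChange S := by
    intro a
    by_cases ha : deg a = j
    · have h2 : act Q _ z₁ a = act Q _ h a + act Q _ b a := by
        have h3 : act Q _ (z₁ - (h + b)) a = 0 := by
          refine st_act_eq_zero hQ fun b' hb' => ?_
          rw [Pi.sub_apply, Pi.add_apply, hhb b' (by omega), sub_self]
        rw [map_sub, map_add, Pi.sub_apply, Pi.add_apply, sub_eq_zero] at h3
        exact h3
      have h4 : act Q _ z₁ a ∈ B.baseChange S := by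
        have h5 := (mem_lift deg _ _ _).1 hDz₁ a
        rw [tot_eq, ha, sub_zero] at h5
        have h6 : d.baseChange S (z₁ a) ∈ B.baseChange S := by
          have h7 := (mem_lift deg _ _ _).1 hz₁Y a
          rw [ha] at h7
          rw [hB, ← cb_bcf]
          exact Submodule.mem_sup_left ⟨_, h7, rfl⟩
        have h8 := Submodule.sub_mem _ (Submodule.baseChange_mono S hXB h5)
          (zsmul_mem h6 ((j : ℤ).negOnePow : ℤ))
        rwa [add_sub_cancel_right] at h8
      have h9 : act Q _ h a ∈ B.baseChange S := by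
        have := Submodule.sub_mem _ h4 (act_mem Q hb a)
        rwa [h2, add_sub_cancel_right] at this
      rw [← hBH, baseChange_inf]
      exact ⟨h9, act_mem Q hh a⟩
    · have h2 : act Q _ h a = 0 := st_act_eq_zero hQ fun b' hb' => (hhb0 b' (by omega)).1
      rw [h2]
      exact zero_mem _
  have h2 : ∀ a, ∃ l x : S ⊗[A] V, l ∈ L.baseChange S ∧ x ∈ (W j j).baseChange S ∧
      h a = l + x ∧ (deg a - 1 ≠ j → l = 0) := by
    intro a
    by_cases ha : deg a - 1 = j
    · have h3 := Submodule.baseChange_mono S hHT (hh a)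
      rw [baseChange_sup'] at h3
      obtain ⟨l, hl, x, hx, hlx⟩ := Submodule.mem_sup.1 h3
      exact ⟨l, x, hl, hx, hlx.symm, fun h => absurd ha h⟩
    · exact ⟨0, 0, zero_mem _, zero_mem _, by rw [(hhb0 a ha).1, add_zero], fun _ => rfl⟩
  choose l x hl hx hlx hl0 using h2
  have hQl : ∀ a, act Q _ l a ∈ (W j j).baseChange S := by
    intro a
    have h3 : act Q _ l a = act Q _ h a - act Q _ x a := by
      have : h = l + x := funext hlx
      rw [this, map_add, Pi.add_apply, add_sub_cancel_right]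
    rw [h3]
    exact Submodule.sub_mem _ (hQh a) (act_mem Q hx a)
  have hQl0 : ∀ a, deg a ≠ j → act Q _ l a = 0 := fun a ha =>
    st_act_eq_zero hQ fun b' hb' => hl0 b' (by omega)
  have hdl : ∀ a, d.baseChange S (l a) ∈ (Winf (j + 1)).baseChange S := by
    intro a
    have h3 := hl a
    rw [hL, baseChange_inf, baseChange_comap] at h3
    exact h3.2
  have hdl0 : ∀ a, d.baseChange S (l a) ∈ (W 0 (j + 1)).baseChange S := fun a =>
    Submodule.baseChange_mono S (hW.monoinf _) (hdl a)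
  -- `D l` is `∂ l` modulo `W 0`
  have hDl : tot deg Q (d.baseChange S) l - act Q _ l ∈ lift deg (bcf S (W 0)) 0 := by
    rw [mem_lift]
    intro a
    rw [Pi.sub_apply, tot_eq, add_sub_cancel_left]
    by_cases ha : deg a - 1 = j
    · have e : deg a - 0 = (j : ℤ) + 1 := by omega
      rw [e]
      exact zsmul_mem (hdl0 a) _
    · rw [hl0 a ha, map_zero, smul_zero]
      exact zero_mem _
  have hQlj : act Q _ l ∈ lift deg (bcf S (W j)) 0 := by
    rw [mem_lift]
    intro a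
    by_cases ha : deg a = j
    · rw [ha, sub_zero]
      exact hQl a
    · rw [hQl0 a ha]
      exact zero_mem _
  have hDlj : tot deg Q (d.baseChange S) l ∈ lift deg (bcf S (W j)) 0 := by
    have h3 := Submodule.add_mem _ (lift_mono deg hW0j 0 hDl) hQlj
    rwa [sub_add_cancel] at h3
  -- Step 3
  obtain ⟨z₂, hz₂d⟩ : ∃ z₂, z₂ = z₁ - l := ⟨_, rfl⟩
  have hlY : l ∈ lift deg (bcf S (W (j + 1))) 1 := by
    rw [mem_lift]
    intro a
    by_cases ha : deg a - 1 = j
    · rw [ha]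
      have h3 := hl a
      rw [hL, baseChange_inf] at h3
      exact h3.1
    · rw [hl0 a ha]
      exact zero_mem _
  have hz₂Y : z₂ ∈ lift deg (bcf S (W (j + 1))) 1 := by
    rw [hz₂d]
    exact Submodule.sub_mem _ hz₁Y hlY
  have hDz₂ : tot deg Q (d.baseChange S) z₂ ∈ lift deg (bcf S (W j)) 0 := by
    rw [hz₂d, map_sub]
    exact Submodule.sub_mem _ hDz₁ hDlj
  obtain ⟨g₂, hg₂, hz₃⟩ := st_elim_step hQ (d.baseChange S) (Y := bcf S (W (j + 1)))
    (X := bcf S (W j)) (j : ℤ) 1 (f := z₂)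
    (fun a ha => by
      rw [hz₂d, Pi.sub_apply, hl0 a (by omega), sub_zero]
      exact hz₁ a ha)
    (fun a ha => by
      have h3 : z₂ a = b a + x a := by
        rw [hz₂d, Pi.sub_apply, hhb a ha, hlx a]
        abel
      rw [h3, cb_bcf, ← hB]
      exact Submodule.add_mem _ (hb a) (Submodule.baseChange_mono S hXB (hx a)))
  rw [show (1 : ℤ) + 1 = 2 by norm_num] at hg₂
  obtain ⟨z₃, hz₃d⟩ : ∃ z₃, z₃ = z₂ - tot deg Q (d.baseChange S) g₂ := ⟨_, rfl⟩
  rw [← hz₃d] at hz₃
  have hz₃Y : z₃ ∈ lift deg (bcf S (W (j + 1))) 1 := by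
    rw [hz₃d]
    exact Submodule.sub_mem _ hz₂Y (hstab _ hg₂)
  have hDz₃ : tot deg Q (d.baseChange S) z₃ ∈ lift deg (bcf S (W j)) 0 := by
    rw [hz₃d, map_sub, htt, sub_zero]
    exact hDz₂
  -- Step 4
  obtain ⟨g₃, hg₃, hz₄⟩ := st_elim_range hQ (d.baseChange S) hdd (Y := bcf S (W (j + 1)))
    (X := bcf S (W j)) hYst 1 (-1) j hz₃Y (by rwa [show (1 : ℤ) - 1 = 0 by norm_num])
    (fun p _ hp => st_ex_bc S (hW.ex j (by omega) p (by rw [hpd j hjm]; omega)))
    (fun a ha => hz₃ a (by omega))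
  rw [show (1 : ℤ) + 1 = 2 by norm_num] at hg₃
  obtain ⟨z₄, hz₄d⟩ : ∃ z₄, z₄ = z₃ - tot deg Q (d.baseChange S) g₃ := ⟨_, rfl⟩
  rw [← hz₄d] at hz₄
  have hz₄X : z₄ ∈ lift deg (bcf S (W j)) 1 := by
    rw [mem_lift]
    intro a
    by_cases ha : deg a - 1 < 0
    · have h3 : z₄ ∈ lift deg (bcf S (W (j + 1))) 1 := by
        rw [hz₄d]
        exact Submodule.sub_mem _ hz₃Y (hstab _ hg₃)
      have h4 := (mem_lift deg _ _ _).1 h3 a
      unfold bcf at h4
      rw [hW.neg (j + 1) _ ha, Submodule.baseChange_bot] at h4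
      rw [(Submodule.mem_bot S).1 h4]
      exact zero_mem _
    · exact hz₄ a (by omega)
  -- Step 5
  obtain ⟨u, hu, hlu⟩ := st_climb hQ hW.mono hW.push j
    (fun i' hi' => st_ex_chain hW.dd hW.mono _ i' fun q hq =>
      hW.ex q (by omega) _ (by rw [hpd q (by omega)]; omega))
    (act Q _ l) hQl0 hQl
    (fun a => by
      rw [← act_comp]
      exact act_mem Q hdl0 a)
    (fun a => by
      rw [← act_mul, hQ.sq, act_zero]
      exact zero_mem _)
  refine ⟨z₄ + u, Submodule.add_mem _ hz₄X hu, ?_⟩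
  have h3 : tot deg Q (d.baseChange S) (z - (z₄ + u)) =
      (tot deg Q (d.baseChange S) l - act Q _ l) +
        (act Q _ l - tot deg Q (d.baseChange S) u) := by
    have h4 : z - (z₄ + u) = l - u + tot deg Q (d.baseChange S) g₁ +
        tot deg Q (d.baseChange S) g₂ + tot deg Q (d.baseChange S) g₃ := by
      rw [hz₄d, hz₃d, hz₂d, hz₁d]
      abel
    rw [h4, map_add, map_add, map_add, map_sub, htt, htt, htt]
    abel
  rw [h3]
  exact Submodule.add_mem _ hDl hlu

end Main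

end Vale.Agent.P202.CharP
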