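import Vale.Agent.P202.CharP.LbAbs
import Vale.Agent.P202.CharP.TotBasic
import Vale.Agent.P202.CharP.TotRows
import Vale.Agent.P202.CharP.BaseCh
import Vale.Agent.P202.CharP.Staircase

/-!
P202-CHARP, CAT: the core theorem (lower bound from windows after base change).
-/

namespace Vale.Agent.P202.CharP

open Submodule TensorProduct IsLocalRing

section Core

variable {A : Type*} [CommRing A] {V : Type*} [AddCommGroup V] [Module A V]
  (S : Type*) [CommRing S] [Algebra A S]

lemma cstab_bcf (d : V →ₗ[A] V) (X : ℤ → Submodule A V) (hX : CStab d X) :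
    CStab (d.baseChange S) (bcf S X) := by
  intro p x hx
  have h1 : (X p).map d ≤ X (p + 1) := by
    rintro _ ⟨y, hy, rfl⟩
    exact hX p y hy
  have h2 : ((X p).baseChange S).map (d.baseChange S) ≤ (X (p + 1)).baseChange S := by
    rw [← baseChange_map S d (X p)]
    exact Submodule.baseChange_mono S h1
  exact h2 (Submodule.mem_map_of_mem hx)

lemma ex_bcf [Module.Flat A S] (d : V →ₗ[A] V) (Y X : ℤ → Submodule A V) (p : ℤ)
    (h : Ex d Y X p) : Ex (d.baseChange S) (bcf S Y) (bcf S X) p := by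
  unfold Ex
  rw [cz_bcf, cb_bcf]
  exact Submodule.baseChange_mono S h

lemma baseChange_dd (d : V →ₗ[A] V) (hd : ∀ x, d (d x) = 0) (x : S ⊗[A] V) :
    d.baseChange S (d.baseChange S x) = 0 := by
  have h1 : d.comp d = 0 := LinearMap.ext hd
  have h2 : (d.baseChange S).comp (d.baseChange S) = 0 := by
    rw [← LinearMap.baseChange_comp, h1, LinearMap.baseChange_zero]
  exact LinearMap.congr_fun h2 x

lemma cb_le_cz (d : V →ₗ[A] V) (hd : ∀ x, d (d x) = 0) (Y X : ℤ → Submodule A V)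
    (hX : CStab d X) (hY : CStab d Y) (hXY : ∀ p, X p ≤ Y p) (p : ℤ) :
    cb d Y X p ≤ cz d Y X p := by
  unfold cb cz
  refine sup_le ?_ ?_
  · rintro _ ⟨y, hy, rfl⟩
    refine Submodule.mem_inf.mpr ⟨?_, ?_⟩
    · have := hY (p - 1) y hy
      rwa [sub_add_cancel] at this
    · rw [Submodule.mem_comap, hd]
      exact Submodule.zero_mem _
  · intro x hx
    exact Submodule.mem_inf.mpr ⟨hXY p hx, hX p x hx⟩

variable {ι : Type*} [Fintype ι] [IsLocalRing A] [Module.Flat A S]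

/-- TASK CAT: the core theorem. -/
theorem core (deg : ι → ℤ) (Q : Matrix ι ι S) (hQ : IsCx deg Q) (n m : ℕ) (hm : m < n)
    (hdeg : ∀ a, 0 ≤ deg a ∧ deg a ≤ n)
    (d : V →ₗ[A] V) (W : ℕ → ℤ → Submodule A V) (Winf : ℤ → Submodule A V) (w : ℕ → ℕ)
    (hW : Win (maximalIdeal A) n m d W Winf (fun j => (w j : ℕ∞)))
    (t : ℤ → ℕ) (ht : ∀ i, kh deg Q (S ⧸ (maximalIdeal A).map (algebraMap A S)) i = t i)
    (r : ℤ → ℤ) (hr : ∀ i, (t i : ℤ) = r i + r (i + 1)) (hr' : ∀ i, (n : ℤ) < i → r i = 0)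
    (hac : ∀ δ, 1 ≤ δ → hh (tot deg Q (d.baseChange S)) (lift deg (bcf S (W n)))
      (lift deg (bcf S Winf)) δ = 0)
    (hfin : hh (tot deg Q (d.baseChange S)) (lift deg (bcf S (W 1)))
      (lift deg (bcf S Winf)) 0 ≠ ⊤) :
    (w 0 : ℤ) * t 0 + ∑ j ∈ Finset.Icc 1 m, (w j : ℤ) * r (j + 1) -
        ∑ j ∈ Finset.Icc (m + 1) (n - 1), (w j : ℤ) * r (j + 1) ≤
      ∑ i ∈ Finset.range (n + 1), (-1 : ℤ) ^ i *
        ((hh (tot deg Q (d.baseChange S)) (lift deg (bcf S (W 1)))
          (lift deg (bcf S Winf)) (i : ℤ)).toNat : ℤ) := by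
  have hdS := baseChange_dd S d hW.dd
  have hcs : ∀ j, CStab (d.baseChange S) (bcf S (W j)) := fun j => cstab_bcf S d _ (hW.stab j)
  have hcsinf : CStab (d.baseChange S) (bcf S Winf) := cstab_bcf S d _ hW.stabinf
  have hmono : ∀ j p, bcf S (W j) p ≤ bcf S (W (j + 1)) p := fun j p =>
    Submodule.baseChange_mono S (hW.mono j p)
  have hmonoinf : ∀ p, bcf S Winf p ≤ bcf S (W 0) p := fun p =>
    Submodule.baseChange_mono S (hW.monoinf p)
  refine lb_abs (tot deg Q (d.baseChange S))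
    (fun f => tot_tot deg Q hQ (d.baseChange S) hdS f) n m hm
    (fun j => lift deg (bcf S (W j))) (lift deg (bcf S Winf))
    (fun j => lift_stab deg Q hQ (d.baseChange S) _ (hcs j))
    (lift_stab deg Q hQ (d.baseChange S) _ hcsinf)
    (fun j δ => lift_mono deg (hmono j) δ)
    (fun δ => lift_mono deg hmonoinf δ) ?_ t r hr hr' w ?_ ?_ hac ?_ hfin
  · -- big degrees
    intro j δ hδ
    have h1 : ∀ a, bcf S (W j) (deg a - δ) = ⊥ := by
      intro a
      have h2 : W j (deg a - δ) = ⊥ := hW.neg j _ (by have := (hdeg a).2; omega)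
      unfold bcf
      rw [h2, Submodule.baseChange_bot]
    change lift deg (bcf S (W j)) δ = ⊥
    rw [eq_bot_iff]
    intro f hf
    rw [Submodule.mem_bot]
    ext a
    have h3 : f a ∈ bcf S (W j) (deg a - δ) := by
      have := Submodule.mem_pi.mp hf a (Set.mem_univ a)
      exact this
    rw [h1 a] at h3
    exact h3
  · -- windows
    intro j hj δ
    rw [hh_lift_of_ex deg Q hQ (d.baseChange S) hdS (bcf S (W j)) (bcf S (W (j + 1)))
      (hcs j) (hcs (j + 1)) (hmono j) (pdeg m j)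
      (fun p hp => ex_bcf S d _ _ p (hW.ex j hj p hp)) δ, cz_bcf, cb_bcf,
      khs_baseChange S deg Q hQ (cb d (W (j + 1)) (W j) (pdeg m j))
        (cz d (W (j + 1)) (W j) (pdeg m j))
        (cb_le_cz d hW.dd _ _ (hW.stab j) (hW.stab (j + 1)) (hW.mono j) _) ?_ (w j)
        (hW.dim j hj), ht]
    calc maximalIdeal A • cz d (W (j + 1)) (W j) (pdeg m j)
        ≤ maximalIdeal A • W (j + 1) (pdeg m j) := smul_mono_right _ inf_le_left
      _ ≤ W j (pdeg m j) := hW.push j _
      _ ≤ cb d (W (j + 1)) (W j) (pdeg m j) := le_sup_right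
  · -- staircase
    intro j hj1 hjm z hz hDz
    exact staircase S deg Q hQ n m hm d W Winf (fun j => (w j : ℕ∞)) hW j hj1 hjm z hz hDz
  · -- low degree
    refine hh_lift_eq_zero deg Q hQ (d.baseChange S) hdS (bcf S Winf) (bcf S (W 0)) hcsinf
      (hcs 0) hmonoinf (-1) fun a => ?_
    exact ex_bcf S d _ _ _ (hW.ex1 _ (by have := (hdeg a).1; omega))

end Core

end Vale.Agent.P202.CharP
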