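import Vale.Agent.P202.RL

/-!
P202-CHARP, definitions: relative homology of graded families of submodules, total complexes,
Koszul matrices, base change of families, windows.
-/

namespace Vale.Agent.P202.CharP

open Submodule TensorProduct

section LES

variable {S 𝕋 : Type*} [CommRing S] [AddCommGroup 𝕋] [Module S 𝕋]

/-- `D`-stability (homological degree `-1`) of a graded family of submodules. -/
def Stab (D : 𝕋 →ₗ[S] 𝕋) (X : ℤ → Submodule S 𝕋) : Prop := ∀ δ x, x ∈ X δ → D x ∈ X (δ - 1)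

/-- relative cycles of `Y / X` in degree `δ`. -/
def zz (D : 𝕋 →ₗ[S] 𝕋) (Y X : ℤ → Submodule S 𝕋) (δ : ℤ) : Submodule S 𝕋 :=
  Y δ ⊓ (X (δ - 1)).comap D

/-- relative boundaries of `Y / X` in degree `δ`. -/
def bb (D : 𝕋 →ₗ[S] 𝕋) (Y X : ℤ → Submodule S 𝕋) (δ : ℤ) : Submodule S 𝕋 :=
  (Y (δ + 1)).map D ⊔ X δ

/-- length of the homology of `Y / X` in degree `δ`. -/
noncomputable def hh (D : 𝕋 →ₗ[S] 𝕋) (Y X : ℤ → Submodule S 𝕋) (δ : ℤ) : ℕ∞ :=
  rl (bb D Y X δ) (zz D Y X δ)

/-- cohomological version: `d` raises the degree by one. -/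
def cz (d : 𝕋 →ₗ[S] 𝕋) (Y X : ℤ → Submodule S 𝕋) (p : ℤ) : Submodule S 𝕋 :=
  Y p ⊓ (X (p + 1)).comap d

/-- cohomological version: `d` raises the degree by one. -/
def cb (d : 𝕋 →ₗ[S] 𝕋) (Y X : ℤ → Submodule S 𝕋) (p : ℤ) : Submodule S 𝕋 :=
  (Y (p - 1)).map d ⊔ X p

/-- exactness of `Y / X` in cohomological degree `p`. -/
def Ex (d : 𝕋 →ₗ[S] 𝕋) (Y X : ℤ → Submodule S 𝕋) (p : ℤ) : Prop := cz d Y X p ≤ cb d Y X p

/-- `d`-stability, cohomological version. -/
def CStab (d : 𝕋 →ₗ[S] 𝕋) (X : ℤ → Submodule S 𝕋) : Prop := ∀ p x, x ∈ X p → d x ∈ X (p + 1)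

end LES

section Tot

variable {S : Type*} [CommRing S] {ι : Type*} [Fintype ι]

/-- the action of a matrix on `M^ι`. -/
def act (Q : Matrix ι ι S) (M : Type*) [AddCommGroup M] [Module S M] :
    (ι → M) →ₗ[S] (ι → M) where
  toFun f a := ∑ b, Q a b • f b
  map_add' f g := by ext a; simp [Finset.sum_add_distrib]
  map_smul' c f := by
    ext a
    simp only [Pi.smul_apply, RingHom.id_apply, Finset.smul_sum]
    exact Finset.sum_congr rfl fun b _ => smul_comm _ _ _

/-- a finite complex of finite free modules, given by a square matrix lowering the degree by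
one. -/
structure IsCx (deg : ι → ℤ) (Q : Matrix ι ι S) : Prop where
  deg_eq : ∀ a b, Q a b ≠ 0 → deg b = deg a + 1
  sq : Q * Q = 0

variable {M : Type*} [AddCommGroup M] [Module S M]

/-- the total differential on `M^ι`: the matrix part (homological degree `-1`) plus
`(-1)^deg` times an endomorphism `d` of `M`. -/
def tot (deg : ι → ℤ) (Q : Matrix ι ι S) (d : M →ₗ[S] M) : (ι → M) →ₗ[S] (ι → M) :=
  act Q M +
  { toFun := fun f a => ((deg a).negOnePow : ℤ) • d (f a)
    map_add' := fun f g => by ext a; simp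
    map_smul' := fun c f => by
      ext a
      simp only [Pi.smul_apply, RingHom.id_apply, map_smul]
      exact smul_comm _ _ _ }

/-- the graded family of submodules of `M^ι` attached to a graded family of `M`
(total degree `δ = deg - p`). -/
def lift (deg : ι → ℤ) (X : ℤ → Submodule S M) (δ : ℤ) : Submodule S (ι → M) :=
  Submodule.pi Set.univ fun a => X (deg a - δ)

/-- a submodule placed in degree `0`. -/
def conc (X : Submodule S M) (p : ℤ) : Submodule S M := if p = 0 then X else ⊥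

/-- length of the `i`-th homology of `Q ⊗ (Y / X)`. -/
noncomputable def khs (deg : ι → ℤ) (Q : Matrix ι ι S) (Y X : Submodule S M) (i : ℤ) : ℕ∞ :=
  hh (tot deg Q (0 : M →ₗ[S] M)) (lift deg (conc Y)) (lift deg (conc X)) i

/-- length of the `i`-th homology of `Q ⊗ M`. -/
noncomputable def kh (deg : ι → ℤ) (Q : Matrix ι ι S) (M : Type*) [AddCommGroup M] [Module S M]
    (i : ℤ) : ℕ∞ := khs deg Q (⊤ : Submodule S M) ⊥ i

end Tot

section Koszul

/-- index set of the Koszul complex. -/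
def KIdx : ℕ → Type
  | 0 => PUnit
  | n + 1 => KIdx n ⊕ KIdx n

instance KIdx.fintype : ∀ n, Fintype (KIdx n)
  | 0 => inferInstanceAs (Fintype PUnit)
  | n + 1 => by
    haveI := KIdx.fintype n
    exact inferInstanceAs (Fintype (KIdx n ⊕ KIdx n))

instance KIdx.decEq : ∀ n, DecidableEq (KIdx n)
  | 0 => inferInstanceAs (DecidableEq PUnit)
  | n + 1 => by
    haveI := KIdx.decEq n
    exact inferInstanceAs (DecidableEq (KIdx n ⊕ KIdx n))

/-- degree function of the Koszul complex. -/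
def kdeg : ∀ n, KIdx n → ℤ
  | 0, _ => 0
  | n + 1, Sum.inl a => kdeg n a
  | n + 1, Sum.inr a => kdeg n a + 1

variable {S : Type*} [CommRing S]

/-- the Koszul matrix. -/
def kos : ∀ n, (Fin n → S) → Matrix (KIdx n) (KIdx n) S
  | 0, _ => 0
  | n + 1, y => Matrix.fromBlocks (kos n fun i => y i.succ) (y 0 • (1 : Matrix (KIdx n) (KIdx n) S))
      0 (-(kos n fun i => y i.succ))

/-- length of the `i`-th Koszul homology of `M`. -/
noncomputable def kk {n : ℕ} (y : Fin n → S) (M : Type*) [AddCommGroup M] [Module S M] (i : ℤ) :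
    ℕ∞ := kh (kdeg n) (kos n y) M i

/-- Koszul Euler characteristic (meaningful when all the `kk y M i` are finite). -/
noncomputable def kchi {n : ℕ} (y : Fin n → S) (M : Type*) [AddCommGroup M] [Module S M] : ℤ :=
  ∑ i ∈ Finset.range (n + 1), (-1 : ℤ) ^ i * ((kk y M (i : ℤ)).toNat : ℤ)

end Koszul

section Windows

variable {A : Type*} [CommRing A] {V : Type*} [AddCommGroup V] [Module A V]

/-- base change of a graded family of submodules. -/
def bcf (S : Type*) [CommRing S] [Algebra A S] (X : ℤ → Submodule A V) (p : ℤ) :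
    Submodule S (S ⊗[A] V) := (X p).baseChange S

/-- position of the cohomology of the window `-j`. -/
def pdeg (m j : ℕ) : ℤ := if j ≤ m then (j : ℤ) else (j : ℤ) - 1

/-- the window conditions on a chain `Winf ≤ W 0 ≤ W 1 ≤ W 2 ≤ ...` of families of submodules
(`W 0` is the level `1`, `W (j + 1)` the level `-j`); `I` is an ideal pushing one window up;
`w j` is the length of the cohomology of the window `W (j + 1) / W j`. -/
structure Win (I : Ideal A) (n m : ℕ) (d : V →ₗ[A] V) (W : ℕ → ℤ → Submodule A V)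
    (Winf : ℤ → Submodule A V) (w : ℕ → ℕ∞) : Prop where
  dd : ∀ x, d (d x) = 0
  stab : ∀ j, CStab d (W j)
  stabinf : CStab d Winf
  mono : ∀ j p, W j p ≤ W (j + 1) p
  monoinf : ∀ p, Winf p ≤ W 0 p
  push : ∀ j p, I • W (j + 1) p ≤ W j p
  neg : ∀ j p, p < 0 → W j p = ⊥
  ex : ∀ j, j < n → ∀ p, p ≠ pdeg m j → Ex d (W (j + 1)) (W j) p
  dim : ∀ j, j < n → rl (cb d (W (j + 1)) (W j) (pdeg m j)) (cz d (W (j + 1)) (W j) (pdeg m j))
    = w j
  lift : ∀ j, j ≤ m → cz d (W (j + 1)) (W j) (pdeg m j) ≤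
    (W (j + 1) (pdeg m j) ⊓ (Winf (pdeg m j + 1)).comap d) ⊔ cb d (W (j + 1)) (W j) (pdeg m j)
  ex1 : ∀ p, 1 ≤ p → Ex d (W 0) Winf p

end Windows

end Vale.Agent.P202.CharP
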