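import Vale.Agent.P202.CharP.GenFinal
import Vale.Agent.P202.ClsAssembly2
import Vale.Agent.P202.EqChar
import Vale.Agent.P202.HandEq

/-!
P202: Lech's inequality for all rings containing a field, from Theorem C (Theorem B for complete
rings with arbitrary residue field).
-/

namespace Vale.Agent.P202.CharP

open IsLocalRing Finset Filter Topology

universe u

/-- The statement of Theorem C: `t₀ e(A) ≤ χ(y; S)` for complete rings of characteristic `p` with
arbitrary infinite residue field. -/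
def TheoremC (p : ℕ) [Fact p.Prime] : Prop :=
  ∀ {A S : Type u} [CommRing A] [IsLocalRing A] [IsNoetherianRing A] [CharP A p]
    [CharP (ResidueField A) p] [IsAdicComplete (maximalIdeal A) A]
    [Infinite (ResidueField A)]
    [CommRing S] [IsLocalRing S] [IsNoetherianRing S] [IsAdicComplete (maximalIdeal S) S]
    [Algebra A S] [IsLocalHom (algebraMap A S)] [Module.Flat A S]
    {r : ℕ} (_ : ringKrullDim A = (r + 1 : ℕ)) (_ : ringKrullDim S = (r + 1 : ℕ))
    (x : Fin (r + 1) → A) (_ : ∀ i, x i ∈ maximalIdeal A) (s : ℕ)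
    (_ : ∀ j, maximalIdeal A ^ (j + s) ≤ Ideal.span (Set.range x) ^ j)
    (y : Fin (r + 1) → S) (_ : ∀ i, y i ∈ maximalIdeal S)
    (_ : Module.length S (S ⧸ Ideal.span (Set.range y)) ≠ ⊤) (t0 lam : ℕ)
    (_ : Module.length S (S ⧸ ((maximalIdeal A).map (algebraMap A S) ⊔
      Ideal.span (Set.range y))) = t0)
    (_ : emin x = lam),
    (t0 : ℤ) * lam ≤ kchi y S

/-- Noetherian local rings of characteristic `p`. -/
def ClsP (p : ℕ) : RCls.{u} := fun R _ _ _ => _root_.CharP R p

theorem stable_clsP (p : ℕ) [Fact p.Prime] : RStable (ClsP.{u} p) where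
  compl := by
    intro R _ _ _ _ h
    have h1 : _root_.CharP R p := h
    exact charP_of_algebra p Fact.out (R := R)
  nag := by
    intro R _ _ _ h
    have h1 : _root_.CharP R p := h
    exact charP_of_algebra p Fact.out (R := R)

/-- The complete case for all rings of characteristic `p` from Theorem C. -/
theorem completeCase_of_theoremC (p : ℕ) [Fact p.Prime] (HC : TheoremC.{u} p) {d : ℕ}
    (hd : 0 < d) : CompleteCaseCls2.{u} (ClsP p) d 1 := by
  intro R S _ _ _ _ _ _ _ _ _ _ _ _ c1 hR hS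
  have c1' : _root_.CharP R p := c1
  have c2 : _root_.CharP (ResidueField R) p := charP_of_algebra p Fact.out (R := R)
  obtain ⟨r, rfl⟩ : ∃ r, d = r + 1 := ⟨d - 1, by omega⟩
  have : Infinite (ResidueField S) :=
    Infinite.of_injective (algebraMap (ResidueField R) (ResidueField S)) (RingHom.injective _)
  -- the reduction of the maximal ideal of `R`
  obtain ⟨x, hx, r0, hr0⟩ := exists_reduction_max (A := R) (r + 1) hR
  have hxle : Ideal.span (Set.range x) ≤ maximalIdeal R := by
    rw [Ideal.span_le]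
    rintro _ ⟨i, rfl⟩
    exact hx i
  have hred : IsRed (Ideal.span (Set.range x)) (maximalIdeal R) := ⟨hxle, r0, hr0⟩
  obtain ⟨c0, hc0⟩ := hred.exists_pow_le
  have hxl : ell (Ideal.span (Set.range x)) ≠ ⊤ := by
    have h1 := hc0 1
    rw [pow_one] at h1
    exact ell_ne_top_of_pow_le h1
  -- the reduction of the maximal ideal of `S`
  obtain ⟨y, c, hy, hyl, hmin⟩ := exists_max_reduction (S := S) hS
  have hfib : ell ((maximalIdeal R).map (algebraMap R S)) ≠ ⊤ :=
    ell_fibre_ne_top (R := R) (S := S) (by rw [hR, hS])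
  have hloc : (maximalIdeal R).map (algebraMap R S) ≤ maximalIdeal S := by
    rw [Ideal.map_le_iff_le_comap]
    intro a ha
    exact (IsLocalRing.mem_maximalIdeal _).mpr fun h =>
      (IsLocalRing.mem_maximalIdeal _).mp ha (isUnit_of_map_unit (algebraMap R S) a h)
  -- Theorem C
  have ht0 : ell ((maximalIdeal R).map (algebraMap R S) ⊔ Ideal.span (Set.range y)) ≠ ⊤ :=
    ne_top_of_le_ne_top hfib (ell_mono le_sup_left)
  obtain ⟨t0, ht0⟩ := ENat.ne_top_iff_exists.mp ht0
  obtain ⟨lam, hlam⟩ := ENat.ne_top_iff_exists.mp (emin_ne_top hxl)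
  obtain ⟨eB, heB⟩ := ENat.ne_top_iff_exists.mp (errB_ne_top hxl)
  have hA := HC (A := R) (S := S) hR hS x hx c0 hc0 y hy hyl t0 lam ht0.symm hlam.symm
  have ht1 : 1 ≤ t0 := by
    have h1 : ell ((maximalIdeal R).map (algebraMap R S) ⊔ Ideal.span (Set.range y)) ≠ 0 := by
      rw [Ne, ell_eq_zero_iff]
      intro h
      have h2 : (maximalIdeal R).map (algebraMap R S) ⊔ Ideal.span (Set.range y) ≤
          maximalIdeal S := by
        refine sup_le hloc ?_
        rw [Ideal.span_le]
        rintro _ ⟨i, rfl⟩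
        exact hy i
      rw [h, top_le_iff] at h2
      exact (IsLocalRing.maximalIdeal.isMaximal S).ne_top h2
    rw [← ht0] at h1
    have h3 : t0 ≠ 0 := by exact_mod_cast h1
    omega
  have hlamL : lam ≤ (kchi y S).toNat := by
    have h1 : (lam : ℤ) ≤ kchi y S := by
      refine le_trans ?_ hA
      have h2 : lam ≤ t0 * lam := Nat.le_mul_of_pos_left _ ht1
      exact_mod_cast h2
    omega
  have hLe : (lam : ℕ∞) ≤ emin y :=
    le_trans (by exact_mod_cast hlamL) (kchi_le_emin (Nat.succ_pos r) y hy hyl)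
  -- conclusion
  refine ⟨c, (r + 1).factorial * eB, fun N => ?_⟩
  have h1 : ell (maximalIdeal R ^ N) ≤
      (tri (Fin (r + 1)) N).card * (lam : ℕ∞) + (eB : ℕ∞) * (N ^ r : ℕ) := by
    refine (ell_mono (Ideal.pow_right_mono hxle N)).trans ?_
    have h2 := ell_pow_le x N
    rw [← hlam, ← heB, Fintype.card_fin, Nat.add_sub_cancel] at h2
    exact h2
  have h2 : (tri (Fin (r + 1)) N).card * (lam : ℕ∞) ≤ ell (maximalIdeal S ^ (N + c)) := by
    calc (tri (Fin (r + 1)) N).card * (lam : ℕ∞) ≤ (tri (Fin (r + 1)) N).card * emin y :=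
          mul_le_mul_right hLe _
      _ = emin y * (tri (Fin (r + 1)) N).card := mul_comm _ _
      _ ≤ ell (maximalIdeal S ^ (N + c)) := hmin N
  have h3 : (eB : ℕ∞) * (N ^ r : ℕ) ≤ (eB : ℕ∞) * ((N : ℕ∞) + 1) ^ r := by
    have h4 : eB * N ^ r ≤ eB * (N + 1) ^ r :=
      Nat.mul_le_mul_left _ (Nat.pow_le_pow_left (Nat.le_succ N) r)
    exact_mod_cast h4
  simp only [Nat.cast_one, one_mul, Nat.add_sub_cancel]
  calc ((r + 1).factorial : ℕ∞) * ell (maximalIdeal R ^ N) ≤
      ((r + 1).factorial : ℕ∞) * (ell (maximalIdeal S ^ (N + c)) +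
        (eB : ℕ∞) * ((N : ℕ∞) + 1) ^ r) :=
        mul_le_mul_right (h1.trans (add_le_add h2 h3)) _
    _ = _ := by
        rw [mul_add]
        push_cast
        ring

/-- Lech's inequality in characteristic `p` from Theorem C. -/
theorem lech_char_p_of_theoremC (p : ℕ) [Fact p.Prime] (HC : TheoremC.{u} p) {R S : Type u}
    [CommRing R] [IsLocalRing R] [IsNoetherianRing R]
    [CommRing S] [IsLocalRing S] [IsNoetherianRing S] [Algebra R S]
    [IsLocalHom (algebraMap R S)] [Module.Flat R S] [_root_.CharP R p]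
    {d s : ℕ} (hd : 0 < d) (hR : ringKrullDim R = d) (hS : ringKrullDim S = s) (eR eS : ℕ)
    (heR : Tendsto (hsSeq R d) atTop (𝓝 (eR : ℝ)))
    (heS : Tendsto (hsSeq S s) atTop (𝓝 (eS : ℝ))) : eR ≤ eS := by
  have h := lech_of_eqDim (stable_clsP p) hd (eqDim_of_completeCase2 (stable_clsP p) hd
    (completeCase_of_theoremC p HC hd)) (R := R) (S := S) ‹_› hR hS eR eS heR heS
  rwa [one_mul] at h

/-- Theorem C implies the part of Theorem B needed in characteristic zero. -/
theorem charPLech_of_theoremC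
    (HC : ∀ (p : ℕ) [Fact p.Prime], TheoremC.{u} p) : CZ.CharPLech.{u} := by
  intro p hp R S _ _ _ _ _ _ _ _ _ hRp hfin d hd hR hS eR eS heR heS
  have : Fact p.Prime := ⟨hp⟩
  exact lech_char_p_of_theoremC p (HC p) hd hR hS eR eS heR heS

/-- The final theorem, from Theorem C. -/
theorem hand_field (HC : ∀ (p : ℕ) [Fact p.Prime], TheoremC.{u} p)
    {R S : Type u} [CommRing R] [IsLocalRing R] [IsNoetherianRing R]
    [CommRing S] [IsLocalRing S] [IsNoetherianRing S]
    [Algebra R S] [IsLocalHom (algebraMap R S)] [Module.Flat R S] :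
    ∃ d s eR eS : ℕ, ringKrullDim R = d ∧ ringKrullDim S = s ∧
      Tendsto (fun N : ℕ => (d.factorial : ℝ) *
        ((Module.length R (R ⧸ maximalIdeal R ^ N)).toNat : ℝ) / (N : ℝ) ^ d) atTop
        (𝓝 (eR : ℝ)) ∧
      Tendsto (fun N : ℕ => (s.factorial : ℝ) *
        ((Module.length S (S ⧸ maximalIdeal S ^ N)).toNat : ℝ) / (N : ℝ) ^ s) atTop
        (𝓝 (eS : ℝ)) ∧
      (∀ (k : Type u) [Field k] [Algebra k R], eR ≤ eS) ∧
      (3 ≤ d → eR ≤ (d - 2).factorial * eS) := by
  obtain ⟨d, hd⟩ := exists_dim R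
  obtain ⟨s, hs⟩ := exists_dim S
  obtain ⟨eR, heR⟩ := exists_mult_all hd
  obtain ⟨eS, heS⟩ := exists_mult_all hs
  refine ⟨d, s, eR, eS, hd, hs, heR, heS, ?_, fun h3 => all_flat h3 hd hs eR eS heR heS⟩
  intro k _ _
  rcases Nat.eq_zero_or_pos d with rfl | hd0
  · exact lech_zero_aux s hd hs eR eS heR heS
  obtain ⟨p, hp⟩ := CharP.exists k
  rcases CharP.char_is_prime_or_zero k p with hpp | rfl
  · have : Fact p.Prime := ⟨hpp⟩
    have : _root_.CharP R p := charP_of_injective_algebraMap (algebraMap k R).injective p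
    exact lech_char_p_of_theoremC p (HC p) hd0 hd hs eR eS heR heS
  · have h0 : CharZero k := CharP.charP_to_charZero k
    let _ : Algebra ℚ R := ((algebraMap k R).comp (algebraMap ℚ k)).toAlgebra
    exact CZ.lech_char_zero_of (fun hd hR hS eR eS heR heS =>
      CZ.complete_char_zero (charPLech_of_theoremC HC) hd hR hS eR eS heR heS) hd0 hd hs eR eS
      heR heS

end Vale.Agent.P202.CharP
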