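import Vale.Agent.P202.CharP.KBasic

/-!
P202-CHARP, K3: peeling off the first element of a Koszul complex.
-/

namespace Vale.Agent.P202.CharP

open Submodule

section Peel

/-! ### shifting and negating -/

section

variable {S 𝕋 : Type*} [CommRing S] [AddCommGroup 𝕋] [Module S 𝕋]

lemma kp_hh_shift (D : 𝕋 →ₗ[S] 𝕋) (Y X : ℤ → Submodule S 𝕋) (i : ℤ) :
    hh (-D) (fun δ => Y (δ - 1)) (fun δ => X (δ - 1)) i = hh D Y X (i - 1) := by
  unfold hh zz bb
  rw [Submodule.map_neg, Submodule.comap_neg]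
  have e : i + 1 - 1 = i - 1 + 1 := by ring
  simp only [e]

/-- excision: an exact top quotient does not change the homology. -/
lemma kp_hh_exc (D : 𝕋 →ₗ[S] 𝕋) (hD : ∀ x, D (D x) = 0) (X Y Z : ℤ → Submodule S 𝕋)
    (hX : Stab D X) (hY : Stab D Y) (hZ : Stab D Z) (hXY : ∀ δ, X δ ≤ Y δ)
    (hYZ : ∀ δ, Y δ ≤ Z δ) (h0 : ∀ δ, hh D Z Y δ = 0) (δ : ℤ) :
    hh D Z X δ = hh D Y X δ := by
  obtain ⟨h1, h2, h3⟩ := hh_les D hD X Y Z hX hY hZ hXY hYZ δ
  obtain ⟨-, h2', -⟩ := hh_les D hD X Y Z hX hY hZ hXY hYZ (δ + 1)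
  rw [h0, eq_comm, add_eq_zero] at h2 h2'
  have h4 := h2'.2
  rw [add_sub_cancel_right] at h4
  rw [h1, h3, h2.1, h4, zero_add, add_zero]

end

/-! ### the block complex -/

section

variable {S : Type*} [CommRing S] {ι : Type*} [Fintype ι] [DecidableEq ι] {M : Type*}
  [AddCommGroup M] [Module S M]

/-- degrees of the cone. -/
def kpdeg (deg : ι → ℤ) : ι ⊕ ι → ℤ := Sum.elim deg (fun a => deg a + 1)

/-- matrix of the cone of the multiplication by `c`. -/
def kpQ (Q : Matrix ι ι S) (c : S) : Matrix (ι ⊕ ι) (ι ⊕ ι) S :=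
  Matrix.fromBlocks Q (c • (1 : Matrix ι ι S)) 0 (-Q)

omit [DecidableEq ι] in
lemma kp_tot (deg : ι → ℤ) (Q : Matrix ι ι S) (f : ι → M) (a : ι) :
    tot deg Q (0 : M →ₗ[S] M) f a = ∑ b, Q a b • f b := by
  simp [tot_apply]

lemma kp_isCx (deg : ι → ℤ) (Q : Matrix ι ι S) (hQ : IsCx deg Q) (c : S) :
    IsCx (kpdeg deg) (kpQ Q c) := by
  refine ⟨?_, ?_⟩
  · rintro (a | a) (b | b) h
    · exact hQ.deg_eq a b h
    · by_cases hab : a = b
      · subst hab; rfl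
      · refine absurd ?_ h
        change (c • (1 : Matrix ι ι S)) a b = 0
        simp [hab]
    · exact absurd rfl h
    · have h' : Q a b ≠ 0 := by
        intro h0
        refine h ?_
        change (-Q) a b = 0
        rw [Matrix.neg_apply, h0, neg_zero]
      have := hQ.deg_eq a b h'
      change deg b + 1 = deg a + 1 + 1
      rw [this]
  · unfold kpQ
    rw [Matrix.fromBlocks_multiply, hQ.sq]
    simp [hQ.sq]

lemma kp_inl (deg : ι → ℤ) (Q : Matrix ι ι S) (c : S) (f : ι ⊕ ι → M) (a : ι) :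
    tot (kpdeg deg) (kpQ Q c) (0 : M →ₗ[S] M) f (Sum.inl a) =
      tot deg Q (0 : M →ₗ[S] M) (fun b => f (Sum.inl b)) a + c • f (Sum.inr a) := by
  rw [kp_tot, kp_tot, Fintype.sum_sum_type]
  congr 1
  have : ∀ b : ι, kpQ Q c (Sum.inl a) (Sum.inr b) • f (Sum.inr b) =
      if b = a then c • f (Sum.inr b) else 0 := by
    intro b
    change (c • (1 : Matrix ι ι S)) a b • f (Sum.inr b) = _
    by_cases h : b = a
    · subst h; simp
    · have h' : ¬ a = b := fun e => h e.symm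
      simp [h, h']
  simp only [this]
  simp

lemma kp_inr (deg : ι → ℤ) (Q : Matrix ι ι S) (c : S) (f : ι ⊕ ι → M) (a : ι) :
    tot (kpdeg deg) (kpQ Q c) (0 : M →ₗ[S] M) f (Sum.inr a) =
      - tot deg Q (0 : M →ₗ[S] M) (fun b => f (Sum.inr b)) a := by
  rw [kp_tot, kp_tot, Fintype.sum_sum_type, ← Finset.sum_neg_distrib]
  have h1 : ∀ b : ι, kpQ Q c (Sum.inr a) (Sum.inl b) • f (Sum.inl b) = 0 := by
    intro b
    change (0 : S) • f (Sum.inl b) = _
    rw [zero_smul]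
  have h2 : ∀ b : ι, kpQ Q c (Sum.inr a) (Sum.inr b) • f (Sum.inr b) =
      - (Q a b • f (Sum.inr b)) := by
    intro b
    change (-Q) a b • f (Sum.inr b) = _
    rw [Matrix.neg_apply, neg_smul]
  simp only [h1, h2]
  simp

/-- projection to the first block modulo `c`. -/
def kpF (c : S) (M : Type*) [AddCommGroup M] [Module S M] (ι : Type*) :
    (ι ⊕ ι → M) →ₗ[S] (ι → M ⧸ (LinearMap.range (LinearMap.lsmul S M c))) where
  toFun f a := Submodule.Quotient.mk (f (Sum.inl a))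
  map_add' f g := by ext a; rfl
  map_smul' r f := by ext a; rfl

/-- inclusion of the kernel in the second block. -/
def kpG (c : S) (M : Type*) [AddCommGroup M] [Module S M] (ι : Type*) :
    (ι → ↥(LinearMap.ker (LinearMap.lsmul S M c))) →ₗ[S] (ι ⊕ ι → M) where
  toFun g := Sum.elim (fun _ => 0) (fun a => (g a : M))
  map_add' f g := by ext (a | a) <;> simp
  map_smul' r f := by ext (a | a) <;> simp

lemma kpF_comm (deg : ι → ℤ) (Q : Matrix ι ι S) (c : S) (f : ι ⊕ ι → M) :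
    tot deg Q (0 : (M ⧸ (LinearMap.range (LinearMap.lsmul S M c))) →ₗ[S] _) (kpF c M ι f) =
      kpF c M ι (tot (kpdeg deg) (kpQ Q c) (0 : M →ₗ[S] M) f) := by
  ext a
  rw [kp_tot]
  change _ = (Submodule.Quotient.mk (tot (kpdeg deg) (kpQ Q c) (0 : M →ₗ[S] M) f (Sum.inl a)) :
    M ⧸ (LinearMap.range (LinearMap.lsmul S M c)))
  rw [kp_inl, Submodule.Quotient.mk_add, kp_tot]
  have h1 : (Submodule.Quotient.mk (c • f (Sum.inr a)) :
      M ⧸ (LinearMap.range (LinearMap.lsmul S M c))) = 0 := by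
    rw [Submodule.Quotient.mk_eq_zero]
    exact ⟨f (Sum.inr a), rfl⟩
  rw [h1, add_zero]
  have h2 : (Submodule.Quotient.mk (∑ b, Q a b • f (Sum.inl b)) :
      M ⧸ (LinearMap.range (LinearMap.lsmul S M c))) =
      ∑ b, Q a b • (Submodule.Quotient.mk (f (Sum.inl b)) :
        M ⧸ (LinearMap.range (LinearMap.lsmul S M c))) := by
    have := map_sum (Submodule.mkQ (LinearMap.range (LinearMap.lsmul S M c)))
      (fun b => Q a b • f (Sum.inl b)) Finset.univ
    exact this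
  rw [h2]
  rfl

lemma kpG_comm (deg : ι → ℤ) (Q : Matrix ι ι S) (c : S)
    (g : ι → ↥(LinearMap.ker (LinearMap.lsmul S M c))) :
    tot (kpdeg deg) (kpQ Q c) (0 : M →ₗ[S] M) (kpG c M ι g) =
      kpG c M ι ((-(tot deg Q (0 : ↥(LinearMap.ker (LinearMap.lsmul S M c)) →ₗ[S] _))) g) := by
  ext (a | a)
  · rw [kp_inl, kp_tot]
    change ∑ b, Q a b • (0 : M) + c • ((g a : M)) = 0
    have h1 : c • ((g a : M)) = 0 := (g a).2
    rw [h1]
    simp
  · rw [kp_inr, kp_tot]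
    change -∑ b, Q a b • (g b : M) = ((-(tot deg Q (0 : ↥(LinearMap.ker
      (LinearMap.lsmul S M c)) →ₗ[S] _) g a) : ↥(LinearMap.ker (LinearMap.lsmul S M c))) : M)
    rw [kp_tot]
    simp

omit [Fintype ι] [DecidableEq ι] in
lemma kpG_mem {c : S} {f : ι ⊕ ι → M} {g : ι → ↥(LinearMap.ker (LinearMap.lsmul S M c))}
    (h1 : ∀ a, f (Sum.inl a) = 0) (h2 : ∀ a, (g a : M) = f (Sum.inr a)) : kpG c M ι g = f := by
  ext (a | a)
  · rw [h1]; rfl
  · rw [← h2]; rfl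

/-- the middle family: first block in `c M`. -/
def kpY (deg : ι → ℤ) (c : S) (M : Type*) [AddCommGroup M] [Module S M] (δ : ℤ) :
    Submodule S (ι ⊕ ι → M) :=
  lift (kpdeg deg) (conc (⊤ : Submodule S M)) δ ⊓ LinearMap.ker (kpF c M ι)

/-- the bottom family: second block in the kernel of `c`. -/
def kpX (deg : ι → ℤ) (c : S) (M : Type*) [AddCommGroup M] [Module S M] (δ : ℤ) :
    Submodule S (ι ⊕ ι → M) :=
  (lift deg (conc (⊤ : Submodule S ↥(LinearMap.ker (LinearMap.lsmul S M c)))) (δ - 1)).map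
    (kpG c M ι)

omit [Fintype ι] [DecidableEq ι] in
lemma kp_mem_top {deg : ι → ℤ} {δ : ℤ} {f : ι ⊕ ι → M} :
    f ∈ lift (kpdeg deg) (conc (⊤ : Submodule S M)) δ ↔
      (∀ a, deg a - δ ≠ 0 → f (Sum.inl a) = 0) ∧
      (∀ a, deg a - (δ - 1) ≠ 0 → f (Sum.inr a) = 0) := by
  rw [mem_lift_conc_top]
  constructor
  · intro h
    refine ⟨fun a ha => h (Sum.inl a) ha, fun a ha => h (Sum.inr a) ?_⟩
    intro h0
    apply ha
    change deg a + 1 - δ = 0 at h0
    linarith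
  · rintro ⟨h1, h2⟩ (a | a) ha
    · exact h1 a ha
    · refine h2 a fun h0 => ha ?_
      change deg a + 1 - δ = 0
      linarith

omit [Fintype ι] [DecidableEq ι] in
lemma kp_mem_Y {deg : ι → ℤ} {c : S} {δ : ℤ} {f : ι ⊕ ι → M} :
    f ∈ kpY deg c M δ ↔
      ((∀ a, deg a - δ ≠ 0 → f (Sum.inl a) = 0) ∧
      (∀ a, deg a - (δ - 1) ≠ 0 → f (Sum.inr a) = 0)) ∧ ∀ a, ∃ x, f (Sum.inl a) = c • x := by
  unfold kpY
  rw [Submodule.mem_inf, kp_mem_top, LinearMap.mem_ker, funext_iff]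
  refine and_congr_right fun _ => forall_congr' fun a => ?_
  change (Submodule.Quotient.mk (f (Sum.inl a)) : M ⧸ (LinearMap.range (LinearMap.lsmul S M c)))
    = 0 ↔ _
  rw [Submodule.Quotient.mk_eq_zero]
  constructor
  · rintro ⟨x, hx⟩; exact ⟨x, hx.symm⟩
  · rintro ⟨x, hx⟩; exact ⟨x, hx.symm⟩

omit [Fintype ι] [DecidableEq ι] in
lemma kp_mem_X {deg : ι → ℤ} {c : S} {δ : ℤ} {f : ι ⊕ ι → M} :
    f ∈ kpX deg c M δ ↔
      (∀ a, f (Sum.inl a) = 0) ∧ (∀ a, c • f (Sum.inr a) = 0) ∧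
      (∀ a, deg a - (δ - 1) ≠ 0 → f (Sum.inr a) = 0) := by
  unfold kpX
  constructor
  · rintro ⟨g, hg, rfl⟩
    rw [SetLike.mem_coe, mem_lift_conc_top] at hg
    refine ⟨fun a => rfl, fun a => (g a).2, fun a ha => ?_⟩
    change ((g a : ↥(LinearMap.ker (LinearMap.lsmul S M c))) : M) = 0
    rw [hg a ha]; rfl
  · rintro ⟨h1, h2, h3⟩
    refine ⟨fun a => ⟨f (Sum.inr a), h2 a⟩, ?_, ?_⟩
    · rw [SetLike.mem_coe, mem_lift_conc_top]
      intro a ha
      exact Subtype.ext (h3 a ha)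
    · exact kpG_mem h1 fun a => rfl

lemma kpY_stab (deg : ι → ℤ) (Q : Matrix ι ι S) (hQ : IsCx deg Q) (c : S) :
    Stab (tot (kpdeg deg) (kpQ Q c) (0 : M →ₗ[S] M)) (kpY deg c M) := by
  intro δ f hf
  obtain ⟨h1, h2⟩ := hf
  refine ⟨lift_conc_stab (kpdeg deg) (kpQ Q c) (kp_isCx deg Q hQ c) ⊤ δ f h1, ?_⟩
  change kpF c M ι _ = 0
  rw [← kpF_comm]
  have h3 : kpF c M ι f = 0 := h2
  rw [h3, map_zero]

lemma kpX_stab (deg : ι → ℤ) (Q : Matrix ι ι S) (hQ : IsCx deg Q) (c : S) :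
    Stab (tot (kpdeg deg) (kpQ Q c) (0 : M →ₗ[S] M)) (kpX deg c M) := by
  rintro δ _ ⟨g, hg, rfl⟩
  rw [kpG_comm]
  refine ⟨_, ?_, rfl⟩
  rw [LinearMap.neg_apply]
  exact Submodule.neg_mem _ (lift_conc_stab deg Q hQ ⊤ (δ - 1) g hg)

omit [Fintype ι] [DecidableEq ι] in
lemma kpX_le_Y (deg : ι → ℤ) (c : S) (δ : ℤ) : kpX deg c M δ ≤ kpY deg c M δ := by
  intro f hf
  rw [kp_mem_X] at hf
  rw [kp_mem_Y]
  exact ⟨⟨fun a _ => hf.1 a, hf.2.2⟩, fun a => ⟨0, by rw [hf.1 a, smul_zero]⟩⟩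

/-- the top quotient. -/
lemma kp_hh_top (deg : ι → ℤ) (Q : Matrix ι ι S) (hQ : IsCx deg Q) (c : S) (i : ℤ) :
    hh (tot (kpdeg deg) (kpQ Q c) (0 : M →ₗ[S] M))
      (lift (kpdeg deg) (conc (⊤ : Submodule S M))) (kpY deg c M) i =
    kh deg Q (M ⧸ (LinearMap.range (LinearMap.lsmul S M c))) i := by
  unfold kh khs
  refine hh_map_eq _ _ (kpF c M ι) (fun x => kpF_comm deg Q c x) _ _ _ _ ?_
    (lift_conc_stab (kpdeg deg) (kpQ Q c) (kp_isCx deg Q hQ c) ⊤) ?_ ?_ i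
  · intro δ
    exact inf_le_left
  · intro δ
    ext f'
    constructor
    · rintro ⟨f, hf, rfl⟩
      rw [SetLike.mem_coe, kp_mem_top] at hf
      rw [mem_lift_conc_top]
      intro a ha
      change (Submodule.Quotient.mk (f (Sum.inl a)) :
        M ⧸ (LinearMap.range (LinearMap.lsmul S M c))) = 0
      rw [hf.1 a ha, Submodule.Quotient.mk_zero]
    · intro hf'
      rw [mem_lift_conc_top] at hf'
      have h2 : ∀ a, ∃ x, (deg a - δ ≠ 0 → x = 0) ∧ (Submodule.Quotient.mk x :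
        M ⧸ (LinearMap.range (LinearMap.lsmul S M c))) = f' a := by
        intro a
        by_cases h : deg a - δ = 0
        · obtain ⟨x, hx⟩ := Submodule.Quotient.mk_surjective _ (f' a)
          exact ⟨x, fun h' => absurd h h', hx⟩
        · exact ⟨0, fun _ => rfl, by rw [Submodule.Quotient.mk_zero, hf' a h]⟩
      choose f hf hff using h2
      refine ⟨Sum.elim f 0, ?_, ?_⟩
      · rw [SetLike.mem_coe, kp_mem_top]
        exact ⟨hf, fun a _ => rfl⟩
      · ext a; exact hff a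
  · intro δ f hf
    rw [lift_conc_bot, Submodule.mem_bot]
    unfold kpY
    rw [Submodule.mem_inf, LinearMap.mem_ker]
    exact ⟨fun h => ⟨hf, h⟩, fun h => h.2⟩

/-- the bottom quotient. -/
lemma kp_hh_bot (deg : ι → ℤ) (Q : Matrix ι ι S) (hQ : IsCx deg Q) (c : S) (i : ℤ) :
    hh (tot (kpdeg deg) (kpQ Q c) (0 : M →ₗ[S] M))
      (kpX deg c M) (lift (kpdeg deg) (conc (⊥ : Submodule S M))) i =
    kh deg Q ↥(LinearMap.ker (LinearMap.lsmul S M c)) (i - 1) := by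
  unfold kh khs
  rw [← kp_hh_shift]
  symm
  refine hh_map_eq _ _ (kpG c M ι) (fun x => kpG_comm deg Q c x) _ _ _ _ ?_ ?_ ?_ ?_ i
  · intro δ
    rw [lift_conc_bot]; exact bot_le
  · intro δ g hg
    rw [LinearMap.neg_apply]
    exact Submodule.neg_mem _ (lift_conc_stab deg Q hQ ⊤ (δ - 1) g hg)
  · intro δ; rfl
  · intro δ g hg
    rw [lift_conc_bot, lift_conc_bot, Submodule.mem_bot, Submodule.mem_bot]
    constructor
    · intro h
      ext a
      exact congrFun h (Sum.inr a)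
    · rintro rfl
      exact map_zero _

/-- the middle quotient is exact. -/
lemma kp_hh_mid (deg : ι → ℤ) (Q : Matrix ι ι S) (hQ : IsCx deg Q) (c : S) (i : ℤ) :
    hh (tot (kpdeg deg) (kpQ Q c) (0 : M →ₗ[S] M)) (kpY deg c M) (kpX deg c M) i = 0 := by
  unfold hh
  rw [rl_eq_zero_iff]
  intro f hf
  obtain ⟨h1, h2⟩ := Submodule.mem_inf.mp hf
  rw [kp_mem_Y] at h1
  rw [Submodule.mem_comap, kp_mem_X] at h2
  obtain ⟨⟨h3, h4⟩, h5⟩ := h1
  obtain ⟨h6, -, -⟩ := h2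
  have h7 : ∀ a, ∃ x, (deg a - i ≠ 0 → x = 0) ∧ f (Sum.inl a) = c • x := by
    intro a
    by_cases h : deg a - i = 0
    · obtain ⟨x, hx⟩ := h5 a
      exact ⟨x, fun h' => absurd h h', hx⟩
    · exact ⟨0, fun _ => rfl, by rw [h3 a h, smul_zero]⟩
  choose g hg1 hg2 using h7
  have hw : (Sum.elim (0 : ι → M) g : ι ⊕ ι → M) ∈ kpY deg c M (i + 1) := by
    rw [kp_mem_Y]
    refine ⟨⟨fun a _ => rfl, fun a ha => ?_⟩, fun a => ⟨0, by rw [smul_zero]; rfl⟩⟩
    rw [add_sub_cancel_right] at ha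
    exact hg1 a ha
  have hKg : ∀ a, deg a - (i - 1) ≠ 0 → tot deg Q (0 : M →ₗ[S] M) g a = 0 := by
    have := lift_conc_stab deg Q hQ (⊤ : Submodule S M) i g (mem_lift_conc_top.mpr hg1)
    exact mem_lift_conc_top.mp this
  have hD : ∀ a, c • tot deg Q (0 : M →ₗ[S] M) g a =
      tot deg Q (0 : M →ₗ[S] M) (fun b => f (Sum.inl b)) a := by
    intro a
    rw [kp_tot, kp_tot, Finset.smul_sum]
    refine Finset.sum_congr rfl fun b _ => ?_
    rw [hg2, smul_comm]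
  have hrest : f - tot (kpdeg deg) (kpQ Q c) (0 : M →ₗ[S] M) (Sum.elim (0 : ι → M) g) ∈
      kpX deg c M i := by
    rw [kp_mem_X]
    have e1 : ∀ a, (f - tot (kpdeg deg) (kpQ Q c) (0 : M →ₗ[S] M) (Sum.elim (0 : ι → M) g))
        (Sum.inr a) = f (Sum.inr a) + tot deg Q (0 : M →ₗ[S] M) g a := by
      intro a
      rw [Pi.sub_apply, kp_inr, sub_neg_eq_add]
      rfl
    refine ⟨fun a => ?_, fun a => ?_, fun a ha => ?_⟩
    · rw [Pi.sub_apply, kp_inl, hg2]
      change c • g a - (tot deg Q (0 : M →ₗ[S] M) (fun b => 0) a + c • g a) = 0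
      rw [kp_tot]
      simp
    · rw [e1, smul_add, hD, add_comm, ← kp_inl]
      exact h6 a
    · rw [e1, h4 a ha, hKg a ha, add_zero]
  rw [← sub_add_cancel f (tot (kpdeg deg) (kpQ Q c) (0 : M →ₗ[S] M) (Sum.elim (0 : ι → M) g))]
  exact Submodule.add_mem _ (Submodule.mem_sup_right hrest)
    (Submodule.mem_sup_left (Submodule.mem_map_of_mem hw))

/-- the long exact sequence of the cone of `c`. -/
theorem kp_les (deg : ι → ℤ) (Q : Matrix ι ι S) (hQ : IsCx deg Q) (c : S)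
    (M : Type*) [AddCommGroup M] [Module S M] :
    ∃ al be ga : ℤ → ℕ∞, ∀ i, kh (kpdeg deg) (kpQ Q c) M i = al i + be i ∧
      kh deg Q (M ⧸ (LinearMap.range (LinearMap.lsmul S M c))) i = be i + ga (i - 1) ∧
      kh deg Q ↥(LinearMap.ker (LinearMap.lsmul S M c)) (i - 1) = ga i + al i := by
  have hcx := kp_isCx deg Q hQ c
  have hD : ∀ x, tot (kpdeg deg) (kpQ Q c) (0 : M →ₗ[S] M)
      (tot (kpdeg deg) (kpQ Q c) (0 : M →ₗ[S] M) x) = 0 :=
    tot_tot _ _ hcx _ (fun x => rfl)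
  have hZ := lift_conc_stab (M := M) (kpdeg deg) (kpQ Q c) hcx ⊤
  have h0 := lift_conc_stab (M := M) (kpdeg deg) (kpQ Q c) hcx ⊥
  have hY := kpY_stab (M := M) deg Q hQ c
  have hX := kpX_stab (M := M) deg Q hQ c
  have h0X : ∀ δ, lift (kpdeg deg) (conc (⊥ : Submodule S M)) δ ≤ kpX deg c M δ := by
    intro δ; rw [lift_conc_bot]; exact bot_le
  have hXY := kpX_le_Y (M := M) deg c
  have hYZ : ∀ δ, kpY deg c M δ ≤ lift (kpdeg deg) (conc (⊤ : Submodule S M)) δ :=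
    fun δ => inf_le_left
  have hexc := kp_hh_exc _ hD _ _ _ h0 hX hY h0X hXY (kp_hh_mid deg Q hQ c)
  have hles := hh_les _ hD _ _ _ h0 hY hZ (fun δ => (h0X δ).trans (hXY δ)) hYZ
  generalize hDD : tot (kpdeg deg) (kpQ Q c) (0 : M →ₗ[S] M) = D at *
  refine ⟨fun i => rl (bb D (lift (kpdeg deg) (conc ⊤)) (lift (kpdeg deg) (conc ⊥)) i)
      (zz D (kpY deg c M) (lift (kpdeg deg) (conc ⊥)) i ⊔
        bb D (lift (kpdeg deg) (conc ⊤)) (lift (kpdeg deg) (conc ⊥)) i),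
    fun i => rl (bb D (lift (kpdeg deg) (conc ⊤)) (kpY deg c M) i)
      (zz D (lift (kpdeg deg) (conc ⊤)) (lift (kpdeg deg) (conc ⊥)) i ⊔
        bb D (lift (kpdeg deg) (conc ⊤)) (kpY deg c M) i),
    fun i => rl (bb D (kpY deg c M) (lift (kpdeg deg) (conc ⊥)) i)
      ((zz D (lift (kpdeg deg) (conc ⊤)) (kpY deg c M) (i + 1)).map D ⊔
        bb D (kpY deg c M) (lift (kpdeg deg) (conc ⊥)) i), fun i => ?_⟩
  obtain ⟨h1, h2, h3⟩ := hles i
  have ht := kp_hh_top (M := M) deg Q hQ c i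
  have hb := kp_hh_bot (M := M) deg Q hQ c i
  rw [hDD] at ht hb
  refine ⟨?_, ?_, ?_⟩
  · rw [← h1, ← hDD]; rfl
  · rw [← ht, h2]
    simp only [sub_add_cancel]
  · rw [← hb, ← hexc, h3]

end

/-! ### numerics -/

lemma kp_num (n : ℕ) (al be ga b c a : ℤ → ℕ∞)
    (h : ∀ i, b i = al i + be i ∧ c i = be i + ga (i - 1) ∧ a (i - 1) = ga i + al i)
    (hb : ∀ i, b i ≠ ⊤) (hc : ∀ i, c i ≠ ⊤) (hcn : ∀ i : ℤ, (n : ℤ) < i → c i = 0)
    (ha0 : ∀ i : ℤ, i < 0 → a i = 0) :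
    ∑ i ∈ Finset.range (n + 1 + 1), (-1 : ℤ) ^ i * ((b (i : ℤ)).toNat : ℤ) =
      ∑ i ∈ Finset.range (n + 1), (-1 : ℤ) ^ i * ((c (i : ℤ)).toNat : ℤ) -
      ∑ i ∈ Finset.range (n + 1), (-1 : ℤ) ^ i * ((a (i : ℤ)).toNat : ℤ) := by
  have hal : ∀ i, al i ≠ ⊤ := fun i h0 => hb i (by rw [(h i).1, h0, top_add])
  have hbe : ∀ i, be i ≠ ⊤ := fun i h0 => hb i (by rw [(h i).1, h0, add_top])
  have hga : ∀ i, ga i ≠ ⊤ := fun i h0 => hc (i + 1) (by
    rw [(h (i + 1)).2.1, add_sub_cancel_right, h0, add_top])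
  have e1 : ∀ i, ((b i).toNat : ℤ) = (al i).toNat + (be i).toNat := by
    intro i
    rw [(h i).1, ENat.toNat_add (hal i) (hbe i)]
    push_cast; rfl
  have e2 : ∀ i, ((c i).toNat : ℤ) = (be i).toNat + (ga (i - 1)).toNat := by
    intro i
    rw [(h i).2.1, ENat.toNat_add (hbe i) (hga _)]
    push_cast; rfl
  have e3 : ∀ i, ((a i).toNat : ℤ) = (ga (i + 1)).toNat + (al (i + 1)).toNat := by
    intro i
    have := (h (i + 1)).2.2
    rw [add_sub_cancel_right] at this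
    rw [this, ENat.toNat_add (hga _) (hal _)]
    push_cast; rfl
  have g1 : ga (-1) = 0 := by
    have h1 := (h (-1)).2.2
    rw [ha0 _ (by norm_num), eq_comm, add_eq_zero] at h1
    exact h1.1
  have a1 : ga 0 + al 0 = 0 := by
    have h1 := (h 0).2.2
    rw [ha0 _ (by norm_num)] at h1
    exact h1.symm
  have gn : ga ((n + 1 : ℕ) : ℤ) = 0 := by
    have h1 := (h ((n + 1 : ℕ) + 1 : ℤ)).2.1
    rw [hcn _ (by push_cast; linarith), add_sub_cancel_right, eq_comm, add_eq_zero] at h1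
    exact h1.2
  have key : ∀ N : ℕ, ∑ i ∈ Finset.range (N + 1), (-1 : ℤ) ^ i * ((b (i : ℤ)).toNat : ℤ) =
      ∑ i ∈ Finset.range (N + 1), (-1 : ℤ) ^ i * ((c (i : ℤ)).toNat : ℤ) -
      ∑ i ∈ Finset.range N, (-1 : ℤ) ^ i * ((a (i : ℤ)).toNat : ℤ) -
      (-1 : ℤ) ^ N * ((ga (N : ℤ)).toNat : ℤ) := by
    intro N
    induction N with
    | zero =>
      rw [add_eq_zero] at a1
      simp [e1, e2, g1, a1.1, a1.2]
    | succ N ih =>
      have h1 : ((N + 1 : ℕ) : ℤ) - 1 = (N : ℤ) := by push_cast; ring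
      have h2 : ((N + 1 : ℕ) : ℤ) = (N : ℤ) + 1 := by push_cast; ring
      have f1 := e1 ((N + 1 : ℕ) : ℤ)
      have f2 := e2 ((N + 1 : ℕ) : ℤ)
      have f3 := e3 (N : ℤ)
      rw [h1] at f2
      rw [← h2] at f3
      rw [Finset.sum_range_succ, ih,
        Finset.sum_range_succ (fun i => (-1 : ℤ) ^ i * ((c (i : ℤ)).toNat : ℤ)) (N + 1),
        Finset.sum_range_succ (fun i => (-1 : ℤ) ^ i * ((a (i : ℤ)).toNat : ℤ)) N, f1, f2, f3,
        pow_succ]
      ring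
  rw [key (n + 1), gn, Finset.sum_range_succ _ (n + 1), hcn ((n + 1 : ℕ) : ℤ) (by push_cast; linarith)]
  simp

/-! ### the theorem -/

section

variable {B : Type*} [CommRing B]

lemma kp_kk {n : ℕ} (y : Fin (n + 1) → B) (M : Type*) [AddCommGroup M] [Module B M] (i : ℤ) :
    kk y M i = kh (kpdeg (kdeg n)) (kpQ (kos n fun i => y i.succ) (y 0)) M i := by
  have h1 : (kdeg (n + 1) : KIdx n ⊕ KIdx n → ℤ) = kpdeg (kdeg n) := by
    ext (a | a) <;> rfl
  unfold kk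
  rw [← h1]
  rfl

/-- peeling, with the finiteness hypotheses made explicit. -/
theorem kchi_succ_of_finite {n : ℕ} (y : Fin (n + 1) → B) (M : Type*) [AddCommGroup M] [Module B M]
    (hM : ∀ i, kk y M i ≠ ⊤)
    (hQ : ∀ i, kk (fun i => y i.succ) (M ⧸ (LinearMap.range (LinearMap.lsmul B M (y 0)))) i ≠ ⊤)
    (hQn : ∀ i : ℤ, (n : ℤ) < i →
      kk (fun i => y i.succ) (M ⧸ (LinearMap.range (LinearMap.lsmul B M (y 0)))) i = 0)
    (hK0 : ∀ i : ℤ, i < 0 →
      kk (fun i => y i.succ) ↥(LinearMap.ker (LinearMap.lsmul B M (y 0))) i = 0) :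
    kchi y M = kchi (fun i => y i.succ) (M ⧸ (LinearMap.range (LinearMap.lsmul B M (y 0)))) -
      kchi (fun i => y i.succ) ↥(LinearMap.ker (LinearMap.lsmul B M (y 0))) := by
  obtain ⟨al, be, ga, h⟩ := kp_les (kdeg n) (kos n fun i => y i.succ) (kos_isCx n _) (y 0) M
  unfold kchi
  refine kp_num n al be ga (fun i => kk y M i) _ _ (fun i => ?_) hM hQ hQn hK0
  refine ⟨?_, (h i).2.1, (h i).2.2⟩
  rw [← (h i).1]
  exact kp_kk y M i

/-- TASK K3: peeling off the first element. -/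
theorem kchi_succ [IsNoetherianRing B] {n : ℕ} (y : Fin (n + 1) → B) (M : Type*) [AddCommGroup M]
    [Module B M] [Module.Finite B M]
    (h : Module.length B (M ⧸ (Ideal.span (Set.range y) • (⊤ : Submodule B M))) ≠ ⊤) :
    kchi y M = kchi (fun i => y i.succ) (M ⧸ (LinearMap.range (LinearMap.lsmul B M (y 0)))) -
      kchi (fun i => y i.succ) ↥(LinearMap.ker (LinearMap.lsmul B M (y 0))) := by
  refine kchi_succ_of_finite y M (kk_ne_top y M h) (kk_ne_top _ _ ?_)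
    (fun i hi => kk_out _ _ _ (Or.inr hi)) (fun i hi => kk_out _ _ _ (Or.inl hi))
  let f : M →ₗ[B] ((M ⧸ (LinearMap.range (LinearMap.lsmul B M (y 0)))) ⧸
      (Ideal.span (Set.range fun i : Fin n => y i.succ) •
        (⊤ : Submodule B (M ⧸ (LinearMap.range (LinearMap.lsmul B M (y 0))))))) :=
    (Submodule.mkQ _).comp (Submodule.mkQ _)
  have hf : Function.Surjective f :=
    (Submodule.mkQ_surjective _).comp (Submodule.mkQ_surjective _)
  have hann : Ideal.span (Set.range y) ≤ Module.annihilator B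
      ((M ⧸ (LinearMap.range (LinearMap.lsmul B M (y 0)))) ⧸
      (Ideal.span (Set.range fun i : Fin n => y i.succ) •
        (⊤ : Submodule B (M ⧸ (LinearMap.range (LinearMap.lsmul B M (y 0))))))) := by
    rw [Ideal.span_le]
    rintro _ ⟨i, rfl⟩
    rw [SetLike.mem_coe, Module.mem_annihilator]
    intro q
    obtain ⟨m, rfl⟩ := hf q
    refine Fin.cases ?_ (fun i => ?_) i
    · rw [← map_smul]
      change Submodule.Quotient.mk (Submodule.Quotient.mk (y 0 • m)) = _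
      have : (Submodule.Quotient.mk (y 0 • m) :
          M ⧸ (LinearMap.range (LinearMap.lsmul B M (y 0)))) = 0 := by
        rw [Submodule.Quotient.mk_eq_zero]
        exact ⟨m, rfl⟩
      rw [this, Submodule.Quotient.mk_zero]
    · change Submodule.Quotient.mk (y i.succ • Submodule.Quotient.mk m) = _
      rw [Submodule.Quotient.mk_eq_zero]
      exact Submodule.smul_mem_smul (Ideal.subset_span ⟨i, rfl⟩) Submodule.mem_top
  have hle : Ideal.span (Set.range y) • (⊤ : Submodule B M) ≤ LinearMap.ker f := by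
    rw [Submodule.smul_le]
    intro r hr m _
    rw [LinearMap.mem_ker, map_smul]
    exact Module.mem_annihilator.mp (hann hr) _
  have hsurj : Function.Surjective (Submodule.liftQ _ f hle) := by
    intro q
    obtain ⟨m, rfl⟩ := hf q
    exact ⟨Submodule.Quotient.mk m, rfl⟩
  exact ne_top_of_le_ne_top h (Module.length_le_of_surjective _ hsurj)

end

end Peel

end Vale.Agent.P202.CharP
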