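import Vale.Agent.P202.CharP.Defs
import Vale.Agent.P202.CharP.Les

/-!
P202-CHARP, L2: the abstract lower bound.
-/

namespace Vale.Agent.P202.CharP

open Submodule

section alt

/-- alternating sum of `n + 1` consecutive values starting at `d`. -/
def altS (n : ℕ) (f : ℤ → ℤ) (d : ℤ) : ℤ := ∑ i ∈ Finset.range (n + 1), (-1 : ℤ) ^ i * f (d + i)

lemma altS_tele (n : ℕ) (g : ℤ → ℤ) (d : ℤ) :
    altS n (fun i => g i + g (i + 1)) d = g d + (-1 : ℤ) ^ n * g (d + n + 1) := by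
  unfold altS
  induction n with
  | zero => simp
  | succ n ih =>
    rw [Finset.sum_range_succ, ih]
    push_cast
    rw [pow_succ, show d + ((n : ℤ) + 1) = d + n + 1 by ring]
    ring

lemma altS_tele' (n : ℕ) (g : ℤ → ℤ) (d : ℤ) (hd : 0 ≤ d) (hg : ∀ i, (n : ℤ) < i → g i = 0) :
    altS n (fun i => g i + g (i + 1)) d = g d := by
  rw [altS_tele, hg (d + n + 1) (by omega)]
  ring

lemma altS_congr (n : ℕ) {f g : ℤ → ℤ} {d e : ℤ} (h : ∀ i : ℕ, f (d + i) = g (e + i)) :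
    altS n f d = altS n g e := by
  unfold altS
  exact Finset.sum_congr rfl fun i _ => by rw [h i]

lemma altS_zero (n : ℕ) (f : ℤ → ℤ) (hf : ∀ i, (n : ℤ) < i → f i = 0) :
    altS n f 0 = f 0 - altS n f 1 := by
  have h := altS_tele' n f 0 le_rfl hf
  have h2 : altS n (fun i => f i + f (i + 1)) 0 = altS n f 0 + altS n f 1 := by
    unfold altS
    rw [← Finset.sum_add_distrib]
    refine Finset.sum_congr rfl fun i _ => ?_
    rw [mul_add, show (0 : ℤ) + i + 1 = 1 + i by ring]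
  rw [h2] at h
  linarith

end alt

lemma enat_add_ne_top {a b : ℕ∞} : a + b ≠ ⊤ ↔ a ≠ ⊤ ∧ b ≠ ⊤ := by
  rw [ne_eq, ENat.add_eq_top, not_or]

section L

variable {S 𝕋 : Type*} [CommRing S] [AddCommGroup 𝕋] [Module S 𝕋]

/-- the integer valued length of homology. -/
noncomputable def hn (D : 𝕋 →ₗ[S] 𝕋) (Y X : ℤ → Submodule S 𝕋) (δ : ℤ) : ℤ :=
  ((hh D Y X δ).toNat : ℤ)

/-- image of the connecting map `H_δ (Z / Y) → H_(δ - 1) (Y / X)`. -/
noncomputable def gam (D : 𝕋 →ₗ[S] 𝕋) (Z Y X : ℤ → Submodule S 𝕋) (δ : ℤ) : ℕ∞ :=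
  rl (bb D Y X (δ - 1)) ((zz D Z Y δ).map D ⊔ bb D Y X (δ - 1))

lemma hh_eq_zero_of_bot (D : 𝕋 →ₗ[S] 𝕋) (Y X : ℤ → Submodule S 𝕋) (δ : ℤ) (h : Y δ = ⊥) :
    hh D Y X δ = 0 := by
  unfold hh
  rw [rl_eq_zero_iff]
  refine le_trans inf_le_left ?_
  rw [h]
  exact bot_le

lemma hh_self (D : 𝕋 →ₗ[S] 𝕋) (X : ℤ → Submodule S 𝕋) (δ : ℤ) :
    hh D X X δ = 0 := by
  unfold hh
  rw [rl_eq_zero_iff]
  exact le_trans inf_le_left le_sup_right

/-- the long exact sequence, repackaged. -/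
lemma les (D : 𝕋 →ₗ[S] 𝕋) (hD : ∀ x, D (D x) = 0) (X Y Z : ℤ → Submodule S 𝕋)
    (hX : Stab D X) (hY : Stab D Y) (hZ : Stab D Z) (hXY : ∀ δ, X δ ≤ Y δ)
    (hYZ : ∀ δ, Y δ ≤ Z δ) : ∃ al be : ℤ → ℕ∞, ∀ δ,
    hh D Z X δ = al δ + be δ ∧ hh D Z Y δ = be δ + gam D Z Y X δ ∧
      hh D Y X δ = gam D Z Y X (δ + 1) + al δ ∧
      al δ = rl (bb D Z X δ) (zz D Y X δ ⊔ bb D Z X δ) := by
  refine ⟨fun δ => rl (bb D Z X δ) (zz D Y X δ ⊔ bb D Z X δ),
    fun δ => rl (bb D Z Y δ) (zz D Z X δ ⊔ bb D Z Y δ), fun δ => ?_⟩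
  obtain ⟨h1, h2, h3⟩ := hh_les D hD X Y Z hX hY hZ hXY hYZ δ
  refine ⟨h1, h2, ?_, rfl⟩
  rw [h3, gam, add_sub_cancel_right]

/-- finiteness for the middle term. -/
lemma hh_ne_top (D : 𝕋 →ₗ[S] 𝕋) (hD : ∀ x, D (D x) = 0) (X Y Z : ℤ → Submodule S 𝕋)
    (hX : Stab D X) (hY : Stab D Y) (hZ : Stab D Z) (hXY : ∀ δ, X δ ≤ Y δ)
    (hYZ : ∀ δ, Y δ ≤ Z δ) (δ : ℤ) (h1 : hh D Z Y δ ≠ ⊤) (h2 : hh D Y X δ ≠ ⊤) :
    hh D Z X δ ≠ ⊤ := by
  obtain ⟨al, be, h⟩ := les D hD X Y Z hX hY hZ hXY hYZ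
  obtain ⟨e1, e2, e3, -⟩ := h δ
  rw [e2] at h1
  rw [e3] at h2
  rw [e1]
  rw [enat_add_ne_top] at h1 h2 ⊢
  exact ⟨h2.2, h1.1⟩

/-- additivity of the truncated Euler characteristic. -/
lemma chi_add (D : 𝕋 →ₗ[S] 𝕋) (hD : ∀ x, D (D x) = 0) (n : ℕ) (X Y Z : ℤ → Submodule S 𝕋)
    (hX : Stab D X) (hY : Stab D Y) (hZ : Stab D Z) (hXY : ∀ δ, X δ ≤ Y δ)
    (hYZ : ∀ δ, Y δ ≤ Z δ) (hbig : ∀ δ, (n : ℤ) < δ → Z δ = ⊥) (d : ℤ) (hd : 0 ≤ d)
    (f1 : ∀ δ, d ≤ δ → hh D Z Y δ ≠ ⊤) (f2 : ∀ δ, d ≤ δ → hh D Y X δ ≠ ⊤) :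
    altS n (hn D Z X) d = altS n (hn D Z Y) d + altS n (hn D Y X) d -
      ((gam D Z Y X d).toNat : ℤ) := by
  obtain ⟨al, be, h⟩ := les D hD X Y Z hX hY hZ hXY hYZ
  set g : ℤ → ℤ := fun δ => ((gam D Z Y X δ).toNat : ℤ) with hg
  have hg0 : ∀ i, (n : ℤ) < i → g i = 0 := by
    intro i hi
    have h0 := hh_eq_zero_of_bot D Z Y i (hbig i hi)
    rw [(h i).2.1] at h0
    have : gam D Z Y X i = 0 := by
      simpa using (add_eq_zero.mp h0).2
    simp [hg, this]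
  have key : altS n (fun i => g i + g (i + 1)) d = g d := altS_tele' n g d hd hg0
  have h1 : altS n (hn D Z X) d + altS n (fun i => g i + g (i + 1)) d =
      altS n (hn D Z Y) d + altS n (hn D Y X) d := by
    unfold altS
    rw [← Finset.sum_add_distrib, ← Finset.sum_add_distrib]
    refine Finset.sum_congr rfl fun i _ => ?_
    rw [← mul_add, ← mul_add]
    congr 1
    obtain ⟨e1, e2, e3, -⟩ := h (d + i)
    have F1 := f1 (d + i) (by omega)
    have F2 := f2 (d + i) (by omega)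
    rw [e2, enat_add_ne_top] at F1
    rw [e3, enat_add_ne_top] at F2
    simp only [hn, hg]
    rw [e1, e2, e3]
    rw [ENat.toNat_add F2.2 F1.1, ENat.toNat_add F1.1 F1.2, ENat.toNat_add F2.1 F2.2]
    push_cast
    ring
  rw [key] at h1
  linarith

/-- descending the staircase. -/
lemma stair_iter (D : 𝕋 →ₗ[S] 𝕋) (m : ℕ)
    (W : ℕ → ℤ → Submodule S 𝕋) (mono : ∀ j δ, W j δ ≤ W (j + 1) δ)
    (stair : ∀ j, 1 ≤ j → j ≤ m → ∀ z ∈ W (j + 1) 1, D z ∈ W j 0 →
      ∃ u ∈ W j 1, D (z - u) ∈ W 0 0) :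
    ∀ j, j ≤ m → ∀ z ∈ W (j + 1) 1, D z ∈ W 1 0 → ∃ u ∈ W 1 1, D (z - u) ∈ W 0 0 := by
  intro j
  induction j with
  | zero =>
    intro _ z hz _
    exact ⟨z, hz, by simp⟩
  | succ j ih =>
    intro hj z hz hDz
    have hmono : ∀ a δ, W 1 δ ≤ W (a + 1) δ := by
      intro a δ
      induction a with
      | zero => exact le_rfl
      | succ a iha => exact iha.trans (mono _ _)
    obtain ⟨u', hu', hDu'⟩ := stair (j + 1) (by omega) hj z hz (hmono j 0 hDz)
    have h2 : D u' ∈ W 1 0 := by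
      have : D u' = D z - D (z - u') := by rw [map_sub]; abel
      rw [this]
      exact sub_mem hDz (mono 0 0 hDu')
    obtain ⟨u, hu, hDu⟩ := ih (by omega) u' hu' h2
    refine ⟨u, hu, ?_⟩
    have : D (z - u) = D (z - u') + D (u' - u) := by rw [← map_add]; congr 1; abel
    rw [this]
    exact add_mem hDu' hDu

/-- the abstract lower bound. `W 0` is the level `1`, `W (j+1)` the level `-j`. -/
theorem lb_abs (D : 𝕋 →ₗ[S] 𝕋) (hD : ∀ x, D (D x) = 0) (n m : ℕ) (hm : m < n)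
    (W : ℕ → ℤ → Submodule S 𝕋) (Winf : ℤ → Submodule S 𝕋)
    (hW : ∀ j, Stab D (W j)) (hWinf : Stab D Winf) (mono : ∀ j δ, W j δ ≤ W (j + 1) δ)
    (monoinf : ∀ δ, Winf δ ≤ W 0 δ) (hbig : ∀ j (δ : ℤ), (n : ℤ) < δ → W j δ = ⊥)
    (t : ℤ → ℕ) (r : ℤ → ℤ) (hr : ∀ i, (t i : ℤ) = r i + r (i + 1)) (hr' : ∀ i, (n : ℤ) < i → r i = 0)
    (w : ℕ → ℕ)
    (hwin : ∀ j, j < n → ∀ δ, hh D (W (j + 1)) (W j) δ = (w j : ℕ∞) * t (δ + pdeg m j))
    (stair : ∀ j, 1 ≤ j → j ≤ m → ∀ z ∈ W (j + 1) 1, D z ∈ W j 0 →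
      ∃ u ∈ W j 1, D (z - u) ∈ W 0 0)
    (hac : ∀ δ, 1 ≤ δ → hh D (W n) Winf δ = 0) (hlow : hh D (W 0) Winf (-1) = 0)
    (hfin : hh D (W 1) Winf 0 ≠ ⊤) :
    (w 0 : ℤ) * t 0 + ∑ j ∈ Finset.Icc 1 m, (w j : ℤ) * r (j + 1) -
        ∑ j ∈ Finset.Icc (m + 1) (n - 1), (w j : ℤ) * r (j + 1) ≤
      ∑ i ∈ Finset.range (n + 1), (-1 : ℤ) ^ i * ((hh D (W 1) Winf (i : ℤ)).toNat : ℤ) := by
  -- monotonicity
  have hmono : ∀ a b, a ≤ b → ∀ δ, W a δ ≤ W b δ := by
    intro a b hab δ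
    induction b, hab using Nat.le_induction with
    | base => exact le_rfl
    | succ b _ ih => exact ih.trans (mono _ _)
  have hminf : ∀ a δ, Winf δ ≤ W a δ := fun a δ => (monoinf δ).trans (hmono 0 a (by omega) δ)
  -- windows
  have hwfin : ∀ j, j < n → ∀ δ, hh D (W (j + 1)) (W j) δ ≠ ⊤ := by
    intro j hj δ
    rw [hwin j hj δ]
    exact_mod_cast ENat.natCast_ne_top (w j * t (δ + pdeg m j))
  have hwn : ∀ j, j < n → ∀ δ, hn D (W (j + 1)) (W j) δ = (w j : ℤ) * t (δ + pdeg m j) := by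
    intro j hj δ
    unfold hn
    rw [hwin j hj δ, ENat.toNat_mul]
    push_cast
    simp
  have hfin' : ∀ a b, a ≤ b → b ≤ n → ∀ δ, hh D (W b) (W a) δ ≠ ⊤ := by
    intro a b hab
    induction b, hab using Nat.le_induction with
    | base => intro _ δ; rw [hh_self]; simp
    | succ b hb ih =>
      intro hbn δ
      exact hh_ne_top D hD (W a) (W b) (W (b + 1)) (hW _) (hW _) (hW _) (hmono a b hb)
        (mono b) δ (hwfin b (by omega) δ) (ih (by omega) δ)
  -- windows: truncated Euler characteristics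
  have hchiw : ∀ j, j < n → ∀ d : ℤ, 0 ≤ d → 0 ≤ d + pdeg m j →
      altS n (hn D (W (j + 1)) (W j)) d = (w j : ℤ) * r (d + pdeg m j) := by
    intro j hj d hd hd'
    have h1 : altS n (hn D (W (j + 1)) (W j)) d =
        (w j : ℤ) * altS n (fun i => r i + r (i + 1)) (d + pdeg m j) := by
      unfold altS
      rw [Finset.mul_sum]
      refine Finset.sum_congr rfl fun i _ => ?_
      rw [hwn j hj, show d + i + pdeg m j = d + pdeg m j + i by ring, hr]
      ring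
    rw [h1, altS_tele' n r _ hd' hr']
  -- (II)
  have hII : ∀ a, a ≤ n → ∀ δ, 1 ≤ δ → hh D (W a) Winf δ = hh D (W n) (W a) (δ + 1) := by
    intro a ha δ hδ
    obtain ⟨al, be, h⟩ := les D hD Winf (W a) (W n) hWinf (hW _) (hW _) (hminf a) (hmono a n ha)
    have h0 := hac δ hδ
    have h1 := hac (δ + 1) (by omega)
    rw [(h δ).1] at h0
    rw [(h (δ + 1)).1] at h1
    rw [(h δ).2.2.1, (h (δ + 1)).2.1, (add_eq_zero.mp h0).1, (add_eq_zero.mp h1).2, add_zero,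
      zero_add]
  -- finiteness of the homology of `W 1 / Winf` in positive degrees
  have hfin1 : ∀ δ, 1 ≤ δ → hh D (W 1) Winf δ ≠ ⊤ := by
    intro δ hδ
    rw [hII 1 (by omega) δ hδ]
    exact hfin' 1 n (by omega) le_rfl _
  -- (c)
  have hc := chi_add D hD n Winf (W 1) (W (m + 1)) hWinf (hW _) (hW _) (hminf 1)
    (hmono 1 (m + 1) (by omega)) (hbig (m + 1)) 1 (by norm_num)
    (fun δ _ => hfin' 1 (m + 1) (by omega) (by omega) δ) hfin1
  -- (d)
  have hd : ∀ j, j ≤ m → altS n (hn D (W (j + 1)) (W 1)) 1 =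
      ∑ i ∈ Finset.Icc 1 j, (w i : ℤ) * r (i + 1) := by
    intro j
    induction j with
    | zero =>
      intro _
      have : ∀ δ, hn D (W (0 + 1)) (W 1) δ = 0 := fun δ => by
        unfold hn
        rw [zero_add, hh_self]; simp
      simp [altS, this]
    | succ j ih =>
      intro hj
      have h1 := chi_add D hD n (W 1) (W (j + 1)) (W (j + 1 + 1)) (hW _) (hW _) (hW _)
        (hmono 1 (j + 1) (by omega)) (mono (j + 1)) (hbig _) 1 (by norm_num)
        (fun δ _ => hwfin (j + 1) (by omega) δ)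
        (fun δ _ => hfin' 1 (j + 1) (by omega) (by omega) δ)
      have h2 : gam D (W (j + 1 + 1)) (W (j + 1)) (W 1) 1 = 0 := by
        unfold gam
        rw [rl_eq_zero_iff]
        refine sup_le ?_ le_rfl
        rw [Submodule.map_le_iff_le_comap]
        rintro z ⟨hz, hDz⟩
        rw [Submodule.mem_comap]
        have hDz' : D z ∈ W (j + 1) 0 := by
          have := hDz
          simpa using this
        obtain ⟨u, hu, hDu⟩ := stair (j + 1) (by omega) hj z hz hDz'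
        have : D z = D u + D (z - u) := by rw [← map_add]; congr 1; abel
        rw [this]
        unfold bb
        refine Submodule.add_mem_sup ?_ ?_
        · exact Submodule.mem_map_of_mem (by simpa using hu)
        · have := mono 0 0 hDu
          simpa using this
      rw [h1, h2, ih (by omega), hchiw (j + 1) (by omega) 1 (by norm_num)
        (by unfold pdeg; rw [if_pos hj]; omega),
        Finset.sum_Icc_succ_top (by omega)]
      have h3 : (1 : ℤ) + pdeg m (j + 1) = ((j + 1 : ℕ) : ℤ) + 1 := by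
        unfold pdeg
        rw [if_pos hj]; ring
      rw [h3]
      simp
      ring
  -- (e)
  have he1 : altS n (hn D (W (m + 1)) Winf) 1 = altS n (hn D (W n) (W (m + 1))) 2 := by
    refine altS_congr n fun i => ?_
    unfold hn
    rw [hII (m + 1) (by omega) (1 + i) (by omega), show (1 : ℤ) + i + 1 = 2 + i by ring]
  have he2 : ∀ b, m + 1 ≤ b → b ≤ n → altS n (hn D (W b) (W (m + 1))) 2 ≤
      ∑ i ∈ Finset.Icc (m + 1) (b - 1), (w i : ℤ) * r (i + 1) := by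
    intro b hb
    induction b, hb using Nat.le_induction with
    | base =>
      intro _
      have : ∀ δ, hn D (W (m + 1)) (W (m + 1)) δ = 0 := fun δ => by
        unfold hn
        rw [hh_self]; simp
      simp [altS, this]
    | succ b hb ih =>
      intro hbn
      have h1 := chi_add D hD n (W (m + 1)) (W b) (W (b + 1)) (hW _) (hW _) (hW _)
        (hmono (m + 1) b hb) (mono b) (hbig _) 2 (by norm_num)
        (fun δ _ => hwfin b (by omega) δ)
        (fun δ _ => hfin' (m + 1) b (by omega) (by omega) δ)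
      have h2 : (0 : ℤ) ≤ ((gam D (W (b + 1)) (W b) (W (m + 1)) 2).toNat : ℤ) := by positivity
      have h3 : (2 : ℤ) + pdeg m b = (b : ℤ) + 1 := by
        unfold pdeg
        rw [if_neg (by omega)]; ring
      have h4 := hchiw b (by omega) 2 (by norm_num) (by rw [h3]; positivity)
      have h5 : ∑ i ∈ Finset.Icc (m + 1) (b + 1 - 1), (w i : ℤ) * r (i + 1) =
          ∑ i ∈ Finset.Icc (m + 1) (b - 1), (w i : ℤ) * r (i + 1) + (w b : ℤ) * r (b + 1) := by
        obtain ⟨c, rfl⟩ : ∃ c, b = c + 1 := ⟨b - 1, by omega⟩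
        simp only [Nat.add_sub_cancel]
        rw [Finset.sum_Icc_succ_top (by omega)]
      rw [h5, h1, h4, h3]
      have := ih (by omega)
      linarith
  -- (a)
  obtain ⟨al, be, h⟩ := les D hD Winf (W 0) (W 1) hWinf (hW _) (hW _) (hminf 0) (mono 0)
  have hg0 : gam D (W 1) (W 0) Winf 0 = 0 := by
    have h0 := (h (-1)).2.2.1
    rw [hlow] at h0
    simpa using (add_eq_zero.mp h0.symm).1
  have hbe : be 0 = ((w 0 * t 0 : ℕ) : ℕ∞) := by
    have h0 := (h 0).2.1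
    rw [hg0, add_zero] at h0
    rw [← h0]
    have := hwin 0 (by omega) 0
    rw [zero_add] at this
    rw [this]
    have hp : pdeg m 0 = 0 := by simp [pdeg]
    rw [hp]
    simp
  have ha : hh D (W 1) Winf 0 = al 0 + ((w 0 * t 0 : ℕ) : ℕ∞) := by
    rw [(h 0).1, hbe]
  have hal : al 0 ≠ ⊤ := by
    intro h0
    rw [ha, h0] at hfin
    simp at hfin
  have ha' : hn D (W 1) Winf 0 = ((al 0).toNat : ℤ) + (w 0 : ℤ) * t 0 := by
    unfold hn
    rw [ha, ENat.toNat_add hal (ENat.natCast_ne_top _)]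
    push_cast
    simp
  -- (b)
  have hJ : gam D (W (m + 1)) (W 1) Winf 1 ≤ al 0 := by
    rw [(h 0).2.2.2]
    unfold gam
    rw [show (1 : ℤ) - 1 = 0 by norm_num]
    refine rl_mono_right ?_
    refine sup_le ?_ le_sup_right
    rw [Submodule.map_le_iff_le_comap]
    rintro z ⟨hz, hDz⟩
    rw [Submodule.mem_comap]
    have hDz' : D z ∈ W 1 0 := by
      have := hDz
      simpa using this
    obtain ⟨u, hu, hDu⟩ := stair_iter D m W mono stair m le_rfl z hz hDz'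
    have : D z = D (z - u) + D u := by rw [← map_add]; congr 1; abel
    rw [this]
    refine Submodule.add_mem_sup ?_ ?_
    · refine ⟨hDu, ?_⟩
      change D (D (z - u)) ∈ Winf (0 - 1)
      rw [hD]
      exact zero_mem _
    · unfold bb
      exact Submodule.mem_sup_left (Submodule.mem_map_of_mem (by simpa using hu))
  have hJ' : ((gam D (W (m + 1)) (W 1) Winf 1).toNat : ℤ) ≤ ((al 0).toNat : ℤ) := by
    exact_mod_cast ENat.toNat_le_toNat hJ hal
  -- (f)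
  have htot : ∑ i ∈ Finset.range (n + 1), (-1 : ℤ) ^ i * ((hh D (W 1) Winf (i : ℤ)).toNat : ℤ) =
      altS n (hn D (W 1) Winf) 0 := by
    unfold altS hn
    refine Finset.sum_congr rfl fun i _ => ?_
    rw [zero_add]
  rw [htot, altS_zero n _ (fun i hi => by
    unfold hn
    rw [hh_eq_zero_of_bot D _ _ i (hbig 1 i hi)]; simp), ha']
  have hd' := hd m le_rfl
  have he' := he2 n (by omega) le_rfl
  rw [he1, hd'] at hc
  linarith

end L

end Vale.Agent.P202.CharP
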