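import Vale.Agent.P202.CharP.Defs

/-!
P202-CHARP, L3: pushing down acyclicity from the union of the chain.
-/

namespace Vale.Agent.P202.CharP

open Submodule TensorProduct IsLocalRing

section L

variable {S 𝕋 : Type*} [CommRing S] [AddCommGroup 𝕋] [Module S 𝕋]

lemma hh_eq_zero_iff {D : 𝕋 →ₗ[S] 𝕋} {Y X : ℤ → Submodule S 𝕋} {δ : ℤ} :
    hh D Y X δ = 0 ↔ ∀ z ∈ Y δ, D z ∈ X (δ - 1) → ∃ w ∈ Y (δ + 1), z - D w ∈ X δ := by
  unfold hh
  rw [rl_eq_zero_iff]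
  constructor
  · intro h z hz hDz
    have h1 : z ∈ bb D Y X δ := h ⟨hz, hDz⟩
    obtain ⟨a, ⟨w, hw, rfl⟩, b, hb, hab⟩ := Submodule.mem_sup.1 h1
    refine ⟨w, hw, ?_⟩
    rw [← hab, add_sub_cancel_left]
    exact hb
  · rintro h z ⟨hz, hDz⟩
    obtain ⟨w, hw, hb⟩ := h z hz hDz
    exact Submodule.mem_sup.2 ⟨D w, ⟨w, hw, rfl⟩, z - D w, hb, by abel⟩

/-- TASK L3: pushing down acyclicity from the union `F` of the chain. -/
theorem pushdown (D : 𝕋 →ₗ[S] 𝕋) (hD : ∀ x, D (D x) = 0) (n : ℕ)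
    (W : ℕ → ℤ → Submodule S 𝕋) (Winf F : ℤ → Submodule S 𝕋)
    (hW : ∀ j, Stab D (W j)) (hWinf : Stab D Winf) (mono : ∀ j δ, W j δ ≤ W (j + 1) δ)
    (monoinf : ∀ δ, Winf δ ≤ W 0 δ) (hF : ∀ δ x, x ∈ F δ ↔ ∃ j, x ∈ W j δ)
    (hF0 : ∀ δ, hh D F Winf δ = 0)
    (hwin : ∀ j, n ≤ j → ∀ δ, 2 ≤ δ → hh D (W (j + 1)) (W j) δ = 0) (δ : ℤ) (hδ : 1 ≤ δ) :
    hh D (W n) Winf δ = 0 := by
  have := hW
  have := hWinf
  have hmono : ∀ {i j : ℕ}, i ≤ j → ∀ δ, W i δ ≤ W j δ := by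
    intro i j hij δ
    induction hij with
    | refl => exact le_rfl
    | step _ ih => exact ih.trans (mono _ _)
  rw [hh_eq_zero_iff]
  intro z hz hDz
  obtain ⟨w, hw, hv⟩ := hh_eq_zero_iff.1 (hF0 δ) z ((hF δ z).2 ⟨n, hz⟩) hDz
  have hDw : D w ∈ W n δ := by
    have h1 : z - D w ∈ W n δ := hmono (Nat.zero_le n) δ (monoinf δ hv)
    have h2 := sub_mem hz h1
    rwa [sub_sub_cancel] at h2
  obtain ⟨j, hj⟩ := (hF _ _).1 hw
  have key : ∀ i : ℕ, ∀ w' ∈ W (n + i) (δ + 1), D w' = D w → ∃ w'' ∈ W n (δ + 1), D w'' = D w := by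
    intro i
    induction i with
    | zero => exact fun w' hw' h => ⟨w', hw', h⟩
    | succ i ih =>
      intro w' hw' h
      have h1 : D w' ∈ W (n + i) (δ + 1 - 1) := by
        rw [h, add_sub_cancel_right]
        exact hmono (Nat.le_add_right n i) δ hDw
      obtain ⟨u, -, hu⟩ := hh_eq_zero_iff.1 (hwin (n + i) (Nat.le_add_right n i) (δ + 1)
        (by omega)) w' hw' h1
      refine ih (w' - D u) hu ?_
      rw [map_sub, hD, sub_zero, h]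
  obtain ⟨w'', hw'', h⟩ := key j w (hmono (Nat.le_add_left j n) _ hj) rfl
  exact ⟨w'', hw'', by rw [h]; exact hv⟩

end L

end Vale.Agent.P202.CharP
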