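import Vale.Agent.P202.CharP.BaseCh
import Vale.Agent.P202.CharP.DefsF

/-!
P202-CHARP: lengths after base change from the polynomial ring, transfer of the window conditions.
-/

namespace Vale.Agent.P202.CharP

open Submodule TensorProduct IsLocalRing

section F

variable {κ : Type*} [Field κ] {r : ℕ}

lemma tr_mem_mX_iff (p : PP κ r) : p ∈ mX κ r ↔ MvPolynomial.constantCoeff p = 0 := by
  have h : mX κ r = MvPolynomial.idealOfVars (Fin (r + 1)) κ := rfl
  rw [h, ← pow_one (MvPolynomial.idealOfVars (Fin (r + 1)) κ),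
    MvPolynomial.mem_pow_idealOfVars_iff', MvPolynomial.constantCoeff_eq]
  constructor
  · intro h
    exact h 0 (by simp)
  · intro h x hx
    have : x = 0 := by
      have := Nat.lt_one_iff.1 hx
      exact (Finsupp.degree_eq_zero_iff x).1 this
    rw [this]
    exact h

lemma tr_mX_eq_ker : mX κ r = RingHom.ker (MvPolynomial.constantCoeff (R := κ) (σ := Fin (r + 1))) := by
  ext p
  rw [tr_mem_mX_iff, RingHom.mem_ker]

theorem tr_mX_isMaximal : (mX κ r).IsMaximal := by
  rw [tr_mX_eq_ker]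
  exact RingHom.ker_isMaximal_of_surjective _
    fun c => ⟨MvPolynomial.C c, MvPolynomial.constantCoeff_C _ c⟩

end F

section Gen

variable {B : Type*} [CommRing B] {A A' : Type*} [CommRing A] [CommRing A'] [Algebra B A']
  [Algebra A A']

/-- lengths after a flat base change, killed by a maximal ideal. -/
theorem tr_rl_bcA_one [Module.Flat B A'] {Λ : Type*} [AddCommGroup Λ] [Module B Λ]
    (m : Ideal B) [m.IsMaximal]
    (X Y : Submodule B Λ) (hm : m • Y ≤ X) (hfin : rl X Y ≠ ⊤) :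
    rl (bcA A A' X) (bcA A A' Y) =
      rl X Y * Module.length A (A' ⧸ m.map (algebraMap B A')) := by
  obtain ⟨w, hw⟩ := ENat.ne_top_iff_exists.1 hfin
  obtain ⟨g0⟩ := exists_equiv_pi (N := ↥Y ⧸ X.submoduleOf Y) m (by
    intro a ha x
    obtain ⟨x, rfl⟩ := Submodule.Quotient.mk_surjective _ x
    rw [← Submodule.Quotient.mk_smul, Submodule.Quotient.mk_eq_zero]
    exact hm (Submodule.smul_mem_smul ha x.2)) w hw.symm
  let g : Y →ₗ[B] (Fin w → B ⧸ m) := g0.toLinearMap ∘ₗ (X.submoduleOf Y).mkQ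
  have hg : LinearMap.ker g = X.submoduleOf Y := by
    rw [LinearMap.ker_comp, LinearEquiv.ker, Submodule.comap_bot, Submodule.ker_mkQ]
  have hgs : Function.Surjective g := g0.surjective.comp (Submodule.mkQ_surjective _)
  have hinj : Function.Injective (Y.subtype.baseChange A') :=
    Module.Flat.lTensor_preserves_injective_linearMap Y.subtype Y.injective_subtype
  let e1 : (A' ⊗[B] Y) ≃ₗ[A'] Y.baseChange A' :=
    LinearEquiv.ofInjective (Y.subtype.baseChange A') hinj
  let e2 : (A' ⊗[B] (Fin w → B ⧸ m)) ≃ₗ[A'] (Fin w → A' ⊗[B] (B ⧸ m)) :=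
    TensorProduct.piRight B A' A' (fun _ => B ⧸ m)
  let e3 : (Fin w → A' ⊗[B] (B ⧸ m)) ≃ₗ[A'] (Fin w → A' ⧸ m.map (algebraMap B A')) :=
    LinearEquiv.piCongrRight fun _ =>
      (Algebra.TensorProduct.quotIdealMapEquivTensorQuot A' m).toLinearEquiv.symm
  let F : Y.baseChange A' →ₗ[A'] (Fin w → A' ⧸ m.map (algebraMap B A')) :=
    (e3.toLinearMap ∘ₗ e2.toLinearMap) ∘ₗ (g.baseChange A') ∘ₗ e1.symm.toLinearMap
  have hFs : Function.Surjective F := by
    have h0 : Function.Surjective (g.baseChange A') := LinearMap.lTensor_surjective A' hgs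
    exact (e3.surjective.comp e2.surjective).comp (h0.comp e1.symm.surjective)
  have hF : LinearMap.ker F = (X.baseChange A').submoduleOf (Y.baseChange A') := by
    ext y
    obtain ⟨t, rfl⟩ := e1.surjective y
    have h1 : F (e1 t) = e3 (e2 (g.baseChange A' t)) := by
      simp [F]
    rw [LinearMap.mem_ker, h1, LinearEquiv.map_eq_zero_iff, LinearEquiv.map_eq_zero_iff,
      ← LinearMap.mem_ker, ker_baseChange, hg]
    have h2 : (X.submoduleOf Y).baseChange A' = (X.baseChange A').comap (Y.subtype.baseChange A') :=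
      baseChange_comap A' Y.subtype X
    rw [h2]
    rfl
  have key : rl (bcA A A' X) (bcA A A' Y) =
      Module.length A (Fin w → A' ⧸ m.map (algebraMap B A')) := by
    refine rl_eq_length_of_surjective (A := A) (K := bcA A A' X) (N := bcA A A' Y)
      (Q := Fin w → A' ⧸ m.map (algebraMap B A'))
      (F.restrictScalars A : ↥(bcA A A' Y) →ₗ[A] _) hFs ?_
    ext y
    have := congrArg (fun Z => y ∈ Z) hF
    exact Iff.of_eq this
  rw [key, Module.length_pi_of_fintype, Finset.sum_const, Finset.card_univ, Fintype.card_fin,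
    nsmul_eq_mul, hw]

lemma tr_bcA_mono {Λ : Type*} [AddCommGroup Λ] [Module B Λ] {X Y : Submodule B Λ} (h : X ≤ Y) :
    bcA A A' X ≤ bcA A A' Y := by
  intro x hx
  exact baseChange_mono A' h hx

/-- lengths after a flat base change. -/
theorem tr_rl_bcA_gen [Module.Flat B A'] {Λ : Type*} [AddCommGroup Λ] [Module B Λ]
    (m : Ideal B) [m.IsMaximal] (Y : Submodule B Λ) (N : ℕ) :
    ∀ X : Submodule B Λ, X ≤ Y → m ^ N • Y ≤ X → rl X Y ≠ ⊤ →
    rl (bcA A A' X) (bcA A A' Y) =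
      rl X Y * Module.length A (A' ⧸ m.map (algebraMap B A')) := by
  induction N with
  | zero =>
    intro X hXY hN _
    rw [pow_zero, Ideal.one_eq_top, Submodule.top_smul] at hN
    have h1 : rl X Y = 0 := rl_eq_zero_iff.2 hN
    have h2 : rl (bcA A A' X) (bcA A A' Y) = 0 := rl_eq_zero_iff.2 (tr_bcA_mono hN)
    rw [h1, h2, zero_mul]
  | succ N ih =>
    intro X hXY hN hfin
    have hXL : X ≤ X ⊔ m ^ N • Y := le_sup_left
    have hLY : X ⊔ m ^ N • Y ≤ Y := sup_le hXY Submodule.smul_le_right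
    have hadd := rl_add hXL hLY
    have hfin1 : rl X (X ⊔ m ^ N • Y) ≠ ⊤ := by
      intro h
      rw [h, top_add] at hadd
      exact hfin hadd
    have hfin2 : rl (X ⊔ m ^ N • Y) Y ≠ ⊤ := by
      intro h
      rw [h, add_top] at hadd
      exact hfin hadd
    have h1 := ih (X ⊔ m ^ N • Y) hLY le_sup_right hfin2
    have h2 := tr_rl_bcA_one (A := A) (A' := A') m X (X ⊔ m ^ N • Y) (by
      rw [Submodule.smul_sup, ← Submodule.mul_smul, ← pow_succ']
      exact sup_le Submodule.smul_le_right hN) hfin1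
    rw [rl_add (tr_bcA_mono (A := A) (A' := A') hXL) (tr_bcA_mono hLY), h1, h2, hadd, add_mul]

lemma tr_mem_bcA_iff {Λ : Type*} [AddCommGroup Λ] [Module B Λ] (X : Submodule B Λ) (v : A' ⊗[B] Λ) :
    v ∈ bcA A A' X ↔ v ∈ X.baseChange A' := Iff.rfl

lemma tr_bcE_apply {Λ : Type*} [AddCommGroup Λ] [Module B Λ] (d : Λ →ₗ[B] Λ) (v : A' ⊗[B] Λ) :
    bcE A A' d v = d.baseChange A' v := rfl

lemma tr_cz_bcA [Module.Flat B A'] {Λ : Type*} [AddCommGroup Λ] [Module B Λ] (d : Λ →ₗ[B] Λ)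
    (Y X : ℤ → Submodule B Λ) (p : ℤ) :
    cz (bcE A A' d) (fun p => bcA A A' (Y p)) (fun p => bcA A A' (X p)) p =
      bcA A A' (cz d Y X p) := by
  have h := cz_bcf A' d Y X p
  ext v
  rw [tr_mem_bcA_iff, ← h]
  rfl

lemma tr_cb_bcA {Λ : Type*} [AddCommGroup Λ] [Module B Λ] (d : Λ →ₗ[B] Λ)
    (Y X : ℤ → Submodule B Λ) (p : ℤ) :
    cb (bcE A A' d) (fun p => bcA A A' (Y p)) (fun p => bcA A A' (X p)) p =
      bcA A A' (cb d Y X p) := by
  have h := cb_bcf A' d Y X p
  ext v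
  rw [tr_mem_bcA_iff, ← h, cb, cb, Submodule.mem_sup, Submodule.mem_sup]
  rfl

lemma tr_smul_mem_baseChange_smul {Λ : Type*} [AddCommGroup Λ] [Module B Λ] (I : Ideal B)
    (X : Submodule B Λ) {s : A'} (hs : s ∈ I.map (algebraMap B A')) {v : A' ⊗[B] Λ}
    (hv : v ∈ X.baseChange A') : s • v ∈ (I • X).baseChange A' := by
  rw [Submodule.baseChange_eq_span A' X] at hv
  induction hv using Submodule.span_induction with
  | mem v hv =>
    obtain ⟨x, hx, rfl⟩ := hv
    rw [TensorProduct.mk_apply]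
    induction hs using Submodule.span_induction with
    | mem s hs =>
      obtain ⟨i, hi, rfl⟩ := hs
      rw [algebraMap_smul, ← TensorProduct.tmul_smul]
      exact tmul_mem_baseChange_of_mem _ (Submodule.smul_mem_smul hi hx)
    | zero => rw [zero_smul]; exact zero_mem _
    | add s t _ _ h1 h2 => rw [add_smul]; exact add_mem h1 h2
    | smul c s _ h => rw [smul_assoc]; exact Submodule.smul_mem _ _ h
  | zero => rw [smul_zero]; exact zero_mem _
  | add v w _ _ h1 h2 => rw [smul_add]; exact add_mem h1 h2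
  | smul c v _ h => rw [smul_comm]; exact Submodule.smul_mem _ _ h

end Gen

section Final

variable {κ : Type*} [Field κ] {r : ℕ} {A A' : Type*} [CommRing A] [CommRing A']
  [Algebra (PP κ r) A'] [Algebra A A']

/-- TASK F2: lengths after base change. -/
theorem rl_bcA [Module.Flat (PP κ r) A'] {Λ : Type*} [AddCommGroup Λ] [Module (PP κ r) Λ]
    (X Y : Submodule (PP κ r) Λ) (hXY : X ≤ Y) (N : ℕ) (hN : (mX κ r) ^ N • Y ≤ X)
    (hfin : rl X Y ≠ ⊤) :
    rl (bcA A A' X) (bcA A A' Y) =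
      rl X Y * Module.length A (A' ⧸ (mX κ r).map (algebraMap (PP κ r) A')) := by
  have : (mX κ r).IsMaximal := tr_mX_isMaximal
  exact tr_rl_bcA_gen (mX κ r) Y N X hXY hN hfin

lemma tr_cb_le_cz {S 𝕋 : Type*} [CommRing S] [AddCommGroup 𝕋] [Module S 𝕋] (d : 𝕋 →ₗ[S] 𝕋)
    (hd : ∀ x, d (d x) = 0) (X Y : ℤ → Submodule S 𝕋) (hX : CStab d X) (hY : CStab d Y)
    (hXY : ∀ p, X p ≤ Y p) (p : ℤ) : cb d Y X p ≤ cz d Y X p := by
  refine sup_le ?_ ?_
  · rintro _ ⟨x, hx, rfl⟩
    refine ⟨?_, ?_⟩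
    · have := hY _ _ hx
      rwa [sub_add_cancel] at this
    · show d (d x) ∈ X (p + 1)
      rw [hd]
      exact zero_mem _
  · intro x hx
    exact ⟨hXY p hx, hX _ _ hx⟩

lemma tr_ex_bcA {B : Type*} [CommRing B] [Algebra B A'] [Module.Flat B A'] {Λ : Type*}
    [AddCommGroup Λ] [Module B Λ] (d : Λ →ₗ[B] Λ) (Y X : ℤ → Submodule B Λ) (p : ℤ)
    (h : Ex d Y X p) :
    Ex (bcE A A' d) (fun p => bcA A A' (Y p)) (fun p => bcA A A' (X p)) p := by
  rw [Ex, tr_cz_bcA, tr_cb_bcA]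
  exact tr_bcA_mono h

lemma tr_cstab_bcA {B : Type*} [CommRing B] [Algebra B A'] {Λ : Type*}
    [AddCommGroup Λ] [Module B Λ] (d : Λ →ₗ[B] Λ) (X : ℤ → Submodule B Λ) (h : CStab d X) :
    CStab (bcE A A' d) (fun p => bcA A A' (X p)) := by
  intro p x hx
  have h1 : (X p).map d ≤ X (p + 1) := by
    rintro _ ⟨x, hx, rfl⟩
    exact h p x hx
  have h2 := baseChange_mono A' h1
  rw [baseChange_map] at h2
  exact h2 ⟨x, hx, rfl⟩

/-- TASK F3: transfer of the window conditions. -/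
theorem win_transfer [IsLocalRing A] [Module.Flat (PP κ r) A'] {Λ : Type*} [AddCommGroup Λ]
    [Module (PP κ r) Λ] (n m Q : ℕ)
    (hpush : ∀ a ∈ maximalIdeal A, algebraMap A A' a ∈ ((mX κ r) ^ Q).map (algebraMap (PP κ r) A'))
    (lam : ℕ) (hlam : Module.length A (A' ⧸ (mX κ r).map (algebraMap (PP κ r) A')) = lam)
    (d : Λ →ₗ[PP κ r] Λ) (W : ℕ → ℤ → Submodule (PP κ r) Λ)
    (Winf : ℤ → Submodule (PP κ r) Λ) (w : ℕ → ℕ)
    (hW : Win ((mX κ r) ^ Q) n m d W Winf (fun j => (w j : ℕ∞))) :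
    Win (maximalIdeal A) n m (bcE A A' d) (fun j p => bcA A A' (W j p))
      (fun p => bcA A A' (Winf p)) (fun j => ((w j * lam : ℕ) : ℕ∞)) where
  dd x := by
    rw [tr_bcE_apply, tr_bcE_apply, ← LinearMap.comp_apply, ← LinearMap.baseChange_comp]
    have : d ∘ₗ d = 0 := LinearMap.ext fun x => hW.dd x
    rw [this, LinearMap.baseChange_zero, LinearMap.zero_apply]
  stab j := tr_cstab_bcA d _ (hW.stab j)
  stabinf := tr_cstab_bcA d _ hW.stabinf
  mono j p := tr_bcA_mono (hW.mono j p)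
  monoinf p := tr_bcA_mono (hW.monoinf p)
  push j p := by
    rw [Submodule.smul_le]
    intro a ha v hv
    have h1 := tr_smul_mem_baseChange_smul ((mX κ r) ^ Q) (W (j + 1) p) (hpush a ha) hv
    rw [algebraMap_smul] at h1
    exact baseChange_mono A' (hW.push j p) h1
  neg j p hp := by
    show bcA A A' (W j p) = ⊥
    rw [hW.neg j p hp]
    ext v
    rw [tr_mem_bcA_iff, Submodule.baseChange_bot]
    rfl
  ex j hj p hp := tr_ex_bcA d _ _ p (hW.ex j hj p hp)
  dim j hj := by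
    rw [tr_cz_bcA, tr_cb_bcA]
    have hdim := hW.dim j hj
    rw [rl_bcA _ _ (tr_cb_le_cz d hW.dd _ _ (hW.stab j) (hW.stab (j + 1)) (hW.mono j) _) Q ?_ ?_,
      hdim, hlam, Nat.cast_mul]
    · refine le_trans (Submodule.smul_mono le_rfl inf_le_left) ?_
      exact (hW.push j _).trans le_sup_right
    · rw [hdim]
      exact ENat.natCast_ne_top _
  lift j hj := by
    have h := tr_bcA_mono (A := A) (A' := A') (hW.lift j hj)
    rw [← tr_cz_bcA] at h
    refine h.trans ?_
    intro v hv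
    rw [tr_mem_bcA_iff, baseChange_sup', baseChange_inf, baseChange_comap] at hv
    rw [tr_cb_bcA, Submodule.mem_sup]
    rw [Submodule.mem_sup] at hv
    exact hv
  ex1 p hp := tr_ex_bcA d _ _ p (hW.ex1 p hp)

end Final

end Vale.Agent.P202.CharP
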