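import Vale.Agent.P202.CharP.RealEnd
import Vale.Agent.P202.CharP.Core
import Vale.Agent.P202.CharP.Acyc
import Vale.Agent.P202.CharP.Pushdown
import Vale.Agent.P202.CharP.MonBasic
import Vale.Agent.P202.CharP.Windows
import Vale.Agent.P202.CharP.BijX
import Vale.Agent.P202.CharP.Transfer

/-!
P202-CHARP, REAL: the inequality for one twist.
-/

namespace Vale.Agent.P202.CharP

open Submodule TensorProduct IsLocalRing

section MonPart

variable {κ : Type*} [Field κ] {r : ℕ}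

lemma re_Mon_mono {E E' : Set (Finset (Fin r) × Gx r)} (h : E ⊆ E') : Mon κ E ≤ Mon κ E' :=
  fun _ hf q I g hg => h (hf q I g hg)

lemma re_MF_mono {E E' : Set (Finset (Fin r) × Gx r)} (h : E ⊆ E') (p : ℤ) :
    MF κ E p ≤ MF κ E' p :=
  re_Mon_mono fun _ hx => ⟨h hx.1, hx.2⟩

lemma MF_le_of_lt (E E' : Set (Finset (Fin r) × Gx r)) (p : ℤ) (hp : p < 0 ∨ (r : ℤ) < p) :
    MF κ E p ≤ MF κ E' p := by
  refine re_Mon_mono ?_
  rintro ⟨I, g⟩ ⟨-, h2⟩
  exfalso
  have h3 : I.card ≤ r := by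
    have := Finset.card_le_univ I
    rwa [Fintype.card_fin] at this
  simp only at h2
  omega

lemma SG_subset_SF (a : Fin r → ℤ) : SG a ⊆ SF r := fun _ hx => hx.1

lemma cstab_SF : CStab (dC κ r) (MF κ (SF r)) := by
  refine cstab_MF up_SF ?_
  intro I g i h hi i' hi'
  exact h i' fun h' => hi' (Finset.mem_insert_of_mem h')

end MonPart

section Transfer

variable {B : Type*} [CommRing B] {Λ : Type*} [AddCommGroup Λ] [Module B Λ]
  (A A' : Type*) [CommRing A] [CommRing A'] [Algebra A A'] [Algebra B A']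

lemma cstab_bcA (d : Λ →ₗ[B] Λ) (X : ℤ → Submodule B Λ) (hX : CStab d X) :
    CStab (bcE A A' d) (fun p => bcA A A' (X p)) := by
  intro p x hx
  have h1 : (X p).map d ≤ X (p + 1) := by
    rintro _ ⟨y, hy, rfl⟩
    exact hX p y hy
  have h2 := bcA_mono A A' h1
  rw [bcA_map] at h2
  exact h2 (Submodule.mem_map_of_mem hx)

end Transfer

section Real

variable {κ : Type*} [Field κ] {r : ℕ} {A A' S : Type*} [CommRing A] [CommRing A'] [CommRing S]
  [Algebra (PP κ r) A'] [Algebra A A'] [Algebra A S]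

/-- acyclicity of the full localization complex. -/
theorem hac_full [Module.Flat (PP κ r) A'] [Module.Flat A S] [IsLocalRing A] (a : Fin r → ℤ)
    (hback : ∃ N : ℕ, ∀ l : Fin (r + 1), (algebraMap (PP κ r) A' (MvPolynomial.X l)) ^ N ∈
      (maximalIdeal A).map (algebraMap A A'))
    (y : Fin (r + 1) → S)
    (hy : ∃ L : ℕ, ((maximalIdeal A) ^ L).map (algebraMap A S) ≤ Ideal.span (Set.range y))
    (hG : CStab (dC κ r) (MF κ (SG a))) (δ : ℤ) :
    hh (tot (kdeg (r + 1)) (kos (r + 1) y) ((bcE A A' (dC κ r)).baseChange S))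
      (lift (kdeg (r + 1)) (bcf S (fun p => bcA A A' (MF κ (SF r) p))))
      (lift (kdeg (r + 1)) (bcf S (fun p => bcA A A' (MF κ (SG a) p)))) δ = 0 := by
  have hd : ∀ x, bcE A A' (dC κ r) (bcE A A' (dC κ r) x) = 0 := by
    intro x
    exact baseChange_dd A' (dC κ r) dC_dC x
  have hle : ∀ p, bcf S (fun p => bcA A A' (MF κ (SG a) p)) p ≤
      bcf S (fun p => bcA A A' (MF κ (SF r) p)) p := fun p =>
    Submodule.baseChange_mono S (bcA_mono A A' (re_MF_mono (SG_subset_SF a) p))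
  have hle' : ∀ p, (p < 0 ∨ (r : ℤ) < p) → bcf S (fun p => bcA A A' (MF κ (SF r) p)) p ≤
      bcf S (fun p => bcA A A' (MF κ (SG a) p)) p := fun p hp =>
    Submodule.baseChange_mono S (bcA_mono A A' (MF_le_of_lt _ _ p hp))
  refine acyc y ((bcE A A' (dC κ r)).baseChange S) (baseChange_dd S _ hd)
    (bcf S (fun p => bcA A A' (MF κ (SG a) p))) (bcf S (fun p => bcA A A' (MF κ (SF r) p)))
    (cstab_bcf S _ _ (cstab_bcA A A' _ _ hG)) (cstab_bcf S _ _ (cstab_bcA A A' _ _ cstab_SF))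
    hle 0 r (fun p hp => hle' p (Or.inl hp)) (fun p hp => hle' p (Or.inr hp)) ?_ δ
  intro p
  by_cases hp : p < 0 ∨ (r : ℤ) < p
  · refine ⟨0, 1, fun _ => 0, ?_, ?_, ?_, ?_, ?_, ?_, ?_⟩
    · intro v _; exact Submodule.zero_mem _
    · intro v _; exact Submodule.zero_mem _
    · intro v hv _; exact hle' p hp hv
    · intro v hv
      refine ⟨0, Submodule.zero_mem _, ?_⟩
      rw [LinearMap.zero_apply, sub_zero]
      exact hle' p hp hv
    · intro i v _; exact Submodule.zero_mem _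
    · intro i v _; exact Submodule.zero_mem _
    · intro v _; simp
  · push Not at hp
    obtain ⟨p', rfl⟩ : ∃ p' : Fin (r + 1), ((p' : ℕ) : ℤ) = p :=
      ⟨⟨p.toNat, by omega⟩, by simp; omega⟩
    obtain ⟨N, hN⟩ := hback
    obtain ⟨L, hL⟩ := hy
    obtain ⟨hinj, hsurj⟩ := bij_X (κ := κ) a p'
    set b : PP κ r := MvPolynomial.X p' with hb
    set c : A' := algebraMap (PP κ r) A' b with hc
    have hcNL : c ^ (N * L) ∈ ((maximalIdeal A) ^ L).map (algebraMap A A') := by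
      rw [pow_mul, Ideal.map_pow]
      exact Ideal.pow_mem_pow (hN p') L
    obtain ⟨Θ, hΘ1, hΘ2⟩ := exists_theta (B := PP κ r) (Λ := Lam κ r) A S y _ hL
      (c ^ (N * L)) hcNL
    have hξ : mulE A (Lam κ r) c = bcE A A' (LinearMap.lsmul (PP κ r) (Lam κ r) b) :=
      mulE_algebraMap A b
    refine ⟨(mulE A (Lam κ r) c).baseChange S, N * L, Θ, ?_, ?_, ?_, ?_, ?_, ?_, ?_⟩
    · intro v hv; exact mulE_baseChange_mem A S c _ v hv
    · intro v hv; exact mulE_baseChange_mem A S c _ v hv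
    · have h1 : MF κ (SF r) ((p' : ℕ) : ℤ) ⊓ (MF κ (SG a) ((p' : ℕ) : ℤ)).comap
          (LinearMap.lsmul (PP κ r) (Lam κ r) b) ≤ MF κ (SG a) ((p' : ℕ) : ℤ) := by
        rintro v ⟨hv1, hv2⟩
        exact hinj v hv1 hv2
      have h2 := Submodule.baseChange_mono S (bcA_mono A A' h1)
      rw [bcA_inf, bcA_comap, baseChange_inf, baseChange_comap, ← hξ] at h2
      intro v hv1 hv2
      exact h2 ⟨hv1, hv2⟩
    · have h1 : MF κ (SF r) ((p' : ℕ) : ℤ) ≤ (MF κ (SF r) ((p' : ℕ) : ℤ)).map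
          (LinearMap.lsmul (PP κ r) (Lam κ r) b) ⊔ MF κ (SG a) ((p' : ℕ) : ℤ) := by
        intro v hv
        obtain ⟨v', hv', h⟩ := hsurj v hv
        exact Submodule.mem_sup.mpr ⟨b • v', ⟨v', hv', rfl⟩, v - b • v', h, by abel⟩
      have h2 := Submodule.baseChange_mono S (bcA_mono A A' h1)
      rw [bcA_sup, bcA_map, baseChange_sup', baseChange_map, ← hξ] at h2
      intro v hv
      obtain ⟨_, ⟨v', hv', rfl⟩, w, hw, hvw⟩ := Submodule.mem_sup.mp (h2 hv)
      refine ⟨v', hv', ?_⟩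
      rw [← hvw, add_sub_cancel_left]
      exact hw
    · intro i v hv; exact hΘ1 i _ v hv
    · intro i v hv; exact hΘ1 i _ v hv
    · intro v _
      rw [← baseChange_pow', ← mulE_pow]
      exact hΘ2 v

/-- the homology of the level `0` of the realization. -/
theorem hh_level_zero [Module.Flat (PP κ r) A'] [Module.Flat A S] (m : Fin (r + 1))
    (Q : ℕ) (y : Fin (r + 1) → S)
    (hG : CStab (dC κ r) (MF κ (SG (am m Q)))) (hW1 : CStab (dC κ r) (MF κ (SW (am m Q) Q 1)))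
    (hle : ∀ p, MF κ (SG (am m Q)) p ≤ MF κ (SW (am m Q) Q 1) p) (i : ℤ) :
    hh (tot (kdeg (r + 1)) (kos (r + 1) y) ((bcE A A' (dC κ r)).baseChange S))
      (lift (kdeg (r + 1)) (bcf S (fun p => bcA A A' (MF κ (SW (am m Q) Q 1) p))))
      (lift (kdeg (r + 1)) (bcf S (fun p => bcA A A' (MF κ (SG (am m Q)) p)))) i =
      kk y (S ⊗[A] (A' ⊗[PP κ r] ↥(NMon κ (SN (am m Q))))) i := by
  have hd : ∀ x, bcE A A' (dC κ r) (bcE A A' (dC κ r) x) = 0 := by
    intro x
    exact baseChange_dd A' (dC κ r) dC_dC x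
  rw [hh_lift_of_ex (kdeg (r + 1)) (kos (r + 1) y) (kos_isCx _ y)
    ((bcE A A' (dC κ r)).baseChange S) (baseChange_dd S _ hd) _ _
    (cstab_bcf S _ _ (cstab_bcA A A' _ _ hG)) (cstab_bcf S _ _ (cstab_bcA A A' _ _ hW1))
    (fun p => Submodule.baseChange_mono S (bcA_mono A A' (hle p))) 0
    (fun p hp => ex_bcf S _ _ _ p (ex_bcA A A' _ _ _ p (ex_zero m Q p hp))) i,
    cz_bcf, cb_bcf, cz_bcA, cb_bcA, add_zero, khs_eq_kh _ _ (kos_isCx _ y)]
  · obtain ⟨e⟩ := coh_zero (κ := κ) m Q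
    set Y0 := cz (dC κ r) (MF κ (SW (am m Q) Q 1)) (MF κ (SG (am m Q))) 0 with hY0
    set X0 := cb (dC κ r) (MF κ (SW (am m Q) Q 1)) (MF κ (SG (am m Q))) 0 with hX0
    obtain ⟨g', hg', hk'⟩ := exists_quot_bcA A' A X0 Y0
      (e.toLinearMap ∘ₗ (X0.submoduleOf Y0).mkQ) (e.surjective.comp (Submodule.mkQ_surjective _))
      (by rw [LinearMap.ker_comp, LinearEquiv.ker, Submodule.comap_bot, Submodule.ker_mkQ])
    obtain ⟨g'', hg'', hk''⟩ := exists_quot_baseChange S (bcA A A' X0) (bcA A A' Y0) g' hg' hk'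
    unfold kk
    exact kh_congr _ _ ((Submodule.quotEquivOfEq _ _ hk''.symm).trans
      (g''.quotKerEquivOfSurjective hg'')) i
  · exact Submodule.baseChange_mono S (bcA_mono A A'
      (cb_le_cz _ dC_dC _ _ hG hW1 hle 0))

/-- TASK REAL: the inequality for one twist. -/
theorem real_ineq [IsLocalRing A] [Module.Flat (PP κ r) A'] [Module.Flat A S] (m : Fin (r + 1))
    (Q : ℕ) (hQ : 1 ≤ Q)
    (hpush : ∀ a ∈ maximalIdeal A, algebraMap A A' a ∈ ((mX κ r) ^ Q).map (algebraMap (PP κ r) A'))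
    (lam : ℕ) (hlam : Module.length A (A' ⧸ (mX κ r).map (algebraMap (PP κ r) A')) = lam)
    (hback : ∃ N : ℕ, ∀ l : Fin (r + 1), (algebraMap (PP κ r) A' (MvPolynomial.X l)) ^ N ∈
      (maximalIdeal A).map (algebraMap A A'))
    (y : Fin (r + 1) → S)
    (hy : ∃ L : ℕ, ((maximalIdeal A) ^ L).map (algebraMap A S) ≤ Ideal.span (Set.range y))
    (t : ℤ → ℕ) (ht : ∀ i, kk y (S ⧸ (maximalIdeal A).map (algebraMap A S)) i = t i)
    (rr : ℤ → ℤ) (hr : ∀ i, (t i : ℤ) = rr i + rr (i + 1))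
    (hr' : ∀ i, ((r + 1 : ℕ) : ℤ) < i → rr i = 0)
    (hfin : kk y (S ⊗[A] (A' ⊗[PP κ r] ↥(NMon κ (SN (am m Q))))) 0 ≠ ⊤) :
    (lam : ℤ) * ((wc m Q 0 : ℤ) * t 0 + ∑ j ∈ Finset.Icc 1 (m : ℕ), (wc m Q j : ℤ) * rr (j + 1) -
        ∑ j ∈ Finset.Icc ((m : ℕ) + 1) r, (wc m Q j : ℤ) * rr (j + 1)) ≤
      kchi y (S ⊗[A] (A' ⊗[PP κ r] ↥(NMon κ (SN (am m Q))))) := by
  have hW0 := win_lam' (κ := κ) m Q hQ
  have hW := win_transfer (A := A) (A' := A') (r + 1) (m : ℕ) Q hpush lam hlam (dC κ r)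
    (fun k => MF κ (SW (am m Q) Q k)) (MF κ (SG (am m Q))) (fun j => wc m Q j) hW0
  have hle1 : ∀ p, MF κ (SG (am m Q)) p ≤ MF κ (SW (am m Q) Q 1) p := fun p =>
    (hW0.monoinf p).trans (hW0.mono 0 p)
  have hlev := hh_level_zero (A := A) (A' := A') m Q y hW0.stabinf (hW0.stab 1) hle1
  have hcx := kos_isCx (r + 1) y
  have hdS := baseChange_dd S _ hW.dd
  have hac : ∀ δ, 1 ≤ δ → hh (tot (kdeg (r + 1)) (kos (r + 1) y)
      ((bcE A A' (dC κ r)).baseChange S))
      (lift (kdeg (r + 1)) (bcf S (fun p => bcA A A' (MF κ (SW (am m Q) Q (r + 1)) p))))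
      (lift (kdeg (r + 1)) (bcf S (fun p => bcA A A' (MF κ (SG (am m Q)) p)))) δ = 0 := by
    intro δ hδ
    refine pushdown (tot (kdeg (r + 1)) (kos (r + 1) y) ((bcE A A' (dC κ r)).baseChange S))
      (fun f => tot_tot _ _ hcx _ hdS f) (r + 1)
      (fun k => lift (kdeg (r + 1)) (bcf S (fun p => bcA A A' (MF κ (SW (am m Q) Q k) p))))
      (lift (kdeg (r + 1)) (bcf S (fun p => bcA A A' (MF κ (SG (am m Q)) p))))
      (lift (kdeg (r + 1)) (bcf S (fun p => bcA A A' (MF κ (SF r) p))))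
      (fun j => lift_stab _ _ hcx _ _ (cstab_bcf S _ _ (hW.stab j)))
      (lift_stab _ _ hcx _ _ (cstab_bcf S _ _ hW.stabinf))
      (fun j δ => lift_mono _ (fun p => Submodule.baseChange_mono S (hW.mono j p)) δ)
      (fun δ => lift_mono _ (fun p => Submodule.baseChange_mono S (hW.monoinf p)) δ)
      ?_ (hac_full (am m Q) hback y hy hW0.stabinf) ?_ δ hδ
    · -- exhaustion
      intro δ' x
      have hstep : ∀ p (z : S ⊗[A] (A' ⊗[PP κ r] Lam κ r)),
          z ∈ bcf S (fun p => bcA A A' (MF κ (SF r) p)) p ↔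
          ∃ k, z ∈ bcf S (fun p => bcA A A' (MF κ (SW (am m Q) Q k) p)) p := by
        intro p z
        exact mem_baseChange_union S (fun k => bcA A A' (MF κ (SW (am m Q) Q k) p))
          (fun k => hW.mono k p) _
          (fun f => mem_baseChange_union A' (fun k => MF κ (SW (am m Q) Q k) p)
            (fun k => hW0.mono k p) _ (fun f => exists_level (am m Q) Q hQ p f) f) z
      have hmono : ∀ {i j : ℕ}, i ≤ j → ∀ p,
          bcf S (fun p => bcA A A' (MF κ (SW (am m Q) Q i) p)) p ≤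
          bcf S (fun p => bcA A A' (MF κ (SW (am m Q) Q j) p)) p := by
        intro i j hij p
        induction hij with
        | refl => exact le_rfl
        | step _ ih => exact ih.trans (Submodule.baseChange_mono S (hW.mono _ p))
      rw [mem_lift]
      constructor
      · intro h
        choose k hk using fun a => (hstep _ _).mp (h a)
        refine ⟨Finset.univ.sup k, ?_⟩
        rw [mem_lift]
        exact fun a => hmono (Finset.le_sup (Finset.mem_univ a)) _ (hk a)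
      · rintro ⟨k, hk⟩ a
        rw [mem_lift] at hk
        exact (hstep _ _).mpr ⟨k, hk a⟩
    · intro j hj δ' hδ'
      refine hh_lift_eq_zero _ _ hcx _ hdS _ _ (cstab_bcf S _ _ (hW.stab j))
        (cstab_bcf S _ _ (hW.stab (j + 1)))
        (fun p => Submodule.baseChange_mono S (hW.mono j p)) δ' fun a => ?_
      refine ex_bcf S _ _ _ _ (ex_bcA A A' _ _ _ _ (ex_far m Q hQ j hj _ ?_))
      have := (kdeg_range (r + 1) a).2
      push_cast at this
      omega
  have hmain := core S (kdeg (r + 1)) (kos (r + 1) y) hcx (r + 1) (m : ℕ) m.2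
    (fun a => kdeg_range (r + 1) a) (bcE A A' (dC κ r))
    (fun k p => bcA A A' (MF κ (SW (am m Q) Q k) p)) (fun p => bcA A A' (MF κ (SG (am m Q)) p))
    (fun j => wc m Q j * lam) hW t ht rr hr hr' hac (by rw [hlev]; exact hfin)
  simp only [hlev, Nat.add_sub_cancel] at hmain
  unfold kchi
  refine le_trans (le_of_eq ?_) hmain
  push_cast
  rw [mul_sub, mul_add, Finset.mul_sum, Finset.mul_sum]
  congr 1
  · congr 1
    · ring
    · exact Finset.sum_congr rfl fun j _ => by ring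
  · exact Finset.sum_congr rfl fun j _ => by ring

end Real

end Vale.Agent.P202.CharP
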