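import Vale.Agent.P202.CharP.RealAux

/-!
P202-CHARP, REAL: multiplication by elements of `A'` on `S ⊗ (A' ⊗ Λ)`.
-/

namespace Vale.Agent.P202.CharP

open Submodule TensorProduct IsLocalRing

section

variable {B : Type*} [CommRing B] {Λ : Type*} [AddCommGroup Λ] [Module B Λ]
  (A : Type*) {A' : Type*} [CommRing A] [CommRing A'] [Algebra A A'] [Algebra B A']

/-- multiplication by an element of `A'`, as an `A`-linear map. -/
noncomputable def mulE (Λ : Type*) [AddCommGroup Λ] [Module B Λ] (c : A') :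
    (A' ⊗[B] Λ) →ₗ[A] (A' ⊗[B] Λ) :=
  (LinearMap.lsmul A' (A' ⊗[B] Λ) c).restrictScalars A

lemma mulE_apply (c : A') (v : A' ⊗[B] Λ) : mulE A Λ c v = c • v := rfl

lemma mulE_algebraMap (b : B) :
    mulE A Λ (algebraMap B A' b) = bcE A A' (LinearMap.lsmul B Λ b) := by
  ext v
  change algebraMap B A' b • v = (LinearMap.lsmul B Λ b).baseChange A' v
  induction v using TensorProduct.induction_on with
  | zero => simp
  | tmul a v =>
    rw [LinearMap.baseChange_tmul, LinearMap.lsmul_apply, TensorProduct.smul_tmul',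
      ← TensorProduct.smul_tmul, algebraMap_smul]
  | add x y hx hy => rw [smul_add, hx, hy, map_add]

lemma mulE_mul (c c' : A') : mulE A Λ (c * c') = (mulE A Λ c).comp (mulE (B := B) A Λ c') := by
  ext v
  exact mul_smul c c' v

lemma mulE_pow (c : A') (N : ℕ) : mulE (B := B) A Λ (c ^ N) = (mulE A Λ c) ^ N := by
  induction N with
  | zero =>
    ext v
    rw [pow_zero, pow_zero, mulE_apply, one_smul]
    rfl
  | succ N ih => rw [pow_succ, mulE_mul, ih, pow_succ]; rfl

variable (S : Type*) [CommRing S] [Algebra A S]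

lemma baseChange_pow' {V : Type*} [AddCommGroup V] [Module A V] (f : V →ₗ[A] V) (N : ℕ) :
    (f ^ N).baseChange S = (f.baseChange S) ^ N := by
  induction N with
  | zero =>
    rw [pow_zero, pow_zero]
    ext v
    simp
  | succ N ih =>
    rw [pow_succ, pow_succ, ← ih, Module.End.mul_eq_comp, Module.End.mul_eq_comp,
      LinearMap.baseChange_comp]

lemma mulE_baseChange_algebraMap (a : A) (v : S ⊗[A] (A' ⊗[B] Λ)) :
    (mulE A Λ (algebraMap A A' a)).baseChange S v = algebraMap A S a • v := by
  induction v using TensorProduct.induction_on with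
  | zero => simp
  | tmul s v =>
    rw [LinearMap.baseChange_tmul, mulE_apply, algebraMap_smul, TensorProduct.tmul_smul,
      algebraMap_smul]
  | add x y hx hy => rw [map_add, hx, hy, smul_add]

lemma mulE_add (c c' : A') :
    mulE (B := B) A Λ (c + c') = mulE A Λ c + mulE A Λ c' := by
  ext v
  exact add_smul c c' v

lemma mulE_baseChange_mem (c : A') (X : Submodule B Λ) (v : S ⊗[A] (A' ⊗[B] Λ))
    (hv : v ∈ (bcA A A' X).baseChange S) :
    (mulE A Λ c).baseChange S v ∈ (bcA A A' X).baseChange S := by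
  have h1 : (bcA A A' X).map (mulE A Λ c) ≤ bcA A A' X := by
    rintro _ ⟨w, hw, rfl⟩
    exact Submodule.smul_mem (X.baseChange A') c hw
  have h2 := Submodule.baseChange_mono S h1
  rw [baseChange_map] at h2
  exact h2 (Submodule.mem_map_of_mem hv)

/-- elements of `I A'` act on `S ⊗ (A' ⊗ Λ)` through the elements `y` if `I S ≤ (y)`. -/
theorem exists_theta {n : ℕ} (y : Fin n → S) (I : Ideal A)
    (hI : I.map (algebraMap A S) ≤ Ideal.span (Set.range y)) (c : A')
    (hc : c ∈ I.map (algebraMap A A')) :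
    ∃ Θ : Fin n → (S ⊗[A] (A' ⊗[B] Λ)) →ₗ[S] (S ⊗[A] (A' ⊗[B] Λ)),
      (∀ i, ∀ X : Submodule B Λ, ∀ v ∈ (bcA A A' X).baseChange S,
        Θ i v ∈ (bcA A A' X).baseChange S) ∧
      ∀ v, (mulE A Λ c).baseChange S v = ∑ i, y i • Θ i v := by
  rw [Ideal.map] at hc
  induction hc using Submodule.span_induction with
  | mem c hc =>
    obtain ⟨a, ha, rfl⟩ := hc
    obtain ⟨s, hs⟩ := (Ideal.mem_span_range_iff_exists_fun).mp (hI (Ideal.mem_map_of_mem _ ha))
    refine ⟨fun i => LinearMap.lsmul S _ (s i), ?_, ?_⟩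
    · intro i X v hv
      exact Submodule.smul_mem _ _ hv
    · intro v
      rw [mulE_baseChange_algebraMap, ← hs, Finset.sum_smul]
      refine Finset.sum_congr rfl fun i _ => ?_
      rw [LinearMap.lsmul_apply, smul_smul, mul_comm]
  | zero =>
    refine ⟨fun _ => 0, ?_, ?_⟩
    · intro i X v _
      exact Submodule.zero_mem _
    · intro v
      have h0 : mulE (B := B) A Λ (0 : A') = 0 := by
        ext w
        exact zero_smul A' w
      rw [h0]
      simp
  | add c c' _ _ h1 h2 =>
    obtain ⟨Θ, h1, h1'⟩ := h1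
    obtain ⟨Θ', h2, h2'⟩ := h2
    refine ⟨fun i => Θ i + Θ' i, ?_, ?_⟩
    · intro i X v hv
      exact Submodule.add_mem _ (h1 i X v hv) (h2 i X v hv)
    · intro v
      rw [mulE_add, LinearMap.baseChange_add, LinearMap.add_apply, h1', h2',
        ← Finset.sum_add_distrib]
      refine Finset.sum_congr rfl fun i _ => ?_
      rw [LinearMap.add_apply, smul_add]
  | smul c' c _ h =>
    obtain ⟨Θ, h1, h1'⟩ := h
    refine ⟨fun i => (mulE A Λ c').baseChange S ∘ₗ Θ i, ?_, ?_⟩
    · intro i X v hv
      exact mulE_baseChange_mem A S c' X _ (h1 i X v hv)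
    · intro v
      rw [smul_eq_mul, mulE_mul, LinearMap.baseChange_comp, LinearMap.comp_apply, h1', map_sum]
      refine Finset.sum_congr rfl fun i _ => ?_
      rw [map_smul, LinearMap.comp_apply]

end

end Vale.Agent.P202.CharP
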